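import Mathlib
import Crest.Agent.N218.K.Pb
import Crest.Agent.N218.K.Col

-- ▼ part N218/Gp/Gp
section

/-!
# Row 218 (helper65): equivariant general position
-/

set_option autoImplicit false

open Set Topology Filter Module

noncomputable section

namespace Crest.Agent.N218.Gp

variable {X W : Type*} [TopologicalSpace X] [NormedAddCommGroup W]

/-- near `x`, maps to `W` can be pushed off `0` -/
def Dm (W : Type*) [NormedAddCommGroup W] (x : X) : Prop :=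
  ∀ N ∈ 𝓝 x, ∃ B ∈ 𝓝 x, B ⊆ N ∧ ∀ f : X → W, ContinuousOn f B → ∀ ε > 0,
    ∃ g : X → W, ContinuousOn g B ∧ ∀ y ∈ B, g y ≠ 0 ∧ ‖g y - f y‖ ≤ ε

variable [NormedSpace ℝ W]

theorem dm_fin {E : Type*} [NormedAddCommGroup E] [NormedSpace ℝ E] [FiniteDimensional ℝ E]
    [FiniteDimensional ℝ W] (h : finrank ℝ E < finrank ℝ W) (x : E) : Dm W x := fun N hN => by
  obtain ⟨B, hB, c, s⟩ := exists_mem_nhds_isClosed_subset hN
  refine ⟨B, hB, s, fun f hf ε hε => ?_⟩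
  have := TietzeExtension.of_tvs ℝ (E := W)
  obtain ⟨F, hF⟩ := ContinuousMap.exists_restrict_eq c ⟨B.domRestrict f, hf.domRestrict⟩
  obtain ⟨p, p1, p2, -⟩ := F.continuous.exists_contDiff_approx 1 (ε := fun _ => ε / 2)
    continuous_const fun _ => half_pos hε
  obtain ⟨w, w1, w2⟩ := (ContDiff.dense_compl_range_of_finrank_lt_finrank p1 h).exists_mem_open
    Metric.isOpen_ball (Metric.nonempty_ball.2 (half_pos hε) : (Metric.ball (0 : W) _).Nonempty)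
  refine ⟨fun y => p y - w, (p1.continuous.sub continuous_const).continuousOn, fun y hy =>
    ⟨fun e => w1 ⟨y, sub_eq_zero.1 e⟩, ?_⟩⟩
  have e : F y = f y := congrArg (fun u : C(B, W) => u ⟨y, hy⟩) hF
  have a := p2 y
  rw [dist_eq_norm, e] at a
  rw [sub_right_comm]
  exact (norm_sub_le _ _).trans (by linarith [mem_ball_zero_iff.1 w2])



variable {G : Type*} [Group G] [Fintype G] [MulAction G X] [ContinuousConstSMul G X]
  (ρ : G →* (W →L[ℝ] W))


/-- one step -/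
theorem step {Om D K B : Set X} {s : X → W} (hs : ContinuousOn s Om)
    (he : ∀ g, ∀ x ∈ Om, s (g • x) = ρ g (s x)) (hD : IsCompact D) (DO : D ⊆ Om)
    (h0 : ∀ x ∈ D, s x ≠ 0) (BO : B ⊆ Om) (hB : ∀ g : G, g ≠ 1 → ∀ x ∈ B, g • x ∉ B)
    (hp : ∀ f : X → W, ContinuousOn f B → ∀ ε > 0,
      ∃ g : X → W, ContinuousOn g B ∧ ∀ y ∈ B, g y ≠ 0 ∧ ‖g y - f y‖ ≤ ε)
    (φ : C(X, ℝ)) (φ1 : EqOn φ 1 K) (φ2 : tsupport φ ⊆ interior B) (φ3 : ∀ x, φ x ∈ Icc (0 : ℝ) 1)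
    {ε : ℝ} (hε : 0 < ε) : ∃ s' : X → W, ContinuousOn s' Om ∧
      (∀ g, ∀ x ∈ Om, s' (g • x) = ρ g (s' x)) ∧ (∀ x ∈ D ∪ K, s' x ≠ 0) ∧
      (∀ x, (∀ g : G, g • x ∉ tsupport φ) → s' x = s x) ∧ ∀ x, ‖s' x - s x‖ ≤ ε := by
  classical
  obtain ⟨m, m0, hm⟩ : ∃ m > 0, ∀ x ∈ D, m ≤ ‖s x‖ := by
    rcases D.eq_empty_or_nonempty with rfl | ne
    · exact ⟨1, one_pos, by simp⟩
    · obtain ⟨x, hx, k⟩ := hD.exists_isMinOn ne (hs.mono DO).norm
      exact ⟨_, norm_pos_iff.2 (h0 x hx), fun y hy => k hy⟩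
  obtain ⟨c, hc⟩ : ∃ c, c = ∑ g, ‖ρ g‖ + 1 := ⟨_, rfl⟩
  have c0 : 0 < c := by rw [hc]; positivity
  have d0 : 0 < min ε (m / 2) := by positivity
  obtain ⟨p, p1, p2⟩ := hp s (hs.mono BO) (min ε (m / 2) / c) (by positivity)
  let u : X → W := fun y => φ y • (p y - s y)
  have u0 : ∀ y, y ∉ tsupport φ → u y = 0 := fun y hy => by
    simp [u, image_eq_zero_of_notMem_tsupport hy]
  have uc : Continuous u :=
    (φ.continuous.continuousOn.smul ((p1.sub (hs.mono BO)).mono interior_subset)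
      ).continuous_of_tsupport_subset isOpen_interior ((tsupport_smul_subset_left _ _).trans φ2)
  have ub : ∀ y, ‖u y‖ ≤ min ε (m / 2) / c := fun y => by
    by_cases hy : y ∈ tsupport φ
    · rw [norm_smul, Real.norm_of_nonneg (φ3 y).1]
      exact (mul_le_of_le_one_left (norm_nonneg _) (φ3 y).2).trans (p2 y (interior_subset (φ2 hy))).2
    · rw [u0 y hy, norm_zero]; positivity
  have sb : ∀ x, ‖∑ g : G, ρ g (u (g⁻¹ • x))‖ ≤ min ε (m / 2) := fun x => by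
    refine (norm_sum_le_of_le _ fun g _ => ((ρ g).le_opNorm _).trans
      (mul_le_mul_of_nonneg_left (ub _) (norm_nonneg _))).trans ?_
    rw [← Finset.sum_mul, mul_div_assoc', div_le_iff₀ c0, mul_comm]
    exact mul_le_mul_of_nonneg_left (by linarith) d0.le
  refine ⟨fun x => s x + ∑ g : G, ρ g (u (g⁻¹ • x)), hs.add (Continuous.continuousOn ?_),
    fun h x hx => ?_, fun x hx => ?_, fun x hx => ?_, fun x => ?_⟩
  · exact continuous_finsetSum _ fun g _ => (ρ g).continuous.comp (uc.comp (continuous_const_smul _))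
  · simp only [he h x hx, map_add, map_sum]
    congr 1
    rw [← Equiv.sum_comp (Equiv.mulLeft h)]
    simp [mul_smul]
  · rcases hx with hx | hx
    · intro e
      have a := sb x
      rw [eq_neg_of_add_eq_zero_right e, norm_neg] at a
      linarith [hm x hx, min_le_right ε (m / 2)]
    · have b : x ∈ B := interior_subset (φ2 (subset_tsupport _ (by simp [φ1 hx])))
      beta_reduce
      rw [Finset.sum_eq_single 1 (fun g _ hg => by
        rw [u0 _ fun k => hB _ (inv_ne_one.2 hg) x b (interior_subset (φ2 k)), map_zero]) (by simp)]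
      simpa [u, φ1 hx] using (p2 x b).1
  · simp [u0 _ (hx _)]
  · simpa using (sb x).trans (min_le_left _ _)

/-- **equivariant general position** -/
theorem gp [T2Space X] [LocallyCompactSpace X] {Om N : Set X} (hO : IsOpen Om)
    (hi : ∀ g : G, ∀ x ∈ Om, g • x ∈ Om) {s : X → W} (hs : ContinuousOn s Om)
    (he : ∀ g, ∀ x ∈ Om, s (g • x) = ρ g (s x)) (hZ : IsCompact {x ∈ Om | s x = 0}) (hN : IsOpen N)
    (ZN : ∀ x ∈ Om, s x = 0 → x ∈ N) (hf : ∀ x ∈ Om, s x = 0 → ∀ g : G, g • x = x → g = 1)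
    (hd : ∀ x ∈ Om, s x = 0 → Dm W x) {ε : ℝ} (hε : 0 < ε) :
    ∃ (s' : X → W) (C : Set X), IsCompact C ∧ C ⊆ Om ∩ N ∧ (∀ g : G, ∀ x ∈ C, g • x ∈ C) ∧
      ContinuousOn s' Om ∧ (∀ g, ∀ x ∈ Om, s' (g • x) = ρ g (s' x)) ∧ (∀ x ∈ Om, s' x ≠ 0) ∧
      (∀ x, x ∉ C → s' x = s x) ∧ ∀ x, ‖s' x - s x‖ ≤ ε := by
  classical
  have loc : ∀ x : {x ∈ Om | s x = 0}, ∃ (K B : Set X) (φ : C(X, ℝ)), K ∈ 𝓝 x.1 ∧ IsCompact K ∧
      (∀ g : G, ∀ y ∈ B, g • y ∈ Om ∩ N) ∧ (∀ g : G, g ≠ 1 → ∀ x ∈ B, g • x ∉ B) ∧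
      (∀ f : X → W, ContinuousOn f B → ∀ ε > 0,
        ∃ g : X → W, ContinuousOn g B ∧ ∀ y ∈ B, g y ≠ 0 ∧ ‖g y - f y‖ ≤ ε) ∧ EqOn φ 1 K ∧
      IsCompact (tsupport φ) ∧ tsupport φ ⊆ interior B ∧ ∀ x, φ x ∈ Icc (0 : ℝ) 1 := by
    rintro ⟨x, xO, x0⟩
    have a : ∀ g : G, ∃ U ∈ 𝓝 x, (∀ y ∈ U, g • y ∈ Om ∩ N) ∧ (g ≠ 1 → ∀ y ∈ U, g • y ∉ U) := fun g => by
      have b : (g • ·) ⁻¹' (Om ∩ N) ∈ 𝓝 x := (continuous_const_smul g).continuousAt.preimage_mem_nhds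
        ((hO.inter hN).mem_nhds ⟨hi g x xO, ZN _ (hi g x xO) (by rw [he g x xO, x0, map_zero])⟩)
      by_cases hg : g = 1
      · exact ⟨_, b, fun y hy => hy, fun k => (k hg).elim⟩
      · obtain ⟨U, V, hU, hV, d⟩ := t2_separation_nhds (show g • x ≠ x from fun e => hg (hf x xO x0 g e))
        exact ⟨_, inter_mem b (inter_mem hV ((continuous_const_smul g).continuousAt.preimage_mem_nhds hU)),
          fun y hy => hy.1, fun _ y hy k => disjoint_left.1 d hy.2.2 k.2.1⟩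
    choose U U1 U2 U3 using a
    obtain ⟨B, B1, B2, B3⟩ := hd x xO x0 _ (iInter_mem.2 U1)
    obtain ⟨K, K1, K2, K3⟩ := local_compact_nhds (interior_mem_nhds.2 B1)
    obtain ⟨φ, φ1, φ2, φ3, φ4⟩ := exists_continuousMap_one_of_isCompact_subset_isOpen K3
      isOpen_interior K2
    exact ⟨K, B, φ, K1, K3, fun g y hy => U2 g y (mem_iInter.1 (B2 hy) g),
      fun g hg y hy k => U3 g hg y (mem_iInter.1 (B2 hy) g) (mem_iInter.1 (B2 k) g), B3, φ1, φ2, φ3, φ4⟩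
  choose K B φ K1 K2 B1 B2 B3 φ1 φ2 φ3 φ4 using loc
  obtain ⟨t, ht⟩ := hZ.elim_finite_subcover (fun x => interior (K x)) (fun _ => isOpen_interior)
    fun x hx => mem_iUnion.2 ⟨⟨x, hx⟩, mem_interior_iff_mem_nhds.2 (K1 ⟨x, hx⟩)⟩
  let C : Set X := ⋃ x ∈ t, ⋃ g : G, (g • ·) '' tsupport (φ x)
  have Cc : IsCompact C := t.isCompact_biUnion fun x _ =>
    isCompact_iUnion fun g => (φ2 x).image (continuous_const_smul g)
  have CO : C ⊆ Om ∩ N := iUnion₂_subset fun x _ => iUnion_subset fun g => by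
    rintro _ ⟨y, hy, rfl⟩
    exact B1 x g y (interior_subset (φ3 x hy))
  have Cm : ∀ x ∈ t, ∀ (g : G) y, g • y ∈ tsupport (φ x) → y ∈ C := fun x hx g y hy =>
    mem_iUnion₂.2 ⟨x, hx, mem_iUnion.2 ⟨g⁻¹, _, hy, inv_smul_smul g y⟩⟩
  let D : Set X := C \ ⋃ x ∈ t, interior (K x)
  have Dc : IsCompact D := Cc.diff (isOpen_biUnion fun _ _ => isOpen_interior)
  have KO : ∀ x, K x ⊆ tsupport (φ x) := fun x y hy => subset_tsupport _ (by simp [φ1 x hy])
  have BO : ∀ x, B x ⊆ Om := fun x y hy => by simpa using (B1 x 1 y hy).1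
  have key : ∀ r ⊆ t, ∀ ε > 0, ∃ s' : X → W, ContinuousOn s' Om ∧
      (∀ g, ∀ x ∈ Om, s' (g • x) = ρ g (s' x)) ∧ (∀ x ∈ D ∪ ⋃ y ∈ r, K y, s' x ≠ 0) ∧
      (∀ x, x ∉ C → s' x = s x) ∧ ∀ x, ‖s' x - s x‖ ≤ ε := fun r => by
    induction r using Finset.induction_on with
    | empty =>
      exact fun _ ε hε => ⟨s, hs, he, fun x hx e => by
        have hx : x ∈ D := by simpa using hx
        exact hx.2 (ht ⟨(CO hx.1).1, e⟩), fun _ _ => rfl, fun x => by simpa using hε.le⟩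
    | insert z r _ ih =>
      intro h ε hε
      obtain ⟨a, a1, a2, a3, a4, a5⟩ := ih ((Finset.subset_insert _ _).trans h) _ (half_pos hε)
      obtain ⟨b, b1, b2, b3, b4, b5⟩ := step ρ a1 a2 (Dc.union (r.isCompact_biUnion fun y _ => K2 y))
        (union_subset (fun x hx => (CO hx.1).1) (iUnion₂_subset fun y _ =>
          (KO y).trans ((φ3 y).trans (interior_subset.trans (BO y))))) a3 (BO z) (B2 z) (B3 z) (φ z)
        (φ1 z) (φ3 z) (φ4 z) (half_pos hε)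
      refine ⟨b, b1, b2, fun x hx => b3 x ?_, fun x hx => (b4 x fun g k =>
        hx (Cm z (h (Finset.mem_insert_self _ _)) g x k)).trans (a4 x hx), fun x => ?_⟩
      · rw [Finset.set_biUnion_insert] at hx
        rcases hx with hx | hx | hx
        exacts [.inl (.inl hx), .inr hx, .inl (.inr hx)]
      · exact (norm_sub_le_norm_sub_add_norm_sub _ (a x) _).trans (by linarith [a5 x, b5 x])
  obtain ⟨a, a1, a2, a3, a4, a5⟩ := key t subset_rfl ε hε
  refine ⟨a, C, Cc, CO, fun g x hx => ?_, a1, a2, fun x hx => ?_, a4, a5⟩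
  · obtain ⟨y, hy, k⟩ := mem_iUnion₂.1 hx
    obtain ⟨h, z, hz, rfl⟩ := mem_iUnion.1 k
    exact mem_iUnion₂.2 ⟨y, hy, mem_iUnion.2 ⟨g * h, z, hz, mul_smul g h z⟩⟩
  · by_cases c : x ∈ ⋃ y ∈ t, interior (K y)
    · exact a3 x (.inr (iUnion₂_mono (fun _ _ => interior_subset) c))
    · by_cases d : x ∈ C
      · exact a3 x (.inl ⟨d, c⟩)
      · rw [a4 x d]
        exact fun e => c (ht ⟨hx, e⟩)


end Crest.Agent.N218.Gp
end
namespace Crest.Agent.N218.Gp.Dm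
end Crest.Agent.N218.Gp.Dm
end

-- ▼ part N218/K/Cy

/-!
# Row 218, block D1 (helper66): bordism calculus, existence and uniqueness of cycles
-/

set_option autoImplicit false
set_option linter.unusedVariables false
set_option linter.unusedSectionVars false

open unitInterval Topology Filter Set

noncomputable section

namespace Crest.Agent.N218.K

theorem cp_of_sub {Z E : Type} [TopologicalSpace Z] [T2Space Z] [TopologicalSpace E] [T1Space E]
    [Zero E] {O K : Set Z} {f : Z → E} (k : IsCompact K) (s : K ⊆ O) (ct : ContinuousOn f O)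
    (z : ∀ x ∈ O, f x = 0 → x ∈ K) : IsCompact {x ∈ O | f x = 0} := by
  have : {x ∈ O | f x = 0} = K ∩ f ⁻¹' {0} := by
    ext x; exact ⟨fun a => ⟨z x a.1 a.2, a.2⟩, fun a => ⟨s a.1, a.2⟩⟩
  rw [this]
  exact k.of_isClosed_subset
    ((ct.mono s).preimage_isClosed_of_isClosed k.isClosed isClosed_singleton) inter_subset_left

variable {Γ Γ' : Type} [Group Γ] [TopologicalSpace Γ] [Group Γ'] [TopologicalSpace Γ']

theorem LS.cont_act (X : LS Γ) (g : Γ) : Continuous (X.act g) :=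
  X.cont.comp (continuous_const.prodMk continuous_id)

theorem LS.fr_open [Finite Γ] (X : LS Γ) : IsOpen X.fr := by
  have : X.fr = ⋂ g, {x | X.act g x = x → g = 1} := by ext x; simp [LS.fr]
  rw [this]
  refine isOpen_iInter_of_finite fun g => ?_
  by_cases h : g = 1
  · simp [h]
  · simp only [h, imp_false]
    exact (isClosed_eq (X.cont_act g) continuous_id).isOpen_compl

theorem LS.fr_act (X : LS Γ) (g : Γ) {x : X.Z} (h : x ∈ X.fr) : X.act g x ∈ X.fr := fun g' e => by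
  have := h (g⁻¹ * g' * g) (by rw [X.mul, X.mul, e, X.inv_act])
  rwa [mul_assoc, inv_mul_eq_one, eq_comm, mul_eq_right] at this

namespace PB
variable {X X' : LS Γ} {V V' U : Rep Γ} {P Q R : PB X V} {S S' : Set X.Z}

theorem Ok.mono (h : P.Ok S) (s : S ⊆ S') : P.Ok S' :=
  ⟨h.op, h.inv, h.ct, h.eq, h.cp, h.fr.trans s⟩
theorem Ok.z_act (h : P.Ok S) (g : Γ) {x : X.Z} (a : x ∈ P.Z) : X.act g x ∈ P.Z :=
  ⟨h.inv g x a.1, by rw [h.eq g x a.1, a.2, map_zero]⟩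

theorem Le.rfl' (P : PB X V) : P.Le P := ⟨Subset.rfl, fun _ _ => rfl, fun _ a => a.1⟩
theorem Le.z_eq (h : P.Le Q) : P.Z = Q.Z :=
  Set.ext fun x => ⟨fun a => ⟨h.sub a.1, (h.eq x a.1).symm.trans a.2⟩,
    fun a => ⟨h.z a, (h.eq x (h.z a)).trans a.2⟩⟩
theorem Le.tr (h : P.Le Q) (h' : Q.Le R) : P.Le R :=
  ⟨h.sub.trans h'.sub, fun x a => (h.eq x a).trans (h'.eq x (h.sub a)),
    fun x a => h.z (h'.z_eq ▸ a)⟩
theorem Le.ok (h : P.Le Q) (q : Q.Ok S) (op : IsOpen P.O)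
    (inv : ∀ g, ∀ x ∈ P.O, X.act g x ∈ P.O) : P.Ok S :=
  ⟨op, inv, (q.ct.mono h.sub).congr h.eq,
    fun g x o => by rw [h.eq _ (inv g x o), h.eq _ o, q.eq g x (h.sub o)], h.z_eq ▸ q.cp,
    h.z_eq ▸ q.fr⟩
theorem on_le {N : Set X.Z} (z : P.Z ⊆ N) : (P.on N).Le P :=
  ⟨inter_subset_left, fun _ _ => rfl, fun _ a => ⟨a.1, z a⟩⟩
theorem Ok.on (h : P.Ok S) {N : Set X.Z} (op : IsOpen N) (inv : ∀ g, ∀ x ∈ N, X.act g x ∈ N)
    (z : P.Z ⊆ N) : (P.on N).Ok S :=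
  (on_le z).ok h (h.op.inter op) fun g x a => ⟨h.inv g x a.1, inv g x a.2⟩

section par
variable {T T' : Type} [TopologicalSpace T] [LocallyCompactSpace T] [T2Space T]
  [TopologicalSpace T'] [LocallyCompactSpace T'] [T2Space T']

/-- a family given by plain data -/
def fam (O : Set (X.Z × T)) (f : X.Z × T → V.W) : PB (X.prod (LS.triv Γ T)) V := ⟨O, f⟩

theorem fam_ok {O : Set (X.Z × T)} {f : X.Z × T → V.W} (op : IsOpen O)
    (inv : ∀ g x t, (x, t) ∈ O → (X.act g x, t) ∈ O) (ct : ContinuousOn f O)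
    (eq : ∀ g x t, (x, t) ∈ O → f (X.act g x, t) = V.ρ g (f (x, t)))
    (cp : IsCompact {z ∈ O | f z = 0}) (fr : ∀ x t, (x, t) ∈ O → f (x, t) = 0 → x ∈ S) :
    (fam O f).Ok (Prod.fst ⁻¹' S) :=
  ⟨op, fun g z => inv g z.1 z.2, ct, fun g z => eq g z.1 z.2, cp, fun z a => fr z.1 z.2 a.1 a.2⟩

theorem Ok.sl {H : PB (X.prod (LS.triv Γ T)) V} (h : H.Ok (Prod.fst ⁻¹' S)) (t : T) :
    (H.sl t).Ok S :=
  have c : IsClosedEmbedding fun x : X.Z => (x, t) :=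
    Function.LeftInverse.isClosedEmbedding (f := Prod.fst) (fun _ => rfl) continuous_fst
      (continuous_id.prodMk continuous_const)
  ⟨h.op.preimage c.continuous, fun g x a => h.inv g (x, t) a,
    h.ct.comp c.continuous.continuousOn fun _ a => a, fun g x a => h.eq g (x, t) a,
    c.isCompact_preimage h.cp, fun x a => h.fr (a := (x, t)) a⟩

/-- change of the parameter -/
def rp (H : PB (X.prod (LS.triv Γ T)) V) (c : T' → T) : PB (X.prod (LS.triv Γ T')) V :=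
  fam {z : X.Z × T' | (z.1, c z.2) ∈ H.O} fun z => H.f (z.1, c z.2)

theorem Ok.rp [CompactSpace T'] {H : PB (X.prod (LS.triv Γ T)) V} (h : H.Ok (Prod.fst ⁻¹' S))
    {c : T' → T} (hc : Continuous c) : (H.rp c).Ok (Prod.fst ⁻¹' S) :=
  have m : Continuous fun z : X.Z × T' => ((z.1, c z.2) : X.Z × T) :=
    continuous_fst.prodMk (hc.comp continuous_snd)
  fam_ok (h.op.preimage m) (fun g x t a => h.inv g (x, c t) a)
    (h.ct.comp m.continuousOn fun _ a => a) (fun g x t a => h.eq g (x, c t) a)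
    (((h.cp.image continuous_fst).prod isCompact_univ).of_isClosed_subset
      (h.cp.isClosed.preimage m) fun z a => ⟨⟨(z.1, c z.2), a, rfl⟩, trivial⟩)
    fun x t a b => h.fr (a := (x, c t)) ⟨a, b⟩
end par

/-- constructor of bordisms -/
theorem hb_of (hP : P.Ok S) (hQ : Q.Ok S) (O : Set (X.Z × I)) (f : X.Z × I → V.W) (op : IsOpen O)
    (inv : ∀ g x t, (x, t) ∈ O → (X.act g x, t) ∈ O) (ct : ContinuousOn f O)
    (eq : ∀ g x t, (x, t) ∈ O → f (X.act g x, t) = V.ρ g (f (x, t)))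
    (cp : IsCompact {z ∈ O | f z = 0}) (fr : ∀ x t, (x, t) ∈ O → f (x, t) = 0 → x ∈ S)
    (l0 : Le ⟨{x | (x, 0) ∈ O}, fun x => f (x, 0)⟩ P)
    (l1 : Le ⟨{x | (x, 1) ∈ O}, fun x => f (x, 1)⟩ Q) : Hb S P Q :=
  ⟨hP, hQ, fam O f, fam_ok op inv ct eq cp fr, l0, l1⟩

theorem Ok.hb_sl {H : PB X.cy V} (h : H.Ok (Prod.fst ⁻¹' S)) :
    Hb S (H.sl (0 : I)) (H.sl (1 : I)) := ⟨h.sl _, h.sl _, H, h, Le.rfl' _, Le.rfl' _⟩

theorem hb_le (hP : P.Ok S) (hQ : Q.Ok S) (hR : R.Ok S) (a : R.Le P) (b : R.Le Q) : Hb S P Q :=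
  hb_of hP hQ (Prod.fst ⁻¹' R.O) (fun z => R.f z.1) (hR.op.preimage continuous_fst)
    (fun g x _ => hR.inv g x) (hR.ct.comp continuousOn_fst fun _ a => a) (fun g x _ => hR.eq g x)
    ((hR.cp.prod isCompact_univ).of_isClosed_subset (hR.cp.isClosed.preimage continuous_fst)
      fun _ a => ⟨a, trivial⟩) (fun x _ o z => hR.fr ⟨o, z⟩) a b

theorem Ok.hb (h : P.Ok S) : Hb S P P := hb_le h h h (Le.rfl' P) (Le.rfl' P)
theorem Le.hb (h : P.Le Q) (hP : P.Ok S) (hQ : Q.Ok S) : Hb S P Q := hb_le hP hQ hP (Le.rfl' P) h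

theorem Hb.mono (h : Hb S P Q) (s : S ⊆ S') : Hb S' P Q :=
  let ⟨a, b, H, c, d⟩ := h; ⟨a.mono s, b.mono s, H, c.mono (preimage_mono s), d⟩

theorem Hb.sy (h : Hb S P Q) : Hb S Q P := by
  obtain ⟨a, b, H, c, d, e⟩ := h
  refine ⟨b, a, H.rp σ, c.rp continuous_symm, ?_, ?_⟩
  · change (H.sl (σ 0)).Le Q; rwa [symm_zero]
  · change (H.sl (σ 1)).Le P; rwa [symm_one]

theorem Hb.tr (h : Hb S P Q) (h' : Hb S Q R) : Hb S P R := by
  classical
  obtain ⟨p, q, H, c, d, e⟩ := h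
  obtain ⟨-, r, H', c', d', e'⟩ := h'
  let a : I → I := fun t => projIcc 0 1 zero_le_one (2 * t)
  let b : I → I := fun t => projIcc 0 1 zero_le_one (2 * t - 1)
  have a1 : ∀ t : I, (t : ℝ) = 1 / 2 → a t = 1 := fun t i => projIcc_of_right_le _ (by linarith)
  have b0 : ∀ t : I, (t : ℝ) = 1 / 2 → b t = 0 := fun t i => projIcc_of_le_left _ (by linarith)
  have a0 : a 0 = 0 := projIcc_of_le_left _ (by simp)
  have b1 : b 1 = 1 := projIcc_of_right_le _ (by norm_num)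
  have A := c.rp (c := a) (continuous_projIcc.comp (by fun_prop))
  have B := c'.rp (c := b) (continuous_projIcc.comp (by fun_prop))
  have ct : Continuous fun z : X.Z × I => (z.2 : ℝ) := by fun_prop
  let O : Set (X.Z × I) := {z | ((1 : ℝ) / 2 < z.2 ∨ z ∈ (H.rp a).O) ∧
    ((z.2 : ℝ) < 1 / 2 ∨ z ∈ (H'.rp b).O)}
  let f : X.Z × I → V.W := fun z => if (z.2 : ℝ) ≤ 1 / 2 then (H.rp a).f z else (H'.rp b).f z
  have cf : ContinuousOn f O := by
    refine ContinuousOn.if (fun z i => ?_) (A.ct.mono fun z i => ?_) (B.ct.mono fun z i => ?_)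
    · have t := frontier_le_subset_eq ct continuous_const i.2
      have i1 : (z.1, a z.2) ∈ H.O := i.1.1.resolve_left (not_lt.2 t.le)
      have i2 : (z.1, b z.2) ∈ H'.O := i.1.2.resolve_left (not_lt.2 t.ge)
      change H.f (z.1, a z.2) = H'.f (z.1, b z.2)
      rw [a1 _ t] at i1 ⊢
      rw [b0 _ t] at i2 ⊢
      exact (e.eq _ i1).trans (d'.eq _ i2).symm
    · rw [closure_le_eq ct continuous_const] at i
      exact i.1.1.resolve_left (not_lt.2 i.2)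
    · simp only [not_le] at i
      exact i.1.2.resolve_left (not_lt.2 (closure_lt_subset_le continuous_const ct i.2))
  refine hb_of p r O f (((isOpen_lt continuous_const ct).union A.op).inter
    ((isOpen_lt ct continuous_const).union B.op))
    (fun g x t i => ⟨i.1.imp_right (A.inv g (x, t)), i.2.imp_right (B.inv g (x, t))⟩) cf
    (fun g x t i => ?_) (cp_of_sub (K := ((H.rp a).Z ∩ {z : X.Z × I | (z.2 : ℝ) ≤ 1 / 2}) ∪
      ((H'.rp b).Z ∩ {z : X.Z × I | 1 / 2 ≤ (z.2 : ℝ)}))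
      ((A.cp.inter_right (isClosed_le ct continuous_const)).union
        (B.cp.inter_right (isClosed_le continuous_const ct))) ?_ cf fun z i j => ?_)
    (fun x t i j => ?_) ?_ ?_
  · by_cases k : (t : ℝ) ≤ 1 / 2
    · exact (if_pos k).trans ((A.eq g (x, t) (i.1.resolve_left (not_lt.2 k))).trans
        (congrArg _ (if_pos k).symm))
    · exact (if_neg k).trans ((B.eq g (x, t) (i.2.resolve_left fun l => k l.le)).trans
        (congrArg _ (if_neg k).symm))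
  · rintro z (⟨i, j⟩ | ⟨i, j⟩)
    · refine ⟨.inr i.1, (lt_or_eq_of_le j).imp_right fun t => ?_⟩
      change (z.1, a z.2) ∈ H.Z at i
      change (z.1, b z.2) ∈ H'.O
      rw [a1 _ t] at i
      rw [b0 _ t]
      exact d'.z (e.z_eq ▸ i)
    · refine ⟨(lt_or_eq_of_le j).imp_right fun t => ?_, .inr i.1⟩
      change (z.1, b z.2) ∈ H'.Z at i
      change (z.1, a z.2) ∈ H.O
      rw [b0 _ t.symm] at i
      rw [a1 _ t.symm]
      exact e.z (d'.z_eq ▸ i)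
  · by_cases k : (Subtype.val z.2 : ℝ) ≤ 1 / 2
    · exact .inl ⟨⟨i.1.resolve_left (not_lt.2 k), (if_pos k).symm.trans j⟩, k⟩
    · exact .inr ⟨⟨i.2.resolve_left fun l => k l.le, (if_neg k).symm.trans j⟩, (not_le.1 k).le⟩
  · by_cases k : (t : ℝ) ≤ 1 / 2
    · exact A.fr (a := (x, t)) ⟨i.1.resolve_left (not_lt.2 k), (if_pos k).symm.trans j⟩
    · exact B.fr (a := (x, t)) ⟨i.2.resolve_left fun l => k l.le, (if_neg k).symm.trans j⟩
  · refine Le.tr (Q := H.sl (a 0)) ⟨fun x i => i.1.resolve_left (by norm_num),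
      fun x _ => if_pos (by norm_num), fun x i => ⟨.inr i.1, .inl (by norm_num)⟩⟩ ?_
    rwa [a0]
  · refine Le.tr (Q := H'.sl (b 1)) ⟨fun x i => i.2.resolve_left (by norm_num),
      fun x _ => if_neg (by norm_num), fun x i => ⟨.inl (by norm_num), .inr i.1⟩⟩ ?_
    rwa [b1]

/-- a perturbation inside a compact set -/
theorem Ok.hb_pert (h : P.Ok S) {f : X.Z → V.W} {C : Set X.Z} (k : IsCompact C) (s : C ⊆ P.O ∩ S)
    (ct : ContinuousOn f P.O) (eq : ∀ g, ∀ x ∈ P.O, f (X.act g x) = V.ρ g (f x))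
    (off : ∀ x ∈ P.O, x ∉ C → f x = P.f x) : Hb S P ⟨P.O, f⟩ := by
  have s1 : P.Z ∪ C ⊆ P.O := union_subset (fun _ a => a.1) fun _ a => (s a).1
  have s2 : P.Z ∪ C ⊆ S := union_subset h.fr fun _ a => (s a).2
  have z1 : ∀ x ∈ P.O, f x = 0 → x ∈ P.Z ∪ C := fun x o z =>
    or_iff_not_imp_right.2 fun n => ⟨o, (off x o n).symm.trans z⟩
  have z2 : ∀ (x : X.Z) (t : ℝ), x ∈ P.O → (1 - t) • P.f x + t • f x = 0 → x ∈ P.Z ∪ C :=
    fun x t o z => or_iff_not_imp_right.2 fun n => ⟨o, by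
      rw [off x o n, ← add_smul, sub_add_cancel, one_smul] at z; exact z⟩
  have c : ContinuousOn (fun z : X.Z × I => (1 - (z.2 : ℝ)) • P.f z.1 + (z.2 : ℝ) • f z.1)
      (Prod.fst ⁻¹' P.O) :=
    ((Continuous.continuousOn (by fun_prop)).smul (h.ct.comp continuousOn_fst fun _ a => a)).add
      ((Continuous.continuousOn (by fun_prop)).smul (ct.comp continuousOn_fst fun _ a => a))
  exact hb_of h ⟨h.op, h.inv, ct, eq, cp_of_sub (h.cp.union k) s1 ct z1,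
      fun x a => s2 (z1 x a.1 a.2)⟩ _ _ (h.op.preimage continuous_fst) (fun g x _ => h.inv g x) c
    (fun g x t o => by simp only [h.eq g x o, eq g x o, map_add, map_smul])
    (cp_of_sub ((h.cp.union k).prod isCompact_univ) (fun _ a => s1 a.1) c
      fun z o e => ⟨z2 _ _ o e, trivial⟩) (fun x t o e => s2 (z2 _ _ o e))
    ⟨fun _ a => a, fun x _ => by simp, fun _ a => a.1⟩
    ⟨fun _ a => a, fun x _ => by simp, fun _ a => a.1⟩

/-- general position for problems -/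
theorem Ok.gp [Finite Γ] (h : P.Fr) {N : Set X.Z} (hN : IsOpen N) (ZN : P.Z ⊆ N)
    (hd : ∀ x ∈ P.Z, Gp.Dm V.W x) : ∃ (s : X.Z → V.W) (C : Set X.Z), IsCompact C ∧ C ⊆ P.O ∩ N ∧
      ContinuousOn s P.O ∧ (∀ g, ∀ x ∈ P.O, s (X.act g x) = V.ρ g (s x)) ∧ (∀ x ∈ P.O, s x ≠ 0) ∧
      ∀ x, x ∉ C → s x = P.f x := by
  have := Fintype.ofFinite Γ
  let : MulAction Γ X.Z := { smul := X.act, one_smul := X.one, mul_smul := X.mul }
  have : ContinuousConstSMul Γ X.Z := ⟨X.cont_act⟩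
  obtain ⟨s, C, a, b, -, c, d, e, f, -⟩ := Gp.gp V.ρ h.op h.inv h.ct h.eq h.cp hN
    (fun x o z => ZN ⟨o, z⟩) (fun x o z => h.fr ⟨o, z⟩) (fun x o z => hd x ⟨o, z⟩) one_pos
  exact ⟨s, C, a, b, c, d, e, f⟩

/-- **every free problem is bordant to a cycle** -/
theorem cyc_ex [Finite Γ] (h : P.Fr) (U : Rep Γ) (hd : ∀ x ∈ P.Z, Gp.Dm (V.W × U.W) x) :
    ∃ (P' : PB X V) (k : X.Z → U.W), P.Bd P' ∧ P'.Lift U k ∧ P'.O = P.O := by
  let R : PB X (V.prod U) := ⟨P.O, fun x => (P.f x, 0)⟩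
  have z : R.Z = P.Z := Set.ext fun x =>
    ⟨fun a => ⟨a.1, congrArg Prod.fst a.2⟩, fun a => ⟨a.1, Prod.ext a.2 rfl⟩⟩
  have r : R.Fr := ⟨h.op, h.inv, h.ct.prodMk continuousOn_const,
    fun g x o => Prod.ext (h.eq g x o) (map_zero (U.ρ g)).symm, z ▸ h.cp, z ▸ h.fr⟩
  obtain ⟨s, C, a, b, c, d, e, f⟩ := r.gp X.fr_open r.fr (z ▸ hd)
  exact ⟨⟨P.O, fun x => (s x).1⟩, fun x => (s x).2, h.hb_pert a b c.fst
    (fun g x o => congrArg Prod.fst (d g x o)) fun x _ n => congrArg Prod.fst (f x n),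
    ⟨c.snd, fun g x o => congrArg Prod.snd (d g x o), fun x i n => e x i.1 (Prod.ext i.2 n)⟩, rfl⟩

/-- **bordant cycles are bordant as cycles** -/
theorem cyc_bd [Finite Γ] (h : P.Bd Q) {k k' : X.Z → U.W} (l : P.Lift U k) (l' : Q.Lift U k')
    (hd : ∀ z : X.Z × ℝ, Gp.Dm (V.W × U.W) z) : ∃ (H : PB X.cy V) (κ : X.Z × I → U.W),
      H.Ok (Prod.fst ⁻¹' X.fr) ∧ H.Lift U κ ∧ (H.sl (0 : I)).Le P ∧ (H.sl (1 : I)).Le Q ∧
      (∀ x, κ (x, 0) = k x) ∧ ∀ x, κ (x, 1) = k' x := by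
  obtain ⟨p, q, H, c, d, e⟩ := h
  let a : ℝ → I := fun t => projIcc 0 1 zero_le_one (3 * t - 1)
  have a0 : ∀ t, t ≤ 1 / 3 → a t = 0 := fun t i => projIcc_of_le_left _ (by linarith)
  have a1 : ∀ t, 2 / 3 ≤ t → a t = 1 := fun t i => projIcc_of_right_le _ (by linarith)
  have m : Continuous fun z : X.Z × ℝ => ((z.1, a z.2) : X.Z × I) :=
    continuous_fst.prodMk (continuous_projIcc.comp (by fun_prop))
  let O : Set (X.Z × ℝ) := {z | (z.1, a z.2) ∈ H.O}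
  have o0 : ∀ z ∈ O, z.2 ≤ 1 / 3 → z.1 ∈ P.O := fun z i j =>
    d.sub (show (z.1, (0 : I)) ∈ H.O from a0 _ j ▸ i)
  have o1 : ∀ z ∈ O, 2 / 3 ≤ z.2 → z.1 ∈ Q.O := fun z i j =>
    e.sub (show (z.1, (1 : I)) ∈ H.O from a1 _ j ▸ i)
  have cut : ∀ (R : PB X V) (κ : X.Z → U.W) (u : ℝ → ℝ), IsOpen R.O → R.Lift U κ → Continuous u →
      (∀ z ∈ O, 0 ≤ u z.2 → z.1 ∈ R.O) →
      ContinuousOn (fun z : X.Z × ℝ => max (u z.2) 0 • κ z.1) O ∧ ∀ g x t, (x, t) ∈ O →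
        max (u t) 0 • κ (X.act g x) = U.ρ g (max (u t) 0 • κ x) := fun R κ u r n cu i => by
    refine ⟨fun z j => ContinuousAt.continuousWithinAt ?_, fun g x t j => ?_⟩
    · rcases le_or_gt 0 (u z.2) with b | b
      · exact ((cu.comp continuous_snd).max continuous_const).continuousAt.smul
          ((n.ct.continuousAt (r.mem_nhds (i z j b))).comp continuousAt_fst)
      · refine (continuousAt_const (y := (0 : U.W))).congr ?_
        filter_upwards [(isOpen_lt (cu.comp continuous_snd) continuous_const).mem_nhds b] with w b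
        rw [max_eq_right (show u w.2 ≤ 0 from le_of_lt b), zero_smul]
    · rcases le_or_gt 0 (u t) with b | b
      · rw [n.eq g x (i _ j b), map_smul]
      · simp [max_eq_right b.le]
  obtain ⟨c0, e0⟩ := cut P k (fun t => 1 - 3 * t) p.op l (by fun_prop)
    fun z i j => o0 z i (by linarith)
  obtain ⟨c1, e1⟩ := cut Q k' (fun t => 3 * t - 2) q.op l' (by fun_prop)
    fun z i j => o1 z i (by linarith)
  let F : X.Z × ℝ → V.W × U.W := fun z =>
    (H.f (z.1, a z.2), max (1 - 3 * z.2) 0 • k z.1 + max (3 * z.2 - 2) 0 • k' z.1)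
  have cF : ContinuousOn F O := (c.ct.comp m.continuousOn fun _ i => i).prodMk (c0.add c1)
  have zF : ∀ z ∈ O, F z = 0 → (z.1, a z.2) ∈ H.Z ∧ z.2 ∈ Icc (1 / 3 : ℝ) (2 / 3) := by
    intro z i j
    have j1 : (z.1, a z.2) ∈ H.Z := ⟨i, congrArg Prod.fst j⟩
    have j2 : max (1 - 3 * z.2) 0 • k z.1 + max (3 * z.2 - 2) 0 • k' z.1 = 0 := congrArg Prod.snd j
    refine ⟨j1, not_lt.1 fun b => ?_, not_lt.1 fun b => ?_⟩
    · rw [a0 _ b.le] at j1
      rw [max_eq_left (by linarith), max_eq_right (by linarith), zero_smul, add_zero,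
        smul_eq_zero] at j2
      exact j2.elim (fun j2 => by linarith) (l.nz _ (d.z_eq ▸ j1))
    · rw [a1 _ b.le] at j1
      rw [max_eq_right (by linarith), max_eq_left (by linarith), zero_smul, zero_add,
        smul_eq_zero] at j2
      exact j2.elim (fun j2 => by linarith) (l'.nz _ (e.z_eq ▸ j1))
  have kZ : IsCompact {z : X.Z × ℝ | (z.1, a z.2) ∈ H.Z ∧ z.2 ∈ Icc (0 : ℝ) 1} :=
    ((c.cp.image continuous_fst).prod isCompact_Icc).of_isClosed_subset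
      ((c.cp.isClosed.preimage m).inter (isClosed_Icc.preimage continuous_snd))
      fun z i => ⟨⟨_, i.1, rfl⟩, i.2⟩
  have r : (fam (V := V.prod U) O F).Ok (Prod.fst ⁻¹' X.fr) :=
    fam_ok (c.op.preimage m) (fun g x t i => c.inv g (x, a t) i) cF
      (fun g x t i => Prod.ext (c.eq g (x, a t) i)
        ((congrArg₂ _ (e0 g x t i) (e1 g x t i)).trans (map_add (U.ρ g) _ _).symm))
      (cp_of_sub (E := V.W × U.W) kZ (fun z i => i.1.1) cF fun z i j =>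
        ⟨(zF z i j).1, by linarith [(zF z i j).2.1], by linarith [(zF z i j).2.2]⟩)
      fun x t i j => c.fr (zF _ i j).1
  obtain ⟨s, C, kC, sC, cs, es, ns, fs⟩ := Ok.gp (P := fam (V := V.prod U) O F)
    (r.mono fun z i g b => i g (congrArg Prod.fst b)) (N := X.fr ×ˢ Ioo (0 : ℝ) 1)
    (show IsOpen (X.fr ×ˢ Ioo (0 : ℝ) 1) from X.fr_open.prod isOpen_Ioo) (fun z i => ⟨r.fr i,
      by linarith [(zF z i.1 i.2).2.1], by linarith [(zF z i.1 i.2).2.2]⟩) fun z _ => hd z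
  have n : IsClosedEmbedding fun z : X.Z × I => ((z.1, z.2) : X.Z × ℝ) :=
    IsClosedEmbedding.id.prodMap isClosed_Icc.isClosedEmbedding_subtypeVal
  have cs' : ContinuousOn (fun z : X.Z × I => s (z.1, (z.2 : ℝ))) {z | (z.1, (z.2 : ℝ)) ∈ O} :=
    cs.comp n.continuous.continuousOn fun _ i => i
  have zs : ∀ (x : X.Z) (t : I), (x, (t : ℝ)) ∈ O → (s (x, (t : ℝ))).1 = 0 → (x, (t : ℝ)) ∈
      {z : X.Z × ℝ | (z.1, a z.2) ∈ H.Z ∧ z.2 ∈ Icc (0 : ℝ) 1} ∪ C := fun x t i j =>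
    or_iff_not_imp_right.2 fun b => ⟨⟨i, (congrArg Prod.fst (fs _ b)).symm.trans j⟩, t.2⟩
  have s0 : ∀ x, s (x, ((0 : I) : ℝ)) = F (x, 0) := fun x => fs _ fun b => (sC b).2.2.1.false
  have s1 : ∀ x, s (x, ((1 : I) : ℝ)) = F (x, 1) := fun x => fs _ fun b => (sC b).2.2.2.false
  refine ⟨fam {z : X.Z × I | (z.1, (z.2 : ℝ)) ∈ O} fun z => (s (z.1, (z.2 : ℝ))).1,
    fun z => (s (z.1, (z.2 : ℝ))).2, fam_ok (r.op.preimage n.continuous)
      (fun g x t i => r.inv g (x, (t : ℝ)) i) cs'.fst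
      (fun g x t i => congrArg Prod.fst (es g (x, (t : ℝ)) i))
      (cp_of_sub (n.isCompact_preimage (kZ.union kC))
        (fun z i => i.elim (fun i => i.1.1) fun i => (sC i).1) cs'.fst fun z => zs z.1 z.2)
      fun x t i j => (zs x t i j).elim (fun i => c.fr i.1) fun i => (sC i).2.1,
    ⟨cs'.snd, fun g z i => congrArg Prod.snd (es g (z.1, Subtype.val z.2) i),
      fun z i j => ns _ i.1 (Prod.ext i.2 j)⟩, Le.tr (Q := H.sl (a 0)) ⟨fun _ i => i,
        fun x _ => congrArg Prod.fst (s0 x), fun _ i => i.1⟩ (by rwa [a0 0 (by norm_num)]),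
    Le.tr (Q := H.sl (a 1)) ⟨fun _ i => i, fun x _ => congrArg Prod.fst (s1 x), fun _ i => i.1⟩
      (by rwa [a1 1 (by norm_num)]), fun x => (congrArg Prod.snd (s0 x)).trans ?_,
    fun x => (congrArg Prod.snd (s1 x)).trans ?_⟩
  · norm_num [F]
  · norm_num [F]

end PB

variable [CompactSpace Γ]

/-- bordant fibrewise problems have homotopic collapses -/
theorem FP.ht_of_hb {Y : GS Γ} {M : LS Γ} {W : Rep Γ} {P Q : FP Y M W}
    (h : PB.Hb univ P.tp Q.tp) : P.hm.Ht Q.hm := by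
  obtain ⟨p, q, H, c, d, e⟩ := h
  obtain ⟨a, b, t⟩ := FP.ht_of (Y := Y) (M := M) (W := W)
    ⟨(H.sl (0 : I)).O, (H.sl (0 : I)).f⟩ ⟨(H.sl (1 : I)).O, (H.sl (1 : I)).f⟩ (Prod.swap ⁻¹' H.O)
    (fun z => H.f z.swap) (c.op.preimage continuous_swap) (fun g t x => c.inv g (x, t))
    (c.ct.comp continuous_swap.continuousOn fun _ i => i) (fun g t x => c.eq g (x, t))
    ((Homeomorph.prodComm _ _).isClosedEmbedding.isCompact_preimage c.cp)
    (fun _ => Iff.rfl) (fun _ _ => rfl) (fun _ => Iff.rfl) fun _ _ => rfl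
  exact (((FP.ok_iff P).2 p).exc a d.sub d.eq fun x o z => d.z ⟨o, z⟩).tr
    (t.tr (((FP.ok_iff Q).2 q).exc b e.sub e.eq fun x o z => e.z ⟨o, z⟩).sy)

namespace PB
variable {X : LS Γ} {V U : Rep Γ} {P Q : PB X V} {S : Set X.Z} {Y : GS Γ} {j : Y.Z → U.W}

/-- the dual problem is admissible -/
theorem Th_ok (h : P.Ok S) {k : X.Z → U.W} (l : P.Lift U k) (cj : Continuous j)
    (ej : ∀ g y, j (Y.act g y) = U.ρ g (j y)) (nj : ∀ y, j y ≠ 0) : (P.Th U k Y j).Ok := by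
  have m : Continuous fun z : Y.Z × X.Z × ℝ => z.2.1 := continuous_snd.fst
  have ct : ContinuousOn (fun z : Y.Z × X.Z × ℝ =>
      ((P.f z.2.1, k z.2.1 - Real.exp z.2.2 • j z.1) : V.W × U.W)) {z | z.2.1 ∈ P.O} :=
    (h.ct.comp m.continuousOn fun _ i => i).prodMk ((l.ct.comp m.continuousOn fun _ i => i).sub
      (Continuous.continuousOn (by fun_prop)))
  have ck : ContinuousOn (fun p : Y.Z × X.Z => k p.2) (univ ×ˢ P.Z) :=
    l.ct.comp continuousOn_snd fun _ i => i.2.1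
  refine ⟨h.op.preimage m, fun g z i => h.inv g _ i, ct, fun g z i => Prod.ext (h.eq g _ i) ?_,
    cp_of_sub (E := V.W × U.W) (K := (fun p : Y.Z × X.Z => (p.1, (p.2, Real.log (‖k p.2‖ / ‖j p.1‖)))) '' univ ×ˢ P.Z)
      ((isCompact_univ.prod h.cp).image_of_continuousOn (continuousOn_fst.prodMk
        (continuousOn_snd.prodMk ((ck.norm.div (cj.comp continuous_fst).norm.continuousOn
          fun p _ => norm_ne_zero_iff.2 (nj _)).log fun p i =>
            div_ne_zero (norm_ne_zero_iff.2 (l.nz _ i.2)) (norm_ne_zero_iff.2 (nj _))))))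
      ?_ ct fun z i e => ⟨(z.1, z.2.1), ⟨trivial, i, congrArg Prod.fst e⟩, ?_⟩⟩
  · change k (X.act g z.2.1) - _ • j (Y.act g z.1) = U.ρ g (k z.2.1 - _ • j z.1)
    rw [l.eq g _ i, ej, map_sub, map_smul]; rfl
  · rintro _ ⟨p, i, rfl⟩; exact i.2.1
  · have : k z.2.1 = Real.exp z.2.2 • j z.1 := sub_eq_zero.1 (congrArg Prod.snd e)
    refine Prod.ext rfl (Prod.ext rfl ?_)
    simp only [this, norm_smul, Real.norm_eq_abs, abs_of_pos (Real.exp_pos _)]
    rw [mul_div_cancel_right₀ _ (norm_ne_zero_iff.2 (nj _)), Real.log_exp]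

theorem Le.th (h : P.Le Q) {k k' : X.Z → U.W} (e : ∀ x ∈ P.O, k x = k' x) :
    (P.Th U k Y j).tp.Le (Q.Th U k' Y j).tp :=
  ⟨fun z i => h.sub i, fun z i => Prod.ext (h.eq _ i) (congrArg (· - _) (e _ i)),
    fun z i => h.z ⟨i.1, congrArg Prod.fst i.2⟩⟩

theorem Lift.sl {H : PB X.cy V} {κ : X.Z × I → U.W} (l : H.Lift U κ) (t : I) :
    (H.sl t).Lift U fun x => κ (x, t) :=
  ⟨l.ct.comp (continuous_id.prodMk continuous_const).continuousOn fun _ i => i,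
    fun g x i => l.eq g (x, t) i, fun x i => l.nz (x, t) i⟩

/-- a bordism of cycles gives a bordism of the dual problems -/
theorem Th_hb {H : PB X.cy V} (h : H.Ok (Prod.fst ⁻¹' S)) {κ : X.Z × I → U.W} (l : H.Lift U κ)
    (cj : Continuous j) (ej : ∀ g y, j (Y.act g y) = U.ρ g (j y)) (nj : ∀ y, j y ≠ 0) :
    Hb univ ((H.sl (0 : I)).Th U (fun x => κ (x, 0)) Y j).tp
      ((H.sl (1 : I)).Th U (fun x => κ (x, 1)) Y j).tp := by
  have T := Th_ok h l cj ej nj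
  have m : IsClosedEmbedding fun z : (Y.Z × X.Z × ℝ) × I =>
      ((z.1.1, (z.1.2.1, z.2), z.1.2.2) : Y.Z × (X.Z × I) × ℝ) :=
    Function.LeftInverse.isClosedEmbedding (f := fun z => ((z.1, z.2.1.1, z.2.2), z.2.1.2))
      (fun _ => rfl) (by fun_prop) (by fun_prop)
  exact hb_of ((FP.ok_iff _).1 (Th_ok (h.sl _) (l.sl _) cj ej nj))
    ((FP.ok_iff _).1 (Th_ok (h.sl _) (l.sl _) cj ej nj)) (_ ⁻¹' (H.Th U κ Y j).O)
    (fun z => (H.Th U κ Y j).f (z.1.1, (z.1.2.1, z.2), z.1.2.2)) (T.op.preimage m.continuous)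
    (fun g x t i => T.inv g _ i) (T.ct.comp m.continuous.continuousOn fun _ i => i)
    (fun g x t i => T.eq g _ i) (m.isCompact_preimage T.cp) (fun _ _ _ _ => trivial)
    (Le.rfl' _) (Le.rfl' _)

/-- **the dual problem depends only on the bordism class** -/
theorem cyc_hb [Finite Γ] (h : P.Bd Q) {k k' : X.Z → U.W} (l : P.Lift U k) (l' : Q.Lift U k')
    (hd : ∀ z : X.Z × ℝ, Gp.Dm (V.W × U.W) z) (cj : Continuous j)
    (ej : ∀ g y, j (Y.act g y) = U.ρ g (j y)) (nj : ∀ y, j y ≠ 0) :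
    Hb univ (P.Th U k Y j).tp (Q.Th U k' Y j).tp := by
  obtain ⟨H, κ, a, b, c, d, e, f⟩ := cyc_bd h l l' hd
  have t := Th_hb a b cj ej nj
  exact ((c.th fun x _ => e x).hb t.1 ((FP.ok_iff _).1 (Th_ok h.1 l cj ej nj))).sy.tr
    (t.tr ((d.th fun x _ => f x).hb t.2.1 ((FP.ok_iff _).1 (Th_ok h.2.1 l' cj ej nj))))

theorem cyc_un [Finite Γ] (h : P.Bd Q) {k k' : X.Z → U.W} (l : P.Lift U k) (l' : Q.Lift U k')
    (hd : ∀ z : X.Z × ℝ, Gp.Dm (V.W × U.W) z) (cj : Continuous j)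
    (ej : ∀ g y, j (Y.act g y) = U.ρ g (j y)) (nj : ∀ y, j y ≠ 0) :
    (P.Th U k Y j).hm.Ht (Q.Th U k' Y j).hm := FP.ht_of_hb (cyc_hb h l l' hd cj ej nj)

end PB

end Crest.Agent.N218.K

end
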