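import Crest.Agent.R204.PsiD_357
import Crest.Agent.R204.HInv_313

/-!
# Row 218, blocks D0/D1 (helper34): K-theory carrier (FROZEN definitions)

Ex-spaces, mapping cones, compact `Γ`-spaces, representations, sphere bundles, fibrewise problems.
-/

set_option autoImplicit false
set_option linter.unusedVariables false
set_option linter.unnecessarySeqFocus false

open Crest.Agent.R204.K357 unitInterval Topology Filter Set OnePoint

noncomputable section

namespace Crest.Agent.N218.K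

/-- `K₀` of a commutative ring -/
abbrev KC (A : Type) [CommRing A] : Type := @K0 A CommRing.toRing
/-- functoriality -/
abbrev KA {A B : Type} [CommRing A] [CommRing B] [Algebra ℂ A] [Algebra ℂ B] (φ : A →ₐ[ℂ] B) :
    KC A →+* KC B := K0.mapRing (φ : A →+* B)
instance fact3 : Fact (Nat.Prime 3) := ⟨Nat.prime_three⟩
/-- the Adams operation `ψ³` -/
abbrev ps (A : Type) [CommRing A] [Algebra ℂ A] : KC A →+* KC A := psi 3 A
/-- K-theory of a space -/
abbrev KX (X : Type) [TopologicalSpace X] : Type := KC C(X, ℂ)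
/-- pull-back -/
def pull {X Y : Type} [TopologicalSpace X] [TopologicalSpace Y] (f : C(X, Y)) : KX Y →+* KX X :=
  KA (ContinuousMap.compRightAlgHom ℂ ℂ f)

/-! ## ex-spaces -/

/-- compact spaces over and under `X` -/
structure Ex (X : Type) [TopologicalSpace X] where
  E : Type
  [top : TopologicalSpace E]
  [cpt : CompactSpace E]
  [t2 : T2Space E]
  p : C(E, X)
  s : C(X, E)
  ps : ∀ x, p (s x) = x

attribute [instance] Ex.top Ex.cpt Ex.t2

section ex
variable {X X' : Type} [TopologicalSpace X] [TopologicalSpace X']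

/-- reduced classes -/
def Ex.Rd (A : Ex X) (x : KX A.E) : Prop := pull A.s x = 0
/-- the module structure -/
def Ex.sm (A : Ex X) (a : KX X) (x : KX A.E) : KX A.E := pull A.p a * x
/-- Thom classes -/
def Ex.Th (A : Ex X) (l : KX A.E) : Prop := A.Rd l ∧ ∀ x, A.Rd x → ∃! a, x = A.sm a l

/-- maps of ex-spaces over `g` -/
structure Hm (A : Ex X) (B : Ex X') (g : C(X, X')) where
  f : C(A.E, B.E)
  hp : ∀ e, B.p (f e) = g (A.p e)
  hs : ∀ x, f (A.s x) = B.s (g x)

/-- maps over the identity -/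
abbrev H1 (A B : Ex X) := Hm A B (.id X)

/-- the trivial map -/
def Hm.triv (A B : Ex X) : H1 A B := ⟨B.s.comp A.p, fun e => B.ps _, fun x => by simp [A.ps]⟩

/-- homotopy of maps of ex-spaces -/
def Hm.Ht {A B : Ex X} (F G : H1 A B) : Prop :=
  ∃ H : C(I × A.E, B.E), (∀ t e, B.p (H (t, e)) = A.p e) ∧ (∀ t x, H (t, A.s x) = B.s x) ∧
    (∀ e, H (0, e) = F.f e) ∧ ∀ e, H (1, e) = G.f e

/-- the collapsed part of the cylinder -/
def Ex.Bd (A : Ex X) (z : A.E × I) : Prop := z.2 = 0 ∨ z.2 = 1 ∨ z.1 = A.s (A.p z.1)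

/-- `S` is the fibrewise suspension of `A` -/
structure SD (A S : Ex X) where
  c : C(A.E × I, S.E)
  hp : ∀ z, S.p (c z) = A.p z.1
  bd : ∀ z, A.Bd z → c z = S.s (A.p z.1)
  surj : Function.Surjective c
  inj : ∀ z z', c z = c z' → z = z' ∨ (A.Bd z ∧ A.Bd z')

variable {A B S : Ex X}

/-- functions on the fibrewise mapping cone -/
def Cn (F : H1 A B) : Subalgebra ℂ (C(A.E × I, ℂ) × C(B.E, ℂ)) where
  carrier := {u | (∀ e, u.1 (e, 0) = u.2 (F.f e)) ∧ (∀ e, u.1 (e, 1) = u.2 (B.s (A.p e))) ∧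
    ∀ x t, u.1 (A.s x, t) = u.2 (B.s x)}
  mul_mem' := fun ⟨a, b, c⟩ ⟨a', b', c'⟩ =>
    ⟨fun e => by simp [a, a'], fun e => by simp [b, b'], fun x t => by simp [c, c']⟩
  add_mem' := fun ⟨a, b, c⟩ ⟨a', b', c'⟩ =>
    ⟨fun e => by simp [a, a'], fun e => by simp [b, b'], fun x t => by simp [c, c']⟩
  algebraMap_mem' := fun _ => ⟨fun _ => rfl, fun _ => rfl, fun _ _ => rfl⟩

/-- restriction to the target -/
def Cn.res (F : H1 A B) : Cn F →ₐ[ℂ] C(B.E, ℂ) := (AlgHom.snd ℂ _ _).comp (Cn F).val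
/-- functions from the base -/
def Cn.bas (F : H1 A B) : C(X, ℂ) →ₐ[ℂ] Cn F :=
  ((ContinuousMap.compRightAlgHom ℂ ℂ (A.p.comp ContinuousMap.fst)).prod
    (ContinuousMap.compRightAlgHom ℂ ℂ B.p)).codRestrict (Cn F) fun a =>
      ⟨fun e => congrArg a (F.hp e).symm, fun e => congrArg a (B.ps _).symm,
        fun x _ => congrArg a ((A.ps x).trans (B.ps x).symm)⟩
/-- functions from the suspension -/
def Cn.inc (F : H1 A B) (D : SD A S) : C(S.E, ℂ) →ₐ[ℂ] Cn F :=
  ((ContinuousMap.compRightAlgHom ℂ ℂ D.c).prod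
    (ContinuousMap.compRightAlgHom ℂ ℂ (S.s.comp B.p))).codRestrict (Cn F) fun a =>
      ⟨fun e => congrArg a ((D.bd (e, 0) (.inl rfl)).trans (congrArg S.s (F.hp e).symm)),
        fun e => congrArg a ((D.bd (e, 1) (.inr (.inl rfl))).trans (congrArg S.s (B.ps _).symm)),
        fun x t => congrArg a ((D.bd (A.s x, t) (.inr (.inr (congrArg A.s (A.ps x).symm)))).trans
          (congrArg S.s ((A.ps x).trans (B.ps x).symm)))⟩

/-- the `ψ³`-defect `x` of a lift of `l` to the cone -/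
def Ecl (F : H1 A B) (D : SD A S) (l : KX B.E) (ρ : KX X) (x : KX S.E) : Prop :=
  S.Rd x ∧ ∃ μ : KC (Cn F), KA (Cn.res F) μ = l ∧
    ps _ μ - KA (Cn.bas F) ρ * μ = KA (Cn.inc F D) x

end ex

/-! ## compact `Γ`-spaces -/

/-- extension to one-point compactifications, with a parameter -/
def opx {P W W' : Type} (f : P × W → OnePoint W') (z : P × OnePoint W) : OnePoint W' :=
  OnePoint.rec ∞ (fun w => f (z.1, w)) z.2

@[simp] theorem opx_infty {P W W' : Type} (f : P × W → OnePoint W') (p : P) :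
    opx f (p, ∞) = ∞ := rfl
@[simp] theorem opx_coe {P W W' : Type} (f : P × W → OnePoint W') (p : P) (w : W) :
    opx f (p, (w : OnePoint W)) = f (p, w) := rfl

theorem continuous_opx {P W W' : Type} [TopologicalSpace P] [TopologicalSpace W]
    [TopologicalSpace W'] [T2Space W] {f : P × W → OnePoint W'} (hf : Continuous f)
    (h : ∀ K', IsCompact K' → ∃ K, IsCompact K ∧ ∀ p w w', w ∉ K → f (p, w) = (w' : W') → w' ∉ K') :
    Continuous (opx f) := by
  rw [continuous_iff_continuousAt]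
  rintro ⟨p, w⟩
  induction w using OnePoint.rec with
  | coe w =>
    have e : IsOpenEmbedding (Prod.map id (↑) : P × W → P × OnePoint W) :=
      IsOpenEmbedding.id.prodMap isOpenEmbedding_coe
    exact (e.continuousAt_iff (x := (p, w))).1 hf.continuousAt
  | infty =>
    change Tendsto _ _ (𝓝 ∞)
    rw [hasBasis_nhds_infty.tendsto_right_iff]
    rintro K' ⟨-, hK'⟩
    obtain ⟨K, hK, k⟩ := h K' hK'
    have : ∀ᶠ z : P × OnePoint W in 𝓝 (p, ∞), z.2 ∈ (↑) '' Kᶜ ∪ {∞} :=
      continuous_snd.continuousAt.eventually (hasBasis_nhds_infty.mem_of_mem ⟨hK.isClosed, hK⟩)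
    filter_upwards [this]
    rintro ⟨q, z⟩ (⟨w, hw, e⟩ | e)
    · obtain rfl : (w : OnePoint W) = z := e
      change f (q, w) ∈ _
      induction e' : f (q, w) using OnePoint.rec with
      | infty => exact .inr rfl
      | coe w' => exact .inl ⟨w', k q w w' hw e', rfl⟩
    · obtain rfl : z = ∞ := e
      exact .inr rfl

variable {Γ Γ' : Type} [Group Γ] [TopologicalSpace Γ] [Group Γ'] [TopologicalSpace Γ']

variable (Γ) in
/-- compact Hausdorff `Γ`-spaces -/
structure GS where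
  Z : Type
  [top : TopologicalSpace Z]
  [cpt : CompactSpace Z]
  [t2 : T2Space Z]
  act : Γ → Z → Z
  one : ∀ z, act 1 z = z
  mul : ∀ g h z, act (g * h) z = act g (act h z)
  cont : Continuous fun p : Γ × Z => act p.1 p.2

attribute [instance] GS.top GS.cpt GS.t2

namespace GS
variable (Y : GS Γ) (Y' : GS Γ')

/-- the orbit relation -/
def rel : Setoid Y.Z where
  r x y := ∃ g, Y.act g x = y
  iseqv := ⟨fun x => ⟨1, Y.one x⟩, fun ⟨g, h⟩ => ⟨g⁻¹, by rw [← h, ← Y.mul, inv_mul_cancel, Y.one]⟩,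
    fun ⟨g, h⟩ ⟨g', h'⟩ => ⟨g' * g, by rw [Y.mul, h, h']⟩⟩
/-- the orbit space -/
def Q : Type := Quotient Y.rel
instance : TopologicalSpace Y.Q := inferInstanceAs (TopologicalSpace (Quotient Y.rel))
instance : CompactSpace Y.Q := inferInstanceAs (CompactSpace (Quotient Y.rel))
/-- the projection -/
def pr : C(Y.Z, Y.Q) := ⟨Quotient.mk Y.rel, continuous_quotient_mk'⟩
theorem pr_eq {x y : Y.Z} : Y.pr x = Y.pr y ↔ ∃ g, Y.act g x = y := Quotient.eq
theorem pr_act (g : Γ) (x : Y.Z) : Y.pr (Y.act g x) = Y.pr x := (Y.pr_eq.2 ⟨g, rfl⟩).symm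
theorem pr_surj : Function.Surjective Y.pr := Quotient.mk_surjective
theorem pr_quot : IsQuotientMap Y.pr := isQuotientMap_quotient_mk'
theorem pr_open : IsOpenMap Y.pr := fun U hU => by
  rw [← Y.pr_quot.isOpen_preimage]
  have : Y.pr ⁻¹' (Y.pr '' U) = ⋃ g, Y.act g ⁻¹' U := by
    ext x
    simp only [mem_preimage, mem_image, mem_iUnion]
    exact ⟨fun ⟨y, a, b⟩ => let ⟨g, h⟩ := Y.pr_eq.1 b.symm; ⟨g, h ▸ a⟩,
      fun ⟨g, a⟩ => ⟨_, a, Y.pr_act g x⟩⟩
  rw [this]
  exact isOpen_iUnion fun g => hU.preimage (Y.cont.comp (continuous_const.prodMk continuous_id))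
instance [CompactSpace Γ] : T2Space Y.Q := by
  rw [t2Space_iff_of_isOpenQuotientMap
    (⟨Y.pr_surj, Y.pr.continuous, Y.pr_open⟩ : IsOpenQuotientMap Y.pr)]
  have : {q : Y.Z × Y.Z | Y.pr q.1 = Y.pr q.2} = range fun p : Γ × Y.Z => (p.2, Y.act p.1 p.2) := by
    ext ⟨x, y⟩
    exact ⟨fun h => let ⟨g, h⟩ := Y.pr_eq.1 h; ⟨(g, x), Prod.ext rfl h⟩,
      fun ⟨p, h⟩ => Y.pr_eq.2 ⟨p.1, by cases h; rfl⟩⟩
  rw [this]
  exact (isCompact_range (continuous_snd.prodMk Y.cont)).isClosed
/-- invariant maps descend -/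
def lift {T : Type} [TopologicalSpace T] (f : C(Y.Z, T)) (h : ∀ g z, f (Y.act g z) = f z) :
    C(Y.Q, T) :=
  ⟨Quotient.lift f fun x _ ⟨g, e⟩ => e ▸ (h g x).symm, f.continuous.quotient_lift _⟩
/-- maps that respect the orbits -/
def qmap (f : C(Y.Z, Y'.Z)) (h : ∀ g z, ∃ g', Y'.act g' (f z) = f (Y.act g z)) : C(Y.Q, Y'.Q) :=
  Y.lift (Y'.pr.comp f) fun g z => (Y'.pr_eq.2 (h g z)).symm
/-- products -/
def prod (Y Y' : GS Γ) : GS Γ where
  Z := Y.Z × Y'.Z
  act g z := (Y.act g z.1, Y'.act g z.2)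
  one z := Prod.ext (Y.one _) (Y'.one _)
  mul g h z := Prod.ext (Y.mul _ _ _) (Y'.mul _ _ _)
  cont := (Y.cont.comp (continuous_fst.prodMk continuous_snd.fst)).prodMk
    (Y'.cont.comp (continuous_fst.prodMk continuous_snd.snd))
/-- restriction along a homomorphism -/
def res (φ : Γ' →* Γ) (hφ : Continuous φ) : GS Γ' where
  Z := Y.Z
  act g := Y.act (φ g)
  one z := by rw [map_one, Y.one]
  mul g h z := by rw [map_mul, Y.mul]
  cont := Y.cont.comp ((hφ.comp continuous_fst).prodMk continuous_snd)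
variable (Γ) in
/-- trivial action -/
def triv (T : Type) [TopologicalSpace T] [CompactSpace T] [T2Space T] : GS Γ where
  Z := T
  act _ z := z
  one _ := rfl
  mul _ _ _ := rfl
  cont := continuous_snd
end GS

variable (Γ) in
/-- locally compact Hausdorff `Γ`-spaces -/
structure LS where
  Z : Type
  [top : TopologicalSpace Z]
  [lc : LocallyCompactSpace Z]
  [t2 : T2Space Z]
  act : Γ → Z → Z
  one : ∀ z, act 1 z = z
  mul : ∀ g h z, act (g * h) z = act g (act h z)
  cont : Continuous fun p : Γ × Z => act p.1 p.2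

attribute [instance] LS.top LS.lc LS.t2

/-- compact spaces are locally compact -/
def GS.ls (Y : GS Γ) : LS Γ := ⟨Y.Z, Y.act, Y.one, Y.mul, Y.cont⟩

namespace LS
variable (M M' : LS Γ)

theorem inv_act (g : Γ) (w : M.Z) : M.act g⁻¹ (M.act g w) = w := by
  rw [← M.mul, inv_mul_cancel, M.one]
theorem act_inv (g : Γ) (w : M.Z) : M.act g (M.act g⁻¹ w) = w := by
  rw [← M.mul, mul_inv_cancel, M.one]
/-- products -/
def prod : LS Γ where
  Z := M.Z × M'.Z
  act g z := (M.act g z.1, M'.act g z.2)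
  one z := Prod.ext (M.one _) (M'.one _)
  mul g h z := Prod.ext (M.mul _ _ _) (M'.mul _ _ _)
  cont := (M.cont.comp (continuous_fst.prodMk continuous_snd.fst)).prodMk
    (M'.cont.comp (continuous_fst.prodMk continuous_snd.snd))
/-- restriction along a homomorphism -/
def res (φ : Γ' →* Γ) (hφ : Continuous φ) : LS Γ' where
  Z := M.Z
  act g := M.act (φ g)
  one z := by rw [map_one, M.one]
  mul g h z := by rw [map_mul, M.mul]
  cont := M.cont.comp ((hφ.comp continuous_fst).prodMk continuous_snd)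
variable (Γ) in
/-- trivial action -/
def triv (T : Type) [TopologicalSpace T] [LocallyCompactSpace T] [T2Space T] : LS Γ where
  Z := T
  act _ z := z
  one _ := rfl
  mul _ _ _ := rfl
  cont := continuous_snd
/-- the one-point compactification -/
def sph [CompactSpace Γ] : GS Γ where
  Z := OnePoint M.Z
  act g z := opx (fun p : Γ × M.Z => (M.act p.1 p.2 : OnePoint M.Z)) (g, z)
  one z := by induction z using OnePoint.rec <;> simp [M.one]
  mul g h z := by induction z using OnePoint.rec <;> simp [M.mul]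
  cont := continuous_opx (continuous_coe.comp M.cont) fun K' hK' =>
    ⟨(fun p : Γ × M.Z => M.act p.1 p.2) '' univ ×ˢ K', (isCompact_univ.prod hK').image M.cont,
      fun g w w' h e k => h ⟨(g⁻¹, w'), ⟨trivial, k⟩, by
        rw [← coe_injective e]; exact M.inv_act g w⟩⟩
@[simp] theorem sph_infty [CompactSpace Γ] (g : Γ) : M.sph.act g ∞ = ∞ := rfl
@[simp] theorem sph_coe [CompactSpace Γ] (g : Γ) (w : M.Z) :
    M.sph.act g (w : OnePoint M.Z) = (M.act g w : OnePoint M.Z) := rfl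
end LS

variable (Γ) in
/-- finite-dimensional real representations -/
structure Rep where
  W : Type
  [ng : NormedAddCommGroup W]
  [ns : NormedSpace ℝ W]
  [fd : FiniteDimensional ℝ W]
  ρ : Γ →* (W →L[ℝ] W)
  cont : Continuous ρ

attribute [instance] Rep.ng Rep.ns Rep.fd

namespace Rep
variable (V V' : Rep Γ)

instance : ProperSpace V.W := FiniteDimensional.proper_real _
theorem cont2 : Continuous fun p : Γ × V.W => V.ρ p.1 p.2 :=
  (V.cont.comp continuous_fst).clm_apply continuous_snd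
theorem inv_apply (g : Γ) (w : V.W) : V.ρ g⁻¹ (V.ρ g w) = w := by
  change (V.ρ g⁻¹ * V.ρ g) w = w
  rw [← map_mul, inv_mul_cancel, map_one]; rfl
/-- direct sum -/
def prod : Rep Γ where
  W := V.W × V'.W
  ρ := { toFun := fun g => (V.ρ g).prodMap (V'.ρ g)
         map_one' := by ext <;> simp
         map_mul' := fun g h => by ext <;> simp }
  cont := continuous_clm_apply.2 fun w =>
    (V.cont.clm_apply continuous_const).prodMk (V'.cont.clm_apply continuous_const)
variable (Γ) in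
/-- trivial representation -/
def triv (E : Type) [NormedAddCommGroup E] [NormedSpace ℝ E] [FiniteDimensional ℝ E] : Rep Γ where
  W := E
  ρ := 1
  cont := continuous_const
/-- restriction along a homomorphism -/
def res (φ : Γ' →* Γ) (hφ : Continuous φ) : Rep Γ' where
  W := V.W
  ρ := V.ρ.comp φ
  cont := V.cont.comp hφ
/-- sums of characters -/
def wt {ι : Type} [Fintype ι] (χ : ι → Γ →* Circle) (hχ : ∀ i, Continuous (χ i)) : Rep Γ where
  W := ι → ℂ
  ρ := { toFun := fun g => ContinuousLinearMap.pi fun i =>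
           (ContinuousLinearMap.mul ℝ ℂ (χ i g)).comp (ContinuousLinearMap.proj i)
         map_one' := by ext <;> simp
         map_mul' := fun g h => by ext <;> simp [mul_assoc] }
  cont := continuous_clm_apply.2 fun w => continuous_pi fun i =>
    (continuous_subtype_val.comp (hχ i)).mul continuous_const
/-- the underlying space -/
def ls : LS Γ where
  Z := V.W
  act g w := V.ρ g w
  one z := by simp
  mul g h z := by simp
  cont := V.cont2
instance : CoeOut (Rep Γ) (LS Γ) := ⟨ls⟩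
end Rep

variable [CompactSpace Γ] [CompactSpace Γ']

/-- the sphere bundle -/
def Sb (Y : GS Γ) (V : LS Γ) : Ex Y.Q where
  E := (Y.prod V.sph).Q
  p := GS.qmap _ _ ContinuousMap.fst fun g _ => ⟨g, rfl⟩
  s := GS.qmap _ _ ⟨fun y => (y, ∞), by fun_prop⟩ fun g _ => ⟨g, rfl⟩
  ps x := by obtain ⟨y, rfl⟩ := Y.pr_surj x; rfl

/-- points of the sphere bundle -/
def pt (Y : GS Γ) (V : LS Γ) (y : Y.Z) (w : OnePoint V.Z) : (Sb Y V).E := (Y.prod V.sph).pr (y, w)

/-- K-theory of the sphere bundle -/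
abbrev KS (Y : GS Γ) (V : LS Γ) : Type := KX (Sb Y V).E

/-- fibrewise problems -/
structure FP (Y : GS Γ) (V : LS Γ) (W : Rep Γ) where
  O : Set (Y.Z × V.Z)
  f : Y.Z × V.Z → W.W

namespace FP
variable {Y : GS Γ} {V : LS Γ} {W : Rep Γ} (P : FP Y V W)

/-- admissible problems -/
structure Ok : Prop where
  op : IsOpen P.O
  inv : ∀ g, ∀ x ∈ P.O, (Y.act g x.1, V.act g x.2) ∈ P.O
  ct : ContinuousOn P.f P.O
  eq : ∀ g, ∀ x ∈ P.O, P.f (Y.act g x.1, V.act g x.2) = W.ρ g (P.f x)
  cp : IsCompact {x ∈ P.O | P.f x = 0}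

/-- cut-off functions -/
structure Cut (χ : Y.Z × V.Z → ℝ) : Prop where
  ct : Continuous χ
  nn : ∀ x, 0 ≤ χ x
  cp : IsCompact (tsupport χ)
  sub : tsupport χ ⊆ P.O
  pos : ∀ x ∈ P.O, P.f x = 0 → 0 < χ x
  inv : ∀ g x, χ (Y.act g x.1, V.act g x.2) = χ x

open Classical in
/-- the collapse -/
def col (χ : Y.Z × V.Z → ℝ) (x : Y.Z × V.Z) : OnePoint W.W :=
  if χ x = 0 then ∞ else ((χ x)⁻¹ • P.f x : W.W)

/-- `F` represents the problem -/
def Rp (F : H1 (Sb Y V) (Sb Y W.ls)) : Prop :=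
  ∃ χ, P.Cut χ ∧ ∀ (y : Y.Z) (w : V.Z), F.f (pt Y V y w) = pt Y W.ls y (P.col χ (y, w))

open Classical in
/-- the map of sphere bundles -/
def hm : H1 (Sb Y V) (Sb Y W.ls) := if h : ∃ F, P.Rp F then h.choose else Hm.triv _ _

/-- the pull-back -/
def pb : KS Y W.ls →+* KS Y V := pull P.hm.f
end FP

end Crest.Agent.N218.K

end
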