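import Crest.Agent.N218.K.Pd
import Crest.Agent.N218.K.Ln
import Crest.Agent.N218.K.Col
import Crest.Agent.N218.K.Sus

/-! Row 218, D0 (helper33): external products on ex-spaces, sphere bundles and mapping cones. -/

open Crest.Agent.R204.K357 unitInterval Topology Filter Set OnePoint

noncomputable section

namespace Crest.Agent.N218.K

section pull
variable {X Y Z T : Type} [TopologicalSpace X] [TopologicalSpace Y] [TopologicalSpace Z]
  [TopologicalSpace T]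

/-- composition with `f` -/
abbrev cR (f : C(X, Y)) : C(Y, ℂ) →ₐ[ℂ] C(X, ℂ) := ContinuousMap.compRightAlgHom ℂ ℂ f

theorem pull_ka (f : C(X, Y)) : pull f = KA (cR f) := rfl

theorem pull_sq (f : C(X, Y)) (g : C(Y, T)) (f' : C(X, Z)) (g' : C(Z, T))
    (H : ∀ x, g (f x) = g' (f' x)) (a : KX T) : pull f (pull g a) = pull f' (pull g' a) :=
  ka_sq (cR f) (cR g) (cR f') (cR g') (fun u => ContinuousMap.ext fun x => congrArg u (H x)) a

theorem pull_congr {f g : C(X, Y)} (H : ∀ x, f x = g x) (a : KX Y) : pull f a = pull g a := by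
  rw [ContinuousMap.ext H]

/-- a function constant on the fibres of a surjection of compact Hausdorff spaces descends -/
theorem exists_desc [CompactSpace X] [T2Space Y] (c : C(X, Y)) (hc : Function.Surjective c)
    (F : C(X, T)) (h : ∀ z z', c z = c z' → F z = F z') : ∃ G : C(Y, T), ∀ z, G (c z) = F z := by
  have hq : IsQuotientMap c := c.continuous.isClosedMap.isQuotientMap c.continuous hc
  have e : (fun y => F (hc y).choose) ∘ c = F := funext fun z => h _ _ (hc (c z)).choose_spec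
  exact ⟨⟨fun y => F (hc y).choose, hq.continuous_iff.2 (by rw [e]; exact F.continuous)⟩, congrFun e⟩

end pull

section ex
variable {X X₂ : Type} [TopologicalSpace X] [TopologicalSpace X₂]

theorem Ex.pull_sp (A : Ex X) (a : KX X) : pull A.s (pull A.p a) = a := pull_pull_id _ _ A.ps a

theorem Ex.Rd.sm {A : Ex X} {x : KX A.E} (h : A.Rd x) (a : KX X) : A.Rd (A.sm a x) := by
  unfold Ex.Rd Ex.sm at *; rw [map_mul, h, mul_zero]

theorem Ex.Rd.ps {A : Ex X} {x : KX A.E} (h : A.Rd x) : A.Rd (K.ps _ x) := by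
  unfold Ex.Rd at *; rw [← ps_pull, h, map_zero]

theorem Ex.Rd.hm {A : Ex X} {B : Ex X₂} {g : C(X, X₂)} (F : Hm A B g) {x : KX B.E} (h : B.Rd x) :
    A.Rd (pull F.f x) := by
  unfold Ex.Rd at *; rw [pull_sq A.s F.f g B.s F.hs, h, map_zero]

theorem Hm.pull_sm {A : Ex X} {B : Ex X₂} {g : C(X, X₂)} (F : Hm A B g) (a : KX X₂) (x : KX B.E) :
    pull F.f (B.sm a x) = A.sm (pull g a) (pull F.f x) := by
  unfold Ex.sm; rw [map_mul, pull_sq F.f B.p A.p g F.hp]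

/-- `S` is the fibrewise smash product of `A` and `U`; `P` is the product, over `U.E` -/
structure SmD (A U S : Ex X) where
  P : Ex U.E
  q : C(P.E, A.E)
  j : C(A.E, P.E)
  c : C(P.E, S.E)
  qj : ∀ a, q (j a) = a
  pj : ∀ a, P.p (j a) = U.s (A.p a)
  qs : ∀ u, q (P.s u) = A.s (U.p u)
  js : ∀ x, j (A.s x) = P.s (U.s x)
  pq : ∀ z, A.p (q z) = U.p (P.p z)
  pc : ∀ z, S.p (c z) = A.p (q z)
  cj : ∀ a, c (j a) = S.s (A.p a)
  cs : ∀ u, c (P.s u) = S.s (U.p u)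
  surj : Function.Surjective c
  inj : ∀ z z', c z = c z' → z = z' ∨
    (((∃ a, z = j a) ∨ ∃ u, z = P.s u) ∧ ((∃ a, z' = j a) ∨ ∃ u, z' = P.s u))

namespace SmD
variable {A U S : Ex X} (D : SmD A U S)

theorem desc {T T' : Type} [TopologicalSpace T] [TopologicalSpace T'] [CompactSpace T]
    [T2Space T] (F : C(D.P.E × T, T')) (c : X → T') (h1 : ∀ a t, F (D.j a, t) = c (A.p a))
    (h2 : ∀ u t, F (D.P.s u, t) = c (U.p u)) :
    ∃ G : C(S.E × T, T'), ∀ z t, G (D.c z, t) = F (z, t) := by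
  have k : ∀ z t, ((∃ a, z = D.j a) ∨ ∃ u, z = D.P.s u) → F (z, t) = c (S.p (D.c z)) := by
    rintro z t (⟨a, rfl⟩ | ⟨u, rfl⟩)
    · rw [h1, D.cj, S.ps]
    · rw [h2, D.cs, S.ps]
  obtain ⟨G, hG⟩ := exists_desc (D.c.prodMap (.id T)) (D.surj.prodMap Function.surjective_id) F (by
    rintro ⟨z, t⟩ ⟨z', t'⟩ h
    obtain ⟨e, e'⟩ := Prod.ext_iff.1 h
    obtain rfl : t = t' := e'
    have e : D.c z = D.c z' := e
    rcases D.inj z z' e with rfl | ⟨a, b⟩
    · rfl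
    · rw [k z t a, k z' t b, e])
  exact ⟨G, fun z t => hG (z, t)⟩

theorem desc1 {T' : Type} [TopologicalSpace T'] (F : C(D.P.E, T')) (c : X → T')
    (h1 : ∀ a, F (D.j a) = c (A.p a)) (h2 : ∀ u, F (D.P.s u) = c (U.p u)) :
    ∃ G : C(S.E, T'), ∀ z, G (D.c z) = F z := by
  obtain ⟨G, hG⟩ := D.desc (T := Unit) (F.comp .fst) c (fun a _ => h1 a) (fun u _ => h2 u)
  exact ⟨G.comp ((ContinuousMap.id _).prodMk (.const _ ())), fun z => hG z ()⟩

/-- the algebraic product datum -/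
def pd : Pd C(X, ℂ) C(A.E, ℂ) C(U.E, ℂ) C(D.P.E, ℂ) C(S.E, ℂ) where
  u := cR A.p
  u' := cR U.p
  uS := cR S.p
  e := cR A.s
  e' := cR U.s
  eS := cR S.s
  i1 := cR D.q
  i2 := cR D.P.p
  r1 := cR D.j
  r2 := cR D.P.s
  inc := cR D.c
  e_u f := ContinuousMap.ext fun x => congrArg f (A.ps x)
  e_u' f := ContinuousMap.ext fun x => congrArg f (U.ps x)
  r1_i1 f := ContinuousMap.ext fun x => congrArg f (D.qj x)
  r2_i2 f := ContinuousMap.ext fun x => congrArg f (D.P.ps x)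
  r1_i2 f := ContinuousMap.ext fun x => congrArg f (D.pj x)
  r2_i1 f := ContinuousMap.ext fun x => congrArg f (D.qs x)
  e_r f := ContinuousMap.ext fun x => congrArg f (D.js x)
  i_u f := ContinuousMap.ext fun x => congrArg f (D.pq x)
  inc_u f := ContinuousMap.ext fun x => congrArg f (D.pc x)
  r1_inc f := ContinuousMap.ext fun x => congrArg f (D.cj x)
  r2_inc f := ContinuousMap.ext fun x => congrArg f (D.cs x)
  inj f g h := ContinuousMap.ext fun x => by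
    obtain ⟨z, rfl⟩ := D.surj x
    exact DFunLike.congr_fun h z
  lift F c h1 h2 := by
    obtain ⟨G, hG⟩ := D.desc1 F c (DFunLike.congr_fun h1) (DFunLike.congr_fun h2)
    exact ⟨G, ContinuousMap.ext hG⟩

/-- the external product -/
def mul (x : KX A.E) (y : KX U.E) : KX S.E := D.pd.mul x y

theorem injective : Function.Injective (pull D.c) := D.pd.injective
theorem rd_mul (x : KX A.E) (y : KX U.E) : S.Rd (D.mul x y) := D.pd.eS_mul x y
theorem c_mul {x : KX A.E} {y : KX U.E} (hx : A.Rd x) (hy : U.Rd y) :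
    pull D.c (D.mul x y) = pull D.q x * pull D.P.p y := D.pd.inc_mul hx hy
theorem eq_mul {x : KX A.E} {y : KX U.E} (hx : A.Rd x) (hy : U.Rd y) {s : KX S.E}
    (h : pull D.c s = pull D.q x * pull D.P.p y) : s = D.mul x y := D.pd.eq_mul hx hy h
theorem add_mul (x x' : KX A.E) (y : KX U.E) : D.mul (x + x') y = D.mul x y + D.mul x' y :=
  D.pd.add_mul x x' y
theorem mul_add (x : KX A.E) (y y' : KX U.E) : D.mul x (y + y') = D.mul x y + D.mul x y' :=
  D.pd.mul_add x y y'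
theorem sub_mul (x x' : KX A.E) (y : KX U.E) : D.mul (x - x') y = D.mul x y - D.mul x' y :=
  D.pd.sub_mul x x' y
theorem mul_sub (x : KX A.E) (y y' : KX U.E) : D.mul x (y - y') = D.mul x y - D.mul x y' :=
  D.pd.mul_sub x y y'
theorem zero_mul (y : KX U.E) : D.mul 0 y = 0 := D.pd.zero_mul y
theorem mul_zero (x : KX A.E) : D.mul x 0 = 0 := D.pd.mul_zero x
theorem sm_mul (a : KX X) (x : KX A.E) (y : KX U.E) : D.mul (A.sm a x) y = S.sm a (D.mul x y) :=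
  D.pd.smul_mul a x y
theorem mul_sm (a : KX X) (x : KX A.E) (y : KX U.E) : D.mul x (U.sm a y) = S.sm a (D.mul x y) :=
  D.pd.mul_smul a x y
theorem ps_mul (x : KX A.E) (y : KX U.E) : ps _ (D.mul x y) = D.mul (ps _ x) (ps _ y) :=
  D.pd.psi_mul 3 x y

/-- **naturality** (`D` maps to `D₂`) -/
theorem natural {A₂ U₂ S₂ : Ex X₂} (D₂ : SmD A₂ U₂ S₂) (f : C(A.E, A₂.E)) (f' : C(U.E, U₂.E))
    (g : C(D.P.E, D₂.P.E)) (h : C(S.E, S₂.E)) (h1 : ∀ z, D₂.q (g z) = f (D.q z))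
    (h2 : ∀ z, D₂.P.p (g z) = f' (D.P.p z)) (h3 : ∀ z, D₂.c (g z) = h (D.c z))
    {x : KX A₂.E} {y : KX U₂.E} (hx : A₂.Rd x) (hy : U₂.Rd y) (hx' : A.Rd (pull f x))
    (hy' : U.Rd (pull f' y)) : pull h (D₂.mul x y) = D.mul (pull f x) (pull f' y) := by
  apply D.eq_mul hx' hy'
  rw [← pull_sq g D₂.c D.c h h3, D₂.c_mul hx hy, map_mul, pull_sq g D₂.q D.q f h1,
    pull_sq g D₂.P.p D.P.p f' h2]

end SmD

/-! ### stabilisation of mapping cones -/

/-- evaluation along the base section -/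
def Cn.ev {A B : Ex X} (F : H1 A B) : Cn F →ₐ[ℂ] C(X, ℂ) := (cR B.s).comp (Cn.res F)

/-- functoriality of cones for strictly commutative squares -/
def Cn.map {A B : Ex X} {A₂ B₂ : Ex X₂} (F : H1 A B) (F₂ : H1 A₂ B₂) (a : C(A.E, A₂.E))
    (b : C(B.E, B₂.E)) (h0 : ∀ e, b (F.f e) = F₂.f (a e))
    (h1 : ∀ e, b (B.s (A.p e)) = B₂.s (A₂.p (a e)))
    (h2 : ∀ x, ∃ x', a (A.s x) = A₂.s x' ∧ b (B.s x) = B₂.s x') : Cn F₂ →ₐ[ℂ] Cn F :=
  ((((cR (a.prodMap (.id I))).comp (AlgHom.fst ℂ _ _)).prod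
    ((cR b).comp (AlgHom.snd ℂ _ _))).comp (Cn F₂).val).codRestrict (Cn F) fun u =>
      ⟨fun e => (u.2.1 (a e)).trans (congrArg u.1.2 (h0 e).symm),
        fun e => (u.2.2.1 (a e)).trans (congrArg u.1.2 (h1 e).symm), fun x t => by
          obtain ⟨x', e1, e2⟩ := h2 x
          change u.1.1 (a (A.s x), t) = u.1.2 (b (B.s x))
          rw [e1, e2]; exact u.2.2.2 x' t⟩

theorem Cn.ext' {A B : Ex X} {F : H1 A B} {u v : Cn F} (h1 : ∀ e t, u.1.1 (e, t) = v.1.1 (e, t))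
    (h2 : ∀ e, u.1.2 e = v.1.2 e) : u = v :=
  Subtype.ext (Prod.ext (ContinuousMap.ext fun z => h1 z.1 z.2) (ContinuousMap.ext h2))

/-- `F'` is the stabilisation of `F` -/
structure Stab {A B U SA SB : Ex X} (DA : SmD A U SA) (DB : SmD B U SB) (F : H1 A B)
    (F' : H1 SA SB) where
  G : H1 DA.P DB.P
  hq : ∀ z, DB.q (G.f z) = F.f (DA.q z)
  hj : ∀ a, G.f (DA.j a) = DB.j (F.f a)
  hc : ∀ z, F'.f (DA.c z) = DB.c (G.f z)

namespace Stab
variable {A B U SA SB : Ex X} {DA : SmD A U SA} {DB : SmD B U SB} {F : H1 A B} {F' : H1 SA SB}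
  (T : Stab DA DB F F')

/-- the algebraic product datum of a stabilised cone -/
def pd : Pd C(X, ℂ) (Cn F) C(U.E, ℂ) (Cn T.G) (Cn F') where
  u := Cn.bas F
  u' := cR U.p
  uS := Cn.bas F'
  e := Cn.ev F
  e' := cR U.s
  eS := Cn.ev F'
  i1 := Cn.map T.G F DA.q DB.q T.hq (fun z => by rw [DB.qs, DA.pq])
    fun u => ⟨U.p u, DA.qs u, DB.qs u⟩
  i2 := Cn.bas T.G
  r1 := Cn.map F T.G DA.j DB.j (fun a => (T.hj a).symm) (fun a => by rw [DB.js, DA.pj])
    fun x => ⟨U.s x, DA.js x, DB.js x⟩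
  r2 := Cn.ev T.G
  inc := Cn.map T.G F' DA.c DB.c (fun z => (T.hc z).symm) (fun z => by rw [DB.cs, DA.pc, DA.pq])
    fun u => ⟨U.p u, DA.cs u, DB.cs u⟩
  e_u f := ContinuousMap.ext fun x => congrArg f (B.ps x)
  e_u' f := ContinuousMap.ext fun x => congrArg f (U.ps x)
  r1_i1 f := Cn.ext' (fun e t => congrArg (fun a => f.1.1 (a, t)) (DA.qj e))
    fun e => congrArg f.1.2 (DB.qj e)
  r2_i2 f := ContinuousMap.ext fun x => congrArg f (DB.P.ps x)
  r1_i2 f := Cn.ext' (fun e _ => congrArg f (DA.pj e)) fun e => congrArg f (DB.pj e)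
  r2_i1 f := ContinuousMap.ext fun x => congrArg f.1.2 (DB.qs x)
  e_r f := ContinuousMap.ext fun x => congrArg f.1.2 (DB.js x)
  i_u f := Cn.ext' (fun e _ => congrArg f (DA.pq e)) fun e => congrArg f (DB.pq e)
  inc_u f := Cn.ext' (fun e _ => congrArg f (DA.pc e)) fun e => congrArg f (DB.pc e)
  r1_inc f := Cn.ext' (fun e t => by
      change f.1.1 (DA.c (DA.j e), t) = f.1.2 (SB.s (A.p e))
      rw [DA.cj]; exact f.2.2.2 _ t)
    fun e => congrArg f.1.2 (DB.cj e)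
  r2_inc f := ContinuousMap.ext fun x => congrArg f.1.2 (DB.cs x)
  inj f g h := Cn.ext' (fun e t => by
      obtain ⟨z, rfl⟩ := DA.surj e
      exact congrArg (fun u : Cn T.G => u.1.1 (z, t)) h)
    fun e => by
      obtain ⟨z, rfl⟩ := DB.surj e
      exact congrArg (fun u : Cn T.G => u.1.2 z) h
  lift u c h1 h2 := by
    have k2 : ∀ x, u.1.2 (DB.P.s x) = c (U.p x) := DFunLike.congr_fun h2
    obtain ⟨G1, e1⟩ := DA.desc u.1.1 c (fun a t => congrArg (fun v : Cn F => v.1.1 (a, t)) h1)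
      fun x t => (u.2.2.2 x t).trans (k2 x)
    obtain ⟨G2, e2⟩ := DB.desc1 u.1.2 c (fun a => congrArg (fun v : Cn F => v.1.2 a) h1) k2
    refine ⟨⟨(G1, G2), fun e => ?_, fun e => ?_, fun x t => ?_⟩, Cn.ext' e1 e2⟩
    · obtain ⟨z, rfl⟩ := DA.surj e
      change G1 _ = G2 _
      rw [e1, T.hc, e2]; exact u.2.1 z
    · obtain ⟨z, rfl⟩ := DA.surj e
      change G1 _ = G2 _
      rw [e1, DA.pc, DA.pq, ← DB.cs, e2]; exact u.2.2.1 z
    · change G1 _ = G2 _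
      have a : SA.s x = DA.c (DA.P.s (U.s x)) := by rw [DA.cs, U.ps]
      have b : SB.s x = DB.c (DB.P.s (U.s x)) := by rw [DB.cs, U.ps]
      rw [a, b, e1, e2]; exact u.2.2.2 _ t

/-- restriction of a stabilised cone class -/
theorem res_mul {μ : KC (Cn F)} {y : KX U.E} (hμ : KA (Cn.ev F) μ = 0) (hy : U.Rd y) :
    KA (Cn.res F') (T.pd.mul μ y) = DB.mul (KA (Cn.res F) μ) y := by
  have := T.pd.natural DB.pd (Cn.res F) (AlgHom.id ℂ _) (Cn.res T.G) (Cn.res F') (fun _ => rfl)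
    (fun _ => rfl) (fun _ => rfl) hμ hy ((ka_comp _ _ _).symm.trans hμ) ((congrArg _ (ka_id y)).trans hy)
  rw [ka_id] at this
  exact this

end Stab

end ex

/-! ### sphere bundles -/

section sm
variable {W W' : Type}

theorem wdg_eq {a a' : OnePoint W} {b b' : OnePoint W'} (h : wdg (a, b) = wdg (a', b')) :
    (a = a' ∧ b = b') ∨ ((a = ∞ ∨ b = ∞) ∧ (a' = ∞ ∨ b' = ∞)) := by
  induction a using OnePoint.rec <;> induction b using OnePoint.rec <;>
    induction a' using OnePoint.rec <;> induction b' using OnePoint.rec <;> simp_all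

theorem wdg_surj : Function.Surjective (wdg : OnePoint W × OnePoint W' → _) := fun z => by
  induction z using OnePoint.rec with
  | infty => exact ⟨(∞, ∞), rfl⟩
  | coe w => exact ⟨(w.1, w.2), rfl⟩

end sm

variable {Γ Γ' : Type} [Group Γ] [TopologicalSpace Γ] [Group Γ'] [TopologicalSpace Γ']
  [CompactSpace Γ] [CompactSpace Γ']

theorem wdg_act2 (V V' : LS Γ) (g : Γ) (a : OnePoint V.Z) (b : OnePoint V'.Z) :
    (V.prod V').sph.act g (wdg (a, b)) = wdg (V.sph.act g a, V'.sph.act g b) := by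
  induction a using OnePoint.rec with
  | infty => rfl
  | coe a => induction b using OnePoint.rec <;> rfl

/-- `Sb Y (V × U)` is the smash product of `Sb Y V` and `Sb Y U`;
the product is `Sb (Y × U⁺) V` -/
def smd (Y : GS Γ) (V U : LS Γ) : SmD (Sb Y V) (Sb Y U) (Sb Y (V.prod U)) where
  P := Sb (Y.prod U.sph) V
  q := GS.qmap _ _ ⟨fun z => (z.1.1, z.2), by fun_prop⟩ fun g _ => ⟨g, rfl⟩
  j := GS.qmap _ _ ⟨fun z => ((z.1, ∞), z.2), by fun_prop⟩ fun g _ => ⟨g, rfl⟩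
  c := GS.qmap _ _ ⟨fun z => (z.1.1, wdg (z.2, z.1.2)),
    continuous_fst.fst.prodMk (continuous_wdg.comp (continuous_snd.prodMk continuous_fst.snd))⟩
    fun g z => ⟨g, Prod.ext rfl (wdg_act2 V U g z.2 z.1.2)⟩
  qj a := by obtain ⟨y, w, rfl⟩ := pt_surj a; rfl
  pj a := by obtain ⟨y, w, rfl⟩ := pt_surj a; rfl
  qs a := by obtain ⟨y, w, rfl⟩ := pt_surj a; rfl
  js x := by obtain ⟨y, rfl⟩ := Y.pr_surj x; rfl
  pq a := by obtain ⟨y, w, rfl⟩ := pt_surj a; rfl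
  pc a := by obtain ⟨y, w, rfl⟩ := pt_surj a; rfl
  cj a := by
    obtain ⟨y, w, rfl⟩ := pt_surj a
    exact congrArg (pt Y (V.prod U) y) (wdg_r w)
  cs a := by obtain ⟨y, w, rfl⟩ := pt_surj a; rfl
  surj e := by
    obtain ⟨y, w, rfl⟩ := pt_surj e
    obtain ⟨z, rfl⟩ := wdg_surj w
    exact ⟨pt (Y.prod U.sph) V (y, z.2) z.1, rfl⟩
  inj z z' h := by
    obtain ⟨⟨y, u⟩, w, rfl⟩ := pt_surj z
    obtain ⟨⟨y', u'⟩, w', rfl⟩ := pt_surj z'
    obtain ⟨g, e1, e2⟩ := pt_eq.1 (show pt Y (V.prod U) y (wdg (w, u)) = pt Y _ y' (wdg (w', u')) from h)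
    have k : ∀ (y : Y.Z) (u : OnePoint U.Z) (w : OnePoint V.Z), w = ∞ ∨ u = ∞ →
        (∃ a, pt (Y.prod U.sph) V (y, u) w = GS.qmap (Y.prod V.sph) ((Y.prod U.sph).prod V.sph)
          ⟨fun z => ((z.1, ∞), z.2), by fun_prop⟩ (fun g _ => ⟨g, rfl⟩) a) ∨
        ∃ u', pt (Y.prod U.sph) V (y, u) w = (Sb (Y.prod U.sph) V).s u' := by
      rintro y u w (rfl | rfl)
      · exact .inr ⟨pt Y U y u, rfl⟩
      · exact .inl ⟨pt Y V y w, rfl⟩
    rcases wdg_eq ((wdg_act2 V U g w u).symm.trans e2) with ⟨a, b⟩ | ⟨a, b⟩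
    · exact .inl (pt_eq.2 ⟨g, Prod.ext e1 b, a⟩)
    · refine .inr ⟨?_, k _ _ _ b⟩
      have e := k (Y.act g y) _ _ a
      rwa [show pt (Y.prod U.sph) V (Y.act g y, U.sph.act g u) (V.sph.act g w) =
        pt (Y.prod U.sph) V (y, u) w from pt_act (Y := Y.prod U.sph) g (y, u) w] at e


/-- **the external product** -/
def xm {Y : GS Γ} {V U : LS Γ} (x : KS Y V) (y : KS Y U) : KS Y (V.prod U) := (smd Y V U).mul x y

/-- fibrewise maps covering an equivariant map, along `φ` -/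
structure EqM (Y : GS Γ) (V : LS Γ) (Y' : GS Γ') (V' : LS Γ') (φ : Γ → Γ') (g : C(Y.Z, Y'.Z)) where
  f : C(Y.Z × OnePoint V.Z, OnePoint V'.Z)
  hg : ∀ γ y, g (Y.act γ y) = Y'.act (φ γ) (g y)
  hf : ∀ γ y w, f (Y.act γ y, V.sph.act γ w) = V'.sph.act (φ γ) (f (y, w))
  hi : ∀ y, f (y, ∞) = ∞

namespace EqM
variable {Y : GS Γ} {V U : LS Γ} {Y' : GS Γ'} {V' U' : LS Γ'} {φ : Γ → Γ'} {g : C(Y.Z, Y'.Z)}

/-- the map of base spaces -/
def b (E : EqM Y V Y' V' φ g) : C(Y.Q, Y'.Q) := GS.qmap _ _ g fun γ y => ⟨φ γ, (E.hg γ y).symm⟩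

/-- the map of sphere bundles -/
def hm (E : EqM Y V Y' V' φ g) : Hm (Sb Y V) (Sb Y' V') E.b where
  f := GS.qmap _ _ ⟨fun z => (g z.1, E.f z), by fun_prop⟩ fun γ z =>
    ⟨φ γ, Prod.ext (E.hg γ z.1).symm (E.hf γ z.1 z.2).symm⟩
  hp e := by obtain ⟨y, w, rfl⟩ := pt_surj e; rfl
  hs x := by
    obtain ⟨y, rfl⟩ := Y.pr_surj x
    exact congrArg (pt Y' V' (g y)) (E.hi y)


/-- **naturality of the external product** -/
theorem xm_nat (E : EqM Y V Y' V' φ g) (E' : EqM Y U Y' U' φ g)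
    (F : C((Sb Y (V.prod U)).E, (Sb Y' (V'.prod U')).E))
    (hF : ∀ y w u, F (pt Y _ y (wdg (w, u))) = pt Y' _ (g y) (wdg (E.f (y, w), E'.f (y, u))))
    {x : KS Y' V'} {z : KS Y' U'} (hx : (Sb Y' V').Rd x) (hz : (Sb Y' U').Rd z) :
    pull F (xm x z) = xm (pull E.hm.f x) (pull E'.hm.f z) := by
  refine (smd Y V U).natural (smd Y' V' U') E.hm.f E'.hm.f
    (GS.qmap ((Y.prod U.sph).prod V.sph) ((Y'.prod U'.sph).prod V'.sph)
      ⟨fun z => ((g z.1.1, E'.f z.1), E.f (z.1.1, z.2)), by fun_prop⟩ fun γ z =>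
        ⟨φ γ, Prod.ext (Prod.ext (E.hg γ z.1.1).symm (E'.hf γ z.1.1 z.1.2).symm)
          (E.hf γ z.1.1 z.2).symm⟩) F ?_ ?_ ?_ hx hz (hx.hm E.hm) (hz.hm E'.hm)
  · intro z; obtain ⟨⟨y, u⟩, w, rfl⟩ := pt_surj z; rfl
  · intro z; obtain ⟨⟨y, u⟩, w, rfl⟩ := pt_surj z; rfl
  · intro z; obtain ⟨⟨y, u⟩, w, rfl⟩ := pt_surj z; exact (hF y w u).symm

end EqM

/-- the stabilisation datum of a fibrewise map given by an equivariant map -/
def stab {Y : GS Γ} {V W : LS Γ} (U : LS Γ) (E : EqM Y V Y W id (.id _))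
    (F : H1 (Sb Y V) (Sb Y W)) (hF : ∀ y w, F.f (pt Y V y w) = pt Y W y (E.f (y, w)))
    (F' : H1 (Sb Y (V.prod U)) (Sb Y (W.prod U)))
    (hF' : ∀ y w u, F'.f (pt Y _ y (wdg (w, u))) = pt Y _ y (wdg (E.f (y, w), u))) :
    Stab (smd Y V U) (smd Y W U) F F' where
  G :=
    { f := GS.qmap ((Y.prod U.sph).prod V.sph) ((Y.prod U.sph).prod W.sph)
        ⟨fun z => (z.1, E.f (z.1.1, z.2)), by fun_prop⟩ fun γ z =>
          ⟨γ, Prod.ext rfl (E.hf γ z.1.1 z.2).symm⟩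
      hp := fun z => by obtain ⟨⟨y, u⟩, w, rfl⟩ := pt_surj z; rfl
      hs := fun x => by
        obtain ⟨y, u, rfl⟩ := pt_surj x
        exact congrArg (pt (Y.prod U.sph) W (y, u)) (E.hi y) }
  hq z := by obtain ⟨⟨y, u⟩, w, rfl⟩ := pt_surj z; exact (hF y w).symm
  hj a := by
    obtain ⟨y, w, rfl⟩ := pt_surj a
    rw [hF]; rfl
  hc z := by obtain ⟨⟨y, u⟩, w, rfl⟩ := pt_surj z; exact hF' y w u

end Crest.Agent.N218.K
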