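import Crest.Agent.N218.K.Cx1
import Crest.Agent.N218.K.Vres

/-! Row 218, D1 (helper32): orientations over lens spaces. -/

set_option autoImplicit false
set_option linter.unusedVariables false

open Topology Filter Set OnePoint Polynomial

noncomputable section

namespace Crest.Agent.N218.K

/-- divisors of a power of `3` -/
def D3 {R : Type} [CommRing R] (a : R) : Prop := ∃ (N : ℕ) (c : R), a * c = 3 ^ N

section alg
variable {R : Type} [CommRing R] {a b : R}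

theorem d3_pow (n : ℕ) : D3 ((3 : R) ^ n) := ⟨n, 1, mul_one _⟩
theorem D3.mul (h : D3 a) (h' : D3 b) : D3 (a * b) := by
  obtain ⟨N, c, e⟩ := h
  obtain ⟨N', c', e'⟩ := h'
  exact ⟨N + N', c * c', by rw [pow_add, ← e, ← e']; ring⟩
theorem d3_prod {ι : Type} (s : Finset ι) {f : ι → R} (h : ∀ i, D3 (f i)) : D3 (∏ i ∈ s, f i) :=
  Finset.prod_induction f D3 (fun _ _ => D3.mul) ⟨0, 1, by simp⟩ fun i _ => h i
theorem d3_rho3 (h : IsNilpotent (1 - a)) : D3 (rho3 a) := by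
  obtain ⟨N, e⟩ := h
  obtain ⟨c, k⟩ := sub_dvd_pow_sub_pow (3 : R) ((1 - a) * (2 + a)) N
  rw [mul_pow, e, zero_mul, sub_zero] at k
  exact ⟨N, c, by rw [k, rho3]; ring⟩
theorem nil_pow (h : IsNilpotent (1 - a)) (n : ℕ) : IsNilpotent (1 - a ^ n) := by
  obtain ⟨c, e⟩ := one_sub_dvd_one_sub_pow a n
  obtain ⟨N, k⟩ := h
  exact ⟨N, by rw [e, mul_pow, k, zero_mul]⟩
theorem nil_inv (h : IsNilpotent (1 - a)) (e : a * b = 1) : IsNilpotent (1 - b) := by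
  obtain ⟨N, k⟩ := h
  exact ⟨N, by rw [show 1 - b = (1 - a) * -b by linear_combination -e, mul_pow, k, zero_mul]⟩

end alg

/-- eigenvalues of two Thom classes -/
theorem Ex.Th.d3 {X : Type} [TopologicalSpace X] {A : Ex X} {l l' : KX A.E} (h : A.Th l)
    (h' : A.Th l') {ρ ρ' : KX X} (e : K.ps _ l = A.sm ρ l) (e' : K.ps _ l' = A.sm ρ' l')
    (d : D3 ρ) : D3 ρ' := by
  obtain ⟨u, v, k, rfl, -⟩ := h.unit h'
  obtain ⟨N, c, d⟩ := d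
  have k2 : K.ps _ u * K.ps _ v = 1 := by rw [← map_mul, k, map_one]
  exact ⟨N, u * K.ps _ v * c, by
    linear_combination (K.ps _ v * c) * h.eig e e' + (ρ * c) * k2 + d⟩

/-- characters of a group with a faithful character -/
theorem char_pow {Γ : Type} [Group Γ] [Finite Γ] {χ : Γ →* Circle} (h : Function.Injective χ)
    (ψ : Γ →* Circle) : ∃ k : ℕ, ψ = χ ^ k := by
  let c : Γ →* ℂ := Circle.coeHom.comp χ
  have hc : Function.Injective c := Subtype.val_injective.comp h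
  have := isCyclic_of_injective_ringHom c hc
  obtain ⟨g, hg⟩ := IsCyclic.exists_generator (α := Γ)
  have p : IsPrimitiveRoot (c g) (orderOf g) :=
    orderOf_injective c hc g ▸ IsPrimitiveRoot.orderOf (c g)
  have : NeZero (orderOf g) := ⟨(orderOf_pos g).ne'⟩
  obtain ⟨k, -, e⟩ := p.eq_pow_of_pow_eq_one (ξ := (ψ g : ℂ)) (by
    rw [← Circle.coe_pow, ← map_pow, pow_orderOf_eq_one, map_one, Circle.coe_one])
  refine ⟨k, MonoidHom.eq_of_eqOn_dense (s := {g}) ?_ fun x hx => ?_⟩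
  · rw [← Subgroup.zpowers_eq_closure, eq_top_iff]; exact fun x _ => hg x
  · obtain rfl : x = g := hx
    exact Subtype.ext (e.symm.trans (Circle.coe_pow _ _).symm)

variable {Γ : Type} [Group Γ] [TopologicalSpace Γ]

theorem LL_eq (χ : Γ →* Circle) (hχ : Continuous χ) (r : ℕ) : LL χ hχ r = Lc (Sp χ hχ r) χ :=
  (Lc_eq (Cp.spS0 χ hχ r)).symm

theorem rU_eq (χ : Γ →* Circle) (hχ : Continuous χ) (r : ℕ) : rU χ hχ r = rho3 (LL χ hχ r) ^ r := by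
  simp [rU, ev, rho3]

theorem ll_nil (T : THOM1) (χ : Γ →* Circle) (hχ : Continuous χ) (r : ℕ) :
    (1 - LL χ hχ r) ^ r = 0 := by
  let Y := GS.triv Circle Unit
  have k := Cp.cp_nil (Y := Y) (χ := .id Circle) continuous_id r T fun y z => ⟨z, rfl, rfl⟩
  let f : C((Sp χ hχ r).Z, (Cp.YS Y (.id Circle) continuous_id r).Z) :=
    ⟨fun u : US r => ((), u), by fun_prop⟩
  have e := pull_Lc ⟨Cp.spS Y (.id Circle) continuous_id r⟩ (f := f) (χ' := χ)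
    (fun g _ => ⟨χ g, rfl, rfl⟩) (GS.qmap _ _ f fun g _ => ⟨χ g, rfl⟩) fun _ => rfl
  have k := congrArg (pull (GS.qmap _ _ f fun g _ => ⟨χ g, rfl⟩)) k
  rwa [map_pow, map_sub, map_one, map_zero, e, ← LL_eq] at k

theorem sec_sp (χ : Γ →* Circle) (hχ : Continuous χ) (r : ℕ) (k : ℤ) :
    Nonempty (Sec (Sp χ hχ r) (χ ^ k)) := sec_zpow ⟨Cp.spS0 χ hχ r⟩ k

theorem nil_sp (T : THOM1) (χ : Γ →* Circle) (hχ : Continuous χ) (r : ℕ) (k : ℤ) :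
    IsNilpotent (1 - Lc (Sp χ hχ r) (χ ^ k)) := by
  have S : Nonempty (Sec (Sp χ hχ r) χ) := ⟨Cp.spS0 χ hχ r⟩
  have h : ∀ n : ℕ, IsNilpotent (1 - Lc (Sp χ hχ r) (χ ^ n)) := fun n => by
    rw [Lc_pow S, ← LL_eq]; exact nil_pow ⟨r, ll_nil T χ hχ r⟩ n
  cases k with
  | ofNat n => rw [Int.ofNat_eq_natCast, zpow_natCast]; exact h n
  | negSucc n => rw [zpow_negSucc]; exact nil_inv (h _) (Lc_mul_inv (sec_pow S _))

theorem gd_sp [Finite Γ] {χ : Γ →* Circle} (h : Function.Injective χ) (hχ : Continuous χ) (r : ℕ) :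
    Gd (Sp χ hχ r) := fun ψ _ => by
  obtain ⟨k, rfl⟩ := char_pow h ψ
  exact sec_pow ⟨Cp.spS0 χ hχ r⟩ k


variable [CompactSpace Γ] {χ : Γ →* Circle} (hχ : Continuous χ) (r : ℕ)

/-- the standard class when the characters are powers of `χ` -/
theorem ut_sp (T : THOM1) {ι : Type} [Fintype ι] {ψ : ι → Γ →* Circle} {hψ : ∀ i, Continuous (ψ i)}
    (h : ∀ i, ∃ k : ℤ, ψ i = χ ^ k) {W : LS Γ} (A : W.Iso (Rep.wt ψ hψ).ls) :
    ∃ l ρ, UT (Sp χ hχ r) W l ∧ ps _ l = (Sb _ W).sm ρ l ∧ D3 ρ := by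
  obtain ⟨l, a, b⟩ := ut_wt (Y := Sp χ hχ r) T
    (fun i => by obtain ⟨k, e⟩ := h i; rw [e]; exact sec_sp χ hχ r k) A
  refine ⟨l, _, a, b, d3_prod _ fun i => ?_⟩
  obtain ⟨k, e⟩ := h i
  rw [e]; exact d3_rho3 (nil_sp T χ hχ r k)

theorem Cx.sp [Finite Γ] (T : THOM1) (h : Function.Injective χ) {W : LS Γ} (hW : Cx W) :
    ∃ l ρ, UT (Sp χ hχ r) W l ∧ ps _ l = (Sb _ W).sm ρ l ∧ D3 ρ :=
  let ⟨_, ψ, _, ⟨A⟩⟩ := hW
  ut_sp hχ r T (fun i => let ⟨k, e⟩ := char_pow h (ψ i); ⟨k, by rw [e, zpow_natCast]⟩) A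

theorem ut_uu (T : THOM1) :
    ∃ l, UT (Sp χ hχ r) (UU χ hχ r).ls l ∧ ps _ l = (Sb _ _).sm (rU χ hχ r) l := by
  obtain ⟨l, a, b⟩ := ut_wt (Y := Sp χ hχ r) T (fun _ => ⟨Cp.spS0 χ hχ r⟩)
    (LS.Iso.refl (UU χ hχ r).ls)
  exact ⟨l, a, by rw [b, rU_eq, LL_eq, Finset.prod_const, Finset.card_univ, Fintype.card_fin]⟩

/-- **existence of orientations** (any compact group), both classes universal -/
theorem ori_ex (T : THOM1) {S : LS Γ} {V : Rep Γ} {E : Type} [NormedAddCommGroup E]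
    [NormedSpace ℝ E] [FiniteDimensional ℝ E] {m : ℕ} (hm : Module.finrank ℝ E = 2 * m)
    (A : S.Iso ((Rep.triv Γ E).ls.prod V.ls)) {l : KS (Sp χ hχ r) V.ls} (h : UT _ _ l) {ρ}
    (e : ps _ l = (Sb _ _).sm ρ l) :
    ∃ o : Ori (Sp χ hχ r) S (TT χ hχ r V) (rU χ hχ r) (3 ^ m), o.rS = 3 ^ m * ρ ∧
      o.rT = ρ * rU χ hχ r ∧ UT _ _ o.lS ∧ UT _ _ o.lT := by
  obtain ⟨a, a1, a2⟩ := ut_even T (Sp χ hχ r) E m hm
  obtain ⟨b, b1, b2⟩ := ut_uu hχ r T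
  have s := (a1.xm h).iso A (A.mp _)
  have s2 := eig_iso A (A.mp _) (eig_xm a2 e)
  obtain ⟨c, c1, c2⟩ : ∃ c, UT (Sp χ hχ r) (V.ls.prod (UU χ hχ r).ls) c ∧
    ps _ c = (Sb _ _).sm (ρ * rU χ hχ r) c := ⟨_, h.xm b1, eig_xm e b2⟩
  change ∃ o : Ori (Sp χ hχ r) S (V.ls.prod (UU χ hχ r).ls) (rU χ hχ r) (3 ^ m), o.rS = 3 ^ m * ρ ∧
      o.rT = ρ * rU χ hχ r ∧ UT _ _ o.lS ∧ UT _ _ o.lT
  exact ⟨⟨_, c, 3 ^ m * ρ, ρ * rU χ hχ r, s.th, c1.th, s2, c2, mul_assoc _ _ _⟩, rfl, rfl, s, c1⟩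

theorem th_d3 [Finite Γ] (T : THOM1) (h : Function.Injective χ) {W : LS Γ} (hW : Cx W)
    {l : KS (Sp χ hχ r) W} (hl : (Sb _ W).Th l) {ρ} (e : ps _ l = (Sb _ W).sm ρ l) : D3 ρ :=
  let ⟨_, _, a, b, c⟩ := hW.sp hχ r T h; a.th.d3 hl b e c

theorem cxa : CXA := fun χ X V hV =>
  ⟨fun a => (Adm.cx_even (m := 6) a hV).xr2, fun a => Adm.cx_odd (m := 2) a hV, cx_tt χ _ 7 hV⟩

theorem thr (T : THOM1) : THR := fun χ φ r M h hM l hl =>
  (ut_of_th T (gd_sp h _ r) hM hl).2 _ φ (cc φ) (Sp (χ.comp φ) (cc _) r) (.id _) (fun _ _ => rfl) _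
    fun _ _ => rfl

theorem vres' (T : THOM1) : VRES := vres (thr T) cxa

/-- **orientations** -/
theorem oex (T : THOM1) : OEX := by
  intro Γ _ _ _ _ χ X V hq hV
  obtain ⟨l, ρ, a, b, -⟩ := hV.sp (cc χ) 7 T hq.inj
  obtain ⟨c1, c2, -⟩ := cxa χ X V hV
  refine ⟨fun h => ⟨?_, fun o => th_d3 _ 7 T hq.inj (c1 h) o.tS o.pS⟩,
    fun h => ⟨?_, fun o => th_d3 _ 7 T hq.inj (c2 h) o.tS o.pS⟩⟩
  · obtain ⟨A⟩ := h
    exact (ori_ex (cc χ) 7 T (m := 7) (by simp) (admIso2 A) a b).nonempty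
  · obtain ⟨A⟩ := h
    exact (ori_ex (cc χ) 7 T (m := 3) (by simp) (admIso A) a b).nonempty

end Crest.Agent.N218.K

end
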