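import Crest.Agent.N218.K.Prod

/-! Row 218, D0 (helper33; section kit by helper56): line bundles of characters and the Thom
class of one character. -/

open Crest.Agent.R204.K357 Topology Filter Set OnePoint ComplexConjugate Matrix
open scoped Kronecker

set_option linter.unnecessarySeqFocus false

noncomputable section

namespace Crest.Agent.N218.K

variable {Γ Γ' : Type} [Group Γ] [TopologicalSpace Γ] [Group Γ'] [TopologicalSpace Γ']

/-- equivariant unit sections -/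
structure Sec (Y : GS Γ) (χ : Γ →* Circle) where
  ι : Type
  [fin : Fintype ι]
  s : C(Y.Z, ι → ℂ)
  un : ∀ y, Un1 (s y)
  eq : ∀ g y i, s (Y.act g y) i = χ g * s y i

attribute [instance] Sec.fin

namespace Sec
variable {Y : GS Γ} {Y' : GS Γ'} {χ χ₁ : Γ →* Circle} {χ' : Γ' →* Circle}

/-- the matrix `s s'^*` -/
def out (S S' : Sec Y χ) : Matrix S.ι S'.ι C(Y.Q, ℂ) := fun i j =>
  Y.lift ⟨fun y => S.s y i * conj (S'.s y j), by fun_prop⟩ fun g y => by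
    change S.s _ i * conj (S'.s _ j) = S.s y i * conj (S'.s y j)
    rw [S.eq, S'.eq, map_mul]
    linear_combination (S.s y i * conj (S'.s y j)) * circ_conj (χ g)

theorem op_out (S S' : Sec Y χ) (y : Y.Z) : Op (S.out S') (Y.pr y) (S.s y) (S'.s y) :=
  fun _ _ => rfl

theorem ln_out (S : Sec Y χ) : Ln (S.out S) := fun x => by
  obtain ⟨y, rfl⟩ := Y.pr_surj x
  exact ⟨_, S.un y, S.op_out S y⟩

/-- the line bundle of `χ` -/
def L (S : Sec Y χ) : KX Y.Q := kc (S.out S)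

theorem L_eq (S S' : Sec Y χ) : S.L = S'.L := kc_ln (S.out S') fun x => by
  obtain ⟨y, rfl⟩ := Y.pr_surj x
  exact ⟨_, _, S.un y, S'.un y, S.op_out S y, S'.op_out S' y, S.op_out S' y⟩

theorem L_congr (S : Sec Y χ) (S' : Sec Y χ₁) (h : χ = χ₁) : S.L = S'.L := by
  subst h; exact L_eq S S'

theorem ps_L (S : Sec Y χ) : ps _ S.L = S.L ^ 3 := S.ln_out.ps

/-- pull-back of a section -/
def comap (S : Sec Y χ) (f : C(Y'.Z, Y.Z))
    (h : ∀ g y i, S.s (f (Y'.act g y)) i = χ' g * S.s (f y) i) : Sec Y' χ' :=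
  ⟨S.ι, S.s.comp f, fun y => S.un (f y), h⟩

/-- naturality -/
theorem pull_L (S : Sec Y χ) (S' : Sec Y' χ') (F : C(Y'.Q, Y.Q)) (f : C(Y'.Z, Y.Z))
    (hF : ∀ y, F (Y'.pr y) = Y.pr (f y))
    (h : ∀ g y i, S.s (f (Y'.act g y)) i = χ' g * S.s (f y) i) : pull F S.L = S'.L := by
  rw [← L_eq (S.comap f h) S', L, pull_kc _ S.ln_out.idem, L]
  congr 1
  ext i j x
  obtain ⟨y, rfl⟩ := Y'.pr_surj x
  change S.out S i j (F _) = _
  rw [hF]; rfl

variable (Y) in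
/-- the trivial section -/
def one : Sec Y 1 := ⟨Unit, .const _ fun _ => 1, fun _ => un1_unit, fun _ _ _ => by simp⟩

theorem one_L : (one Y).L = 1 := by
  rw [← kc_one, L]
  congr 1
  ext i j x
  obtain ⟨y, rfl⟩ := Y.pr_surj x
  exact (op_out _ _ y i j).trans (op_one (Y.pr y) i j).symm

theorem L_one (S : Sec Y χ) (h : ∀ g, χ g = 1) : S.L = 1 := by
  rw [← one_L]; exact L_congr _ _ (MonoidHom.ext h)

/-- tensor product -/
def mul (S : Sec Y χ) (S' : Sec Y χ₁) : Sec Y (χ * χ₁) :=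
  ⟨S.ι × S'.ι, ⟨fun y p => S.s y p.1 * S'.s y p.2, by fun_prop⟩, fun y => (S.un y).kron (S'.un y),
    fun g y p => by
      change S.s _ _ * S'.s _ _ = _ * (S.s _ _ * S'.s _ _)
      rw [S.eq, S'.eq]; simp; ring⟩

theorem mul_L (S : Sec Y χ) (S' : Sec Y χ₁) : (S.mul S').L = S.L * S'.L := by
  rw [L, L, L, ← kc_kron S.ln_out.idem S'.ln_out.idem]
  congr 1
  ext i j x
  obtain ⟨y, rfl⟩ := Y.pr_surj x
  exact (((S.op_out S y).kron (S'.op_out S' y)) i j).symm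

/-- powers -/
def pow (S : Sec Y χ) : (n : ℕ) → Sec Y (χ ^ n)
  | 0 => (pow_zero χ).symm ▸ one Y
  | n + 1 => (pow_succ χ n).symm ▸ (pow S n).mul S

theorem L_pow (S : Sec Y χ) (n : ℕ) (S' : Sec Y (χ ^ n)) : S'.L = S.L ^ n := by
  induction n with
  | zero => exact (L_one _ fun g => by simp).trans (pow_zero _).symm
  | succ n ih => rw [pow_succ S.L, ← ih (S.pow n), ← mul_L]; exact L_congr _ _ (pow_succ χ n)

/-- the dual -/
def inv (S : Sec Y χ) : Sec Y χ⁻¹ :=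
  ⟨S.ι, ⟨fun y i => conj (S.s y i), by fun_prop⟩, fun y => by
    have := S.un y
    simpa [Un1, mul_comm] using this, fun g y i => by
      change conj (S.s _ _) = _ * conj (S.s _ _)
      rw [S.eq, map_mul, MonoidHom.inv_apply, Circle.coe_inv_eq_conj]⟩

theorem L_mul_inv (S : Sec Y χ) (S' : Sec Y χ⁻¹) : S.L * S'.L = 1 := by
  rw [← mul_L]; exact L_one _ fun g => by simp

end Sec


open Classical in
/-- the line bundle of a character (choice free) -/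
def Lc (Y : GS Γ) (χ : Γ →* Circle) : KX Y.Q := if h : Nonempty (Sec Y χ) then h.some.L else 1

section Lc
variable {Y : GS Γ} {Y' : GS Γ'} {χ χ₁ : Γ →* Circle} {χ' : Γ' →* Circle}

theorem Lc_eq (S : Sec Y χ) : Lc Y χ = S.L := by
  rw [Lc, dif_pos ⟨S⟩]; exact Sec.L_eq _ _

theorem Lc_one : Lc Y 1 = 1 := (Lc_eq (Sec.one Y)).trans Sec.one_L
theorem Lc_of_one (h : ∀ g, χ g = 1) : Lc Y χ = 1 := by
  rw [show χ = 1 from MonoidHom.ext h, Lc_one]
theorem Lc_mul (h : Nonempty (Sec Y χ)) (h₁ : Nonempty (Sec Y χ₁)) :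
    Lc Y (χ * χ₁) = Lc Y χ * Lc Y χ₁ := by
  obtain ⟨S⟩ := h; obtain ⟨S₁⟩ := h₁
  rw [Lc_eq (S.mul S₁), Sec.mul_L, Lc_eq S, Lc_eq S₁]
theorem Lc_pow (h : Nonempty (Sec Y χ)) (n : ℕ) : Lc Y (χ ^ n) = Lc Y χ ^ n := by
  obtain ⟨S⟩ := h
  rw [Lc_eq (S.pow n), S.L_pow n, Lc_eq S]
theorem Lc_mul_inv (h : Nonempty (Sec Y χ)) : Lc Y χ * Lc Y χ⁻¹ = 1 := by
  obtain ⟨S⟩ := h
  rw [Lc_eq S, Lc_eq S.inv, S.L_mul_inv]
theorem ps_Lc : ps _ (Lc Y χ) = Lc Y χ ^ 3 := by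
  unfold Lc
  split_ifs with h
  · exact Sec.ps_L _
  · simp
theorem sec_pow (h : Nonempty (Sec Y χ)) (n : ℕ) : Nonempty (Sec Y (χ ^ n)) := h.map (·.pow n)
theorem sec_inv (h : Nonempty (Sec Y χ)) : Nonempty (Sec Y χ⁻¹) := h.map (·.inv)
theorem sec_mul (h : Nonempty (Sec Y χ)) (h₁ : Nonempty (Sec Y χ₁)) : Nonempty (Sec Y (χ * χ₁)) :=
  ⟨h.some.mul h₁.some⟩
theorem sec_zpow (h : Nonempty (Sec Y χ)) (n : ℤ) : Nonempty (Sec Y (χ ^ n)) := by
  cases n with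
  | ofNat n => rw [Int.ofNat_eq_natCast, zpow_natCast]; exact sec_pow h n
  | negSucc n => rw [zpow_negSucc]; exact sec_inv (sec_pow h _)

/-- `f` is equivariant as far as the characters see -/
def EqC (f : C(Y'.Z, Y.Z)) (χ' : Γ' →* Circle) (χ : Γ →* Circle) : Prop :=
  ∀ g' y, ∃ g, f (Y'.act g' y) = Y.act g (f y) ∧ χ g = χ' g'

/-- pull-back of a section -/
def Sec.cm (S : Sec Y χ) {f : C(Y'.Z, Y.Z)} (h : EqC f χ' χ) : Sec Y' χ' :=
  S.comap f fun g y i => by obtain ⟨g₁, a, b⟩ := h g y; rw [a, S.eq, b]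

theorem EqC.sec {f : C(Y'.Z, Y.Z)} (h : EqC f χ' χ) (hS : Nonempty (Sec Y χ)) :
    Nonempty (Sec Y' χ') := hS.map (·.cm h)

theorem pull_Lc (hS : Nonempty (Sec Y χ)) {f : C(Y'.Z, Y.Z)} (h : EqC f χ' χ) (F : C(Y'.Q, Y.Q))
    (hF : ∀ y, F (Y'.pr y) = Y.pr (f y)) : pull F (Lc Y χ) = Lc Y' χ' := by
  obtain ⟨S⟩ := hS
  rw [Lc_eq S, Lc_eq (S.cm h)]
  exact S.pull_L _ F f hF (S.cm h).eq

end Lc

/-- one character as a representation -/
def Rep.ch (χ : Γ →* Circle) (hχ : Continuous χ) : Rep Γ where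
  W := ℂ
  ρ := { toFun := fun g => ContinuousLinearMap.mul ℝ ℂ (χ g)
         map_one' := by ext <;> simp
         map_mul' := fun g h => by ext <;> simp [mul_assoc] }
  cont := continuous_clm_apply.2 fun w => (continuous_subtype_val.comp hχ).mul continuous_const

/-- one character as a space -/
abbrev ch (χ : Γ →* Circle) (hχ : Continuous χ) : LS Γ := (Rep.ch χ hχ).ls

theorem ch_act (χ : Γ →* Circle) (hχ : Continuous χ) (g : Γ) (v : ℂ) :
    (ch χ hχ).act g v = ((χ g : ℂ) * v : ℂ) := rfl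

/-! ### the stereographic coordinates -/

theorem nsq_pos (v : ℂ) : (0 : ℝ) < 1 + ‖v‖ ^ 2 := by positivity

theorem tend0 {f : ℂ → ℂ} (h : ∀ v, v ≠ 0 → ‖f v‖ ≤ ‖v‖⁻¹) : Tendsto f (coclosedCompact ℂ) (𝓝 0) := by
  rw [coclosedCompact_eq_cocompact, ← Metric.cobounded_eq_cocompact,
    tendsto_zero_iff_norm_tendsto_zero]
  refine squeeze_zero' (.of_forall fun _ => norm_nonneg _) ?_
    (tendsto_inv_atTop_zero.comp (tendsto_norm_cobounded_atTop (E := ℂ)))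
  filter_upwards [(tendsto_norm_cobounded_atTop (E := ℂ)).eventually_gt_atTop 0] with v hv
  exact h v (norm_pos_iff.1 hv)

/-- `1 / (1 + |v|²)` -/
def al : C(OnePoint ℂ, ℂ) :=
  OnePoint.continuousMapMk ⟨fun v => (((1 + ‖v‖ ^ 2)⁻¹ : ℝ) : ℂ), Complex.continuous_ofReal.comp
    (Continuous.inv₀ (by fun_prop) fun v => (nsq_pos v).ne')⟩ 0 (tend0 fun v hv => by
      have := norm_pos_iff.2 hv
      change ‖(((1 + ‖v‖ ^ 2)⁻¹ : ℝ) : ℂ)‖ ≤ _
      rw [Complex.norm_real, Real.norm_of_nonneg (inv_pos.2 (nsq_pos v)).le]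
      exact inv_anti₀ this (by nlinarith))

/-- `v / (1 + |v|²)` -/
def be : C(OnePoint ℂ, ℂ) :=
  OnePoint.continuousMapMk ⟨fun v => v * (((1 + ‖v‖ ^ 2)⁻¹ : ℝ) : ℂ), continuous_id.mul
    (Complex.continuous_ofReal.comp (Continuous.inv₀ (by fun_prop) fun v => (nsq_pos v).ne'))⟩ 0
    (tend0 fun v hv => by
      have := norm_pos_iff.2 hv
      change ‖v * (((1 + ‖v‖ ^ 2)⁻¹ : ℝ) : ℂ)‖ ≤ _
      rw [norm_mul, Complex.norm_real, Real.norm_of_nonneg (inv_pos.2 (nsq_pos v)).le,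
        ← div_eq_mul_inv, div_le_iff₀ (nsq_pos v), inv_mul_eq_div, le_div_iff₀ this]
      nlinarith)

theorem al_infty : al ∞ = 0 := rfl
theorem be_infty : be ∞ = 0 := rfl
theorem al_coe (v : ℂ) : al v = (((1 + ‖v‖ ^ 2)⁻¹ : ℝ) : ℂ) := rfl
theorem be_coe (v : ℂ) : be v = v * al v := rfl
theorem al_zero : al ((0 : ℂ) : OnePoint ℂ) = 1 := by simp [al_coe]
theorem be_zero : be ((0 : ℂ) : OnePoint ℂ) = 0 := by simp [be_coe]

theorem exists_rc (v : OnePoint ℂ) :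
    ∃ r c : ℂ, conj r = r ∧ al v = r * r ∧ be v = c * r ∧ r * r + conj c * c = 1 := by
  induction v using OnePoint.rec with
  | infty => exact ⟨0, 1, by simp, by simp [al_infty], by simp [be_infty], by simp⟩
  | coe v =>
    have h : ((√((1 + ‖v‖ ^ 2)⁻¹) : ℝ) : ℂ) * (√((1 + ‖v‖ ^ 2)⁻¹) : ℝ) = al v := by
      rw [al_coe, ← Complex.ofReal_mul, Real.mul_self_sqrt (inv_pos.2 (nsq_pos v)).le]
    have h2 : al v * (1 + conj v * v) = 1 := by
      rw [al_coe, mul_comm (conj v), Complex.mul_conj, Complex.normSq_eq_norm_sq]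
      exact_mod_cast inv_mul_cancel₀ (nsq_pos v).ne'
    refine ⟨_, v * (√((1 + ‖v‖ ^ 2)⁻¹) : ℝ), Complex.conj_ofReal _, h.symm, ?_, ?_⟩
    · rw [be_coe, ← h]; ring
    · rw [map_mul, Complex.conj_ofReal]
      linear_combination (1 + conj v * v) * h + h2

variable [CompactSpace Γ] [CompactSpace Γ']

theorem al_act (χ : Γ →* Circle) (hχ : Continuous χ) (g : Γ) (v : OnePoint ℂ) :
    al ((ch χ hχ).sph.act g v) = al v := by
  induction v using OnePoint.rec with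
  | infty => rfl
  | coe v =>
    change al ((χ g * v : ℂ) : OnePoint ℂ) = _
    rw [al_coe, al_coe, norm_mul, Circle.norm_coe, one_mul]

theorem be_act (χ : Γ →* Circle) (hχ : Continuous χ) (g : Γ) (v : OnePoint ℂ) :
    be ((ch χ hχ).sph.act g v) = χ g * be v := by
  induction v using OnePoint.rec with
  | infty => exact (mul_zero _).symm
  | coe v =>
    change (χ g * v) * al ((ch χ hχ).sph.act g (v : OnePoint ℂ)) = χ g * (v * al v)
    rw [al_act, mul_assoc]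

namespace Sec
variable {Y : GS Γ} {Y' : GS Γ'} {χ : Γ →* Circle} {χ' : Γ' →* Circle} (hχ : Continuous χ)

variable (Y) in
/-- `al` on the sphere bundle -/
def aS : C((Sb Y (ch χ hχ)).E, ℂ) :=
  (Y.prod (ch χ hχ).sph).lift (al.comp .snd) fun g z => al_act χ hχ g z.2

/-- `s conj(be)` on the sphere bundle -/
def bS (S : Sec Y χ) (i : S.ι) : C((Sb Y (ch χ hχ)).E, ℂ) :=
  (Y.prod (ch χ hχ).sph).lift ⟨fun z => S.s z.1 i * conj (be z.2),
    (((continuous_apply i).comp S.s.continuous).comp continuous_fst).mul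
      (Complex.continuous_conj.comp (be.continuous.comp continuous_snd))⟩ fun g z => by
    change S.s (Y.act g z.1) i * conj (be ((ch χ hχ).sph.act g z.2)) = S.s z.1 i * conj (be z.2)
    rw [S.eq, be_act χ hχ g z.2, map_mul]
    linear_combination (S.s z.1 i * conj (be z.2)) * circ_conj (χ g)

/-- `s s'^*` on the sphere bundle -/
def oS (S S' : Sec Y χ) : Matrix S.ι S'.ι C((Sb Y (ch χ hχ)).E, ℂ) :=
  Matrix.of fun i j => (S.out S' i j).comp (Sb Y (ch χ hχ)).p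

/-- the matrix `(s, v) (s', v)^* / (1 + |v|²)` -/
def H2 (S S' : Sec Y χ) : Matrix (S.ι ⊕ Unit) (S'.ι ⊕ Unit) C((Sb Y (ch χ hχ)).E, ℂ) :=
  fromBlocks (Matrix.of fun i j => aS Y hχ * oS hχ S S' i j) (Matrix.of fun i _ => bS hχ S i)
    (Matrix.of fun _ j => star (bS hχ S' j)) (Matrix.of fun _ _ => 1 - aS Y hχ)

/-- the unit vector `(r s, c)` -/
def wv (S : Sec Y χ) (y : Y.Z) (r c : ℂ) : S.ι ⊕ Unit → ℂ := Sum.elim (fun i => r * S.s y i) fun _ => c

omit [CompactSpace Γ] in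
theorem un_wv (S : Sec Y χ) (y : Y.Z) {r c : ℂ} (h : conj r * r + conj c * c = 1) :
    Un1 (S.wv y r c) := by
  have := S.un y
  unfold Un1 at *
  rw [Fintype.sum_sum_type]
  simp only [wv, Sum.elim_inl, Sum.elim_inr, map_mul, Finset.univ_unique, Finset.sum_singleton]
  rw [Finset.sum_congr rfl fun i _ => (show conj r * conj (S.s y i) * (r * S.s y i) =
    conj r * r * (conj (S.s y i) * S.s y i) by ring), ← Finset.mul_sum, this, mul_one, h]

theorem op_H2 (S S' : Sec Y χ) (y : Y.Z) {v : OnePoint ℂ} {r c : ℂ} (h1 : conj r = r)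
    (h2 : al v = r * r) (h3 : be v = c * r) (h4 : r * r + conj c * c = 1) :
    Op (H2 hχ S S') (pt Y (ch χ hχ) y v) (S.wv y r c) (S'.wv y r c) := by
  rintro (i | i) (j | j)
  · change al v * (S.s y i * conj (S'.s y j)) = r * S.s y i * conj (r * S'.s y j)
    rw [h2, map_mul, h1]; ring
  · change S.s y i * conj (be v) = r * S.s y i * conj c
    rw [h3, map_mul, h1]; ring
  · change conj (S'.s y j * conj (be v)) = c * conj (r * S'.s y j)
    rw [map_mul, Complex.conj_conj, map_mul, h3, h1]; ring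
  · change 1 - al v = c * conj c
    rw [h2]; linear_combination -h4

theorem ln_H (S : Sec Y χ) : Ln (H2 hχ S S) := fun x => by
  obtain ⟨y, v, rfl⟩ := pt_surj x
  obtain ⟨r, c, h1, h2, h3, h4⟩ := exists_rc v
  exact ⟨_, S.un_wv y (by rw [h1, h4]), op_H2 hχ S S y h1 h2 h3 h4⟩

/-- the tautological line on the sphere bundle -/
def H (S : Sec Y χ) : KS Y (ch χ hχ) := kc (H2 hχ S S)

theorem H_eq (S S' : Sec Y χ) : S.H hχ = S'.H hχ := kc_ln (H2 hχ S S') fun x => by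
  obtain ⟨y, v, rfl⟩ := pt_surj x
  obtain ⟨r, c, h1, h2, h3, h4⟩ := exists_rc v
  exact ⟨_, _, S.un_wv y (by rw [h1, h4]), S'.un_wv y (by rw [h1, h4]), op_H2 hχ S S y h1 h2 h3 h4,
    op_H2 hχ S' S' y h1 h2 h3 h4, op_H2 hχ S S' y h1 h2 h3 h4⟩

theorem kc_oS (S : Sec Y χ) : kc (oS hχ S S) = pull (Sb Y (ch χ hχ)).p S.L :=
  (pull_kc _ S.ln_out.idem).symm

theorem op_oS (S S' : Sec Y χ) (y : Y.Z) (v : OnePoint ℂ) :
    Op (oS hχ S S') (pt Y (ch χ hχ) y v) (S.s y) (S'.s y) := fun _ _ => rfl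

theorem ln_oS (S : Sec Y χ) : Ln (oS hχ S S) := fun x => by
  obtain ⟨y, v, rfl⟩ := pt_surj x
  exact ⟨_, S.un y, op_oS hχ S S y v⟩

/-- the complementary line -/
def G2 (S : Sec Y χ) : Matrix (S.ι ⊕ Unit) (S.ι ⊕ Unit) C((Sb Y (ch χ hχ)).E, ℂ) :=
  fromBlocks (oS hχ S S) 0 0 1 - H2 hχ S S

theorem op_G2 (S : Sec Y χ) (y : Y.Z) {v : OnePoint ℂ} {r c : ℂ} (h1 : conj r = r)
    (h2 : al v = r * r) (h3 : be v = c * r) (h4 : r * r + conj c * c = 1) :
    Op (G2 hχ S) (pt Y (ch χ hχ) y v) (S.wv y (conj c) (-r)) (S.wv y (conj c) (-r)) := by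
  have k := op_H2 hχ S S y h1 h2 h3 h4
  rintro (i | i) (j | j)
  · change S.s y i * conj (S.s y j) - H2 hχ S S _ _ _ = conj c * S.s y i * conj (conj c * S.s y j)
    rw [k]; simp only [wv, Sum.elim_inl, map_mul, h1, Complex.conj_conj]
    linear_combination (-S.s y i * conj (S.s y j)) * h4
  · change 0 - H2 hχ S S _ _ _ = conj c * S.s y i * conj (-r)
    rw [k]; simp only [wv, Sum.elim_inl, Sum.elim_inr, map_neg, h1]; ring
  · change 0 - H2 hχ S S _ _ _ = -r * conj (conj c * S.s y j)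
    rw [k]; simp only [wv, Sum.elim_inl, Sum.elim_inr, map_mul, h1, Complex.conj_conj]; ring
  · change 1 - H2 hχ S S _ _ _ = -r * conj (-r)
    rw [k]; simp only [wv, Sum.elim_inr, map_neg, h1]; linear_combination -h4

omit [CompactSpace Γ] in
theorem un_G {r c : ℂ} (h1 : conj r = r) (h4 : r * r + conj c * c = 1) :
    conj (conj c) * conj c + conj (-r) * -r = 1 := by
  rw [Complex.conj_conj, map_neg, h1]; linear_combination h4

theorem ln_G (S : Sec Y χ) : Ln (G2 hχ S) := fun x => by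
  obtain ⟨y, v, rfl⟩ := pt_surj x
  obtain ⟨r, c, h1, h2, h3, h4⟩ := exists_rc v
  exact ⟨_, S.un_wv y (un_G h1 h4), op_G2 hχ S y h1 h2 h3 h4⟩

omit [CompactSpace Γ] in
theorem wv_dot (S : Sec Y χ) (y : Y.Z) (r c r' c' : ℂ) :
    ∑ j, conj (S.wv y r c j) * S.wv y r' c' j = conj r * r' + conj c * c' := by
  have := S.un y
  unfold Un1 at *
  rw [Fintype.sum_sum_type]
  simp only [wv, Sum.elim_inl, Sum.elim_inr, map_mul, Finset.univ_unique, Finset.sum_singleton]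
  rw [Finset.sum_congr rfl fun i _ => (show conj r * conj (S.s y i) * (r' * S.s y i) =
    conj r * r' * (conj (S.s y i) * S.s y i) by ring), ← Finset.mul_sum, this, mul_one]

theorem H_add_G (S : Sec Y χ) : S.H hχ + kc (G2 hχ S) = pull (Sb Y (ch χ hχ)).p S.L + 1 := by
  have e : H2 hχ S S + G2 hχ S = fromBlocks (oS hχ S S) 0 0 1 := by rw [G2, add_sub_cancel]
  have a : H2 hχ S S * G2 hχ S = 0 := by
    ext i k x
    obtain ⟨y, v, rfl⟩ := pt_surj x
    obtain ⟨r, c, h1, h2, h3, h4⟩ := exists_rc v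
    rw [(op_H2 hχ S S y h1 h2 h3 h4).mul (op_G2 hχ S y h1 h2 h3 h4), wv_dot, h1]
    simp [mul_comm]
  have b : G2 hχ S * H2 hχ S S = 0 := by
    ext i k x
    obtain ⟨y, v, rfl⟩ := pt_surj x
    obtain ⟨r, c, h1, h2, h3, h4⟩ := exists_rc v
    rw [(op_G2 hχ S y h1 h2 h3 h4).mul (op_H2 hχ S S y h1 h2 h3 h4), wv_dot, map_neg, h1]
    simp [mul_comm]
  rw [← kc_oS, ← kc_one]
  refine (K0.cls_add (ln_H hχ S).idem (ln_G hχ S).idem a b).symm.trans ?_
  rw [e]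
  exact K0.cls_sum (ln_oS hχ S).idem (by simp)

theorem G_mul_H (S : Sec Y χ) : kc (G2 hχ S) * S.H hχ = pull (Sb Y (ch χ hχ)).p S.L := by
  rw [← kc_oS, H, ← kc_kron (ln_G hχ S).idem (ln_H hχ S).idem]
  refine kc_ln (Matrix.of fun p j => fromBlocks (Matrix.of fun i k => bS hχ S i * oS hχ S S k j)
    (Matrix.of fun i _ => (1 - aS Y hχ) * oS hχ S S i j)
    (Matrix.of fun _ k => -aS Y hχ * oS hχ S S k j) (Matrix.of fun _ _ => -star (bS hχ S j))
    p.1 p.2) fun x => ?_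
  obtain ⟨y, v, rfl⟩ := pt_surj x
  obtain ⟨r, c, h1, h2, h3, h4⟩ := exists_rc v
  refine ⟨_, _, (S.un_wv y (un_G h1 h4)).kron (S.un_wv y (by rw [h1, h4])), S.un y,
    (op_G2 hχ S y h1 h2 h3 h4).kron (op_H2 hχ S S y h1 h2 h3 h4), op_oS hχ S S y v, ?_⟩
  rintro ⟨i | i, k | k⟩ j
  · change S.s y i * conj (be v) * (S.s y k * conj (S.s y j)) =
      conj c * S.s y i * (r * S.s y k) * conj (S.s y j)
    rw [h3, map_mul, h1]; ring
  · change (1 - al v) * (S.s y i * conj (S.s y j)) = conj c * S.s y i * c * conj (S.s y j)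
    rw [h2]; linear_combination (-S.s y i * conj (S.s y j)) * h4
  · change -al v * (S.s y k * conj (S.s y j)) = -r * (r * S.s y k) * conj (S.s y j)
    rw [h2]; ring
  · change -conj (S.s y j * conj (be v)) = -r * c * conj (S.s y j)
    rw [h3, map_mul, Complex.conj_conj]; ring

theorem H_rel (S : Sec Y χ) :
    S.H hχ * (1 - S.H hχ) = pull (Sb Y (ch χ hχ)).p S.L * (1 - S.H hχ) := by
  linear_combination (-S.H hχ) * H_add_G hχ S + G_mul_H hχ S

theorem ps_H (S : Sec Y χ) : ps _ (S.H hχ) = S.H hχ ^ 3 := (ln_H hχ S).ps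

/-- `H` is trivial at infinity -/
theorem pull_H_inf (S : Sec Y χ) {T : Type} [TopologicalSpace T] (f : C(T, (Sb Y (ch χ hχ)).E))
    (hf : ∀ t, ∃ y, f t = pt Y (ch χ hχ) y ∞) : pull f (S.H hχ) = 1 := by
  rw [H, pull_kc _ (ln_H hχ S).idem, ← kc_one]
  refine kc_ln (Matrix.of fun a _ => Sum.elim (fun _ => 0) (fun _ => 1) a) fun x => ?_
  obtain ⟨y, hy⟩ := hf x
  refine ⟨S.wv y 0 1, _, S.un_wv y (by simp), un1_unit, fun a b => ?_, op_one x, ?_⟩
  · change H2 hχ S S a b (f x) = _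
    rw [hy]
    exact op_H2 hχ S S y (by simp) (al_infty.trans (by simp)) (be_infty.trans (by simp)) (by simp) a b
  · rintro (i | i) j <;> simp [wv]

/-- `H` is `L` on the zero section -/
theorem pull_H_zero (S : Sec Y χ) (f : C(Y.Q, (Sb Y (ch χ hχ)).E))
    (hf : ∀ y, f (Y.pr y) = pt Y (ch χ hχ) y ((0 : ℂ) : OnePoint ℂ)) : pull f (S.H hχ) = S.L := by
  rw [H, pull_kc _ (ln_H hχ S).idem, L]
  refine kc_ln (Matrix.of fun a j => Sum.elim (fun i => S.out S i j) (fun _ => 0) a) fun x => ?_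
  obtain ⟨y, rfl⟩ := Y.pr_surj x
  refine ⟨S.wv y 1 0, _, S.un_wv y (by simp), S.un y, fun a b => ?_, S.op_out S y, ?_⟩
  · change H2 hχ S S a b (f _) = _
    rw [hf]
    exact op_H2 hχ S S y (by simp) (al_zero.trans (by simp)) (be_zero.trans (by simp)) (by simp) a b
  · rintro (i | i) j
    · change S.s y i * conj (S.s y j) = 1 * S.s y i * conj (S.s y j)
      rw [one_mul]
    · simp [wv]

/-- naturality -/
theorem pull_H (hχ' : Continuous χ') (S : Sec Y χ) {f : C(Y'.Z, Y.Z)} (h : EqC f χ' χ)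
    (F : C((Sb Y' (ch χ' hχ')).E, (Sb Y (ch χ hχ)).E))
    (hF : ∀ y v, F (pt Y' (ch χ' hχ') y v) = pt Y (ch χ hχ) (f y) v) :
    pull F (S.H hχ) = (S.cm h).H hχ' := by
  rw [H, pull_kc _ (ln_H hχ S).idem, H]
  congr 1
  ext a b x
  obtain ⟨y, v, rfl⟩ := pt_surj x
  obtain ⟨r, c, h1, h2, h3, h4⟩ := exists_rc v
  change H2 hχ S S a b (F _) = _
  rw [hF]
  exact (op_H2 hχ S S (f y) h1 h2 h3 h4 a b).trans
    (op_H2 hχ' (S.cm h) (S.cm h) y h1 h2 h3 h4 a b).symm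

end Sec

open Classical in
/-- **the Thom class of one character** -/
def lam1 (Y : GS Γ) (χ : Γ →* Circle) (hχ : Continuous χ) : KS Y (ch χ hχ) :=
  if h : Nonempty (Sec Y χ) then 1 - h.some.H hχ else 0

/-- the cannibalistic class of a line -/
def rho3 {R : Type} [CommRing R] (L : R) : R := 1 + L + L ^ 2

section lam1
variable {Y : GS Γ} {Y' : GS Γ'} {χ : Γ →* Circle} {χ' : Γ' →* Circle} (hχ : Continuous χ)

theorem lam1_eq (S : Sec Y χ) : lam1 Y χ hχ = 1 - S.H hχ := by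
  rw [lam1, dif_pos ⟨S⟩, Sec.H_eq hχ _ S]

theorem pull_lam1_inf {T : Type} [TopologicalSpace T] (f : C(T, (Sb Y (ch χ hχ)).E))
    (hf : ∀ t, ∃ y, f t = pt Y (ch χ hχ) y ∞) : pull f (lam1 Y χ hχ) = 0 := by
  unfold lam1
  split_ifs with h
  · rw [map_sub, map_one, Sec.pull_H_inf hχ _ f hf, sub_self]
  · exact map_zero _

theorem rd_lam1 : (Sb Y (ch χ hχ)).Rd (lam1 Y χ hχ) :=
  pull_lam1_inf hχ _ fun t => by obtain ⟨y, rfl⟩ := Y.pr_surj t; exact ⟨y, rfl⟩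

theorem ps_lam1 : ps _ (lam1 Y χ hχ) = (Sb Y (ch χ hχ)).sm (rho3 (Lc Y χ)) (lam1 Y χ hχ) := by
  by_cases h : Nonempty (Sec Y χ)
  · obtain ⟨S⟩ := h
    rw [lam1_eq hχ S, Lc_eq S, map_sub, map_one, S.ps_H, Ex.sm, rho3, map_add, map_add, map_one,
      map_pow]
    linear_combination (1 + S.H hχ + pull (Sb Y (ch χ hχ)).p S.L) * S.H_rel hχ
  · rw [lam1, dif_neg h, map_zero, Ex.sm, mul_zero]


theorem zero_lam1 (h : Nonempty (Sec Y χ)) (f : C(Y.Q, (Sb Y (ch χ hχ)).E))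
    (hf : ∀ y, f (Y.pr y) = pt Y (ch χ hχ) y ((0 : ℂ) : OnePoint ℂ)) :
    pull f (lam1 Y χ hχ) = 1 - Lc Y χ := by
  obtain ⟨S⟩ := h
  rw [lam1_eq hχ S, Lc_eq S, map_sub, map_one, S.pull_H_zero hχ f hf]

theorem pull_lam1 (hχ' : Continuous χ') (hS : Nonempty (Sec Y χ)) {f : C(Y'.Z, Y.Z)}
    (h : EqC f χ' χ) (F : C((Sb Y' (ch χ' hχ')).E, (Sb Y (ch χ hχ)).E))
    (hF : ∀ y v, F (pt Y' (ch χ' hχ') y v) = pt Y (ch χ hχ) (f y) v) :
    pull F (lam1 Y χ hχ) = lam1 Y' χ' hχ' := by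
  obtain ⟨S⟩ := hS
  rw [lam1_eq hχ S, lam1_eq hχ' (S.cm h), map_sub, map_one, S.pull_H hχ hχ' h F hF]

end lam1

end Crest.Agent.N218.K
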