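import Crest.Agent.N218.K.Rel
import Crest.Agent.N218.K.Lam1
import Crest.Agent.N218.Al.Kr

-- ▼ part N218/K/Cp0
section

/-!
# Row 218, block D0 (helper56): geometry of `S((r+1)χ)` versus the sphere bundle over `S(rχ)`
-/

set_option autoImplicit false
set_option linter.unusedVariables false

open Crest.Agent.R204.K357 Crest.Agent.R204.Ex837 Topology Set OnePoint ComplexConjugate

noncomputable section

namespace Crest.Agent.N218.K.Cp

variable {Γ : Type} [Group Γ] [TopologicalSpace Γ]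

/-- the closed unit disc -/
abbrev UD : Type := Metric.closedBall (0 : ℂ) 1

theorem UD.le (w : UD) : ‖(w : ℂ)‖ ≤ 1 := mem_closedBall_zero_iff.1 w.2

/-- the unit disc of a character -/
def Dk (χ : Γ →* Circle) (hχ : Continuous χ) : GS Γ where
  Z := UD
  act g w := ⟨χ g * w.1, mem_closedBall_zero_iff.2 (by simpa using UD.le w)⟩
  one z := by ext; simp
  mul g h z := by ext; simp [mul_assoc]
  cont := Continuous.subtype_mk ((continuous_subtype_val.comp (hχ.comp continuous_fst)).mul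
    (continuous_subtype_val.comp continuous_snd)) _

/-- `√(1-|w|²)` -/
def cw (w : ℂ) : ℝ := √(1 - ‖w‖ ^ 2)

theorem cw_cont : Continuous cw := by unfold cw; fun_prop
theorem cw_nn (w : ℂ) : 0 ≤ cw w := Real.sqrt_nonneg _
theorem cw_circ (z : Circle) (w : ℂ) : cw (z * w) = cw w := by simp [cw]
theorem cw_sq (w : UD) : cw w ^ 2 = 1 - ‖(w : ℂ)‖ ^ 2 :=
  Real.sq_sqrt (by nlinarith [w.le, norm_nonneg (w : ℂ)])
theorem cw_zero {w : UD} : cw w = 0 ↔ ‖(w : ℂ)‖ = 1 := by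
  have := cw_sq w
  constructor
  · intro h; rw [h] at this; nlinarith [w.le, norm_nonneg (w : ℂ)]
  · intro h; simp [cw, h]

theorem conj_mul_self (w : ℂ) : conj w * w = (‖w‖ ^ 2 : ℝ) := by
  rw [mul_comm, Complex.mul_conj, Complex.normSq_eq_norm_sq]

/-- the open disc blown up to the plane -/
def thD : C(UD, OnePoint ℂ) :=
  ⟨fun w => sc (cw w, ((w : ℂ) : OnePoint ℂ)), continuous_iff_continuousAt.2 fun w =>
    ContinuousAt.comp (f := fun w : UD => (cw w, ((w : ℂ) : OnePoint ℂ))) (sc_at fun h e => by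
      have h1 := cw_zero.1 h
      rw [coe_injective e] at h1; simp at h1)
      ((cw_cont.comp continuous_subtype_val).prodMk
        (continuous_coe.comp continuous_subtype_val)).continuousAt⟩

theorem thD_bd {w : UD} (h : cw w = 0) : thD w = ∞ := by
  change sc (cw w, _) = _
  rw [h, sc_zero]

theorem thD_in {w : UD} (h : cw w ≠ 0) : thD w = (((cw w : ℂ)⁻¹ * w : ℂ) : OnePoint ℂ) := by
  change sc (cw w, _) = _
  rw [sc_coe h]; simp

theorem thD_inf {w : UD} : thD w = ∞ ↔ cw w = 0 :=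
  ⟨fun h => by_contra fun a => coe_ne_infty _ ((thD_in a).symm.trans h), thD_bd⟩

theorem thD_surj (v : OnePoint ℂ) : ∃ w, thD w = v := by
  induction v using OnePoint.rec with
  | infty => exact ⟨⟨1, by simp⟩, thD_bd (by simp [cw])⟩
  | coe v =>
    have p : 0 < √(1 + ‖v‖ ^ 2) := Real.sqrt_pos.2 (by positivity)
    have s : √(1 + ‖v‖ ^ 2) ^ 2 = 1 + ‖v‖ ^ 2 := Real.sq_sqrt (by positivity)
    generalize √(1 + ‖v‖ ^ 2) = t at p s
    have n : ‖(t : ℂ)⁻¹ * v‖ ^ 2 = 1 - (t⁻¹) ^ 2 := by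
      rw [norm_mul, norm_inv, Complex.norm_real, Real.norm_of_nonneg p.le]
      field_simp; linarith
    have c : cw ((t : ℂ)⁻¹ * v) = t⁻¹ := by
      rw [cw, n, sub_sub_cancel, Real.sqrt_sq (by positivity)]
    refine ⟨⟨(t : ℂ)⁻¹ * v, mem_closedBall_zero_iff.2 (by
      nlinarith [norm_nonneg ((t : ℂ)⁻¹ * v), sq_nonneg t⁻¹])⟩, ?_⟩
    have t0 : (t : ℂ) ≠ 0 := by exact_mod_cast p.ne'
    rw [thD_in (by rw [c]; positivity), c]
    congr 1; push_cast; field_simp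

theorem thD_inj {w w' : UD} (h : thD w = thD w') (h0 : cw w ≠ 0) : w = w' := by
  have h0' : cw w' ≠ 0 := fun a => h0 (thD_inf.1 (h.trans (thD_bd a)))
  rw [thD_in h0, thD_in h0'] at h
  have e := coe_injective h
  have n := congrArg (fun z : ℂ => ‖z‖ ^ 2) e
  simp only [norm_mul, norm_inv, Complex.norm_real, Real.norm_eq_abs, mul_pow, inv_pow,
    sq_abs] at n
  have a := cw_sq w
  have a' := cw_sq w'
  have c : cw w = cw w' := by
    refine (sq_eq_sq₀ (cw_nn _) (cw_nn _)).1 ?_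
    field_simp at n
    nlinarith
  rw [c] at e
  exact Subtype.ext (mul_left_cancel₀ (inv_ne_zero (by exact_mod_cast h0')) e)

variable [CompactSpace Γ] (Y : GS Γ) (χ : Γ →* Circle) (hχ : Continuous χ) (r : ℕ)

theorem thD_act (g : Γ) (w : UD) :
    thD ((Dk χ hχ).act g w) = (ch χ hχ).sph.act g (thD w) := by
  have e : cw (χ g * w) = cw w := cw_circ (χ g) w
  by_cases h : cw w = 0
  · exact (thD_bd (w := (Dk χ hχ).act g w) (e.trans h)).trans (by rw [thD_bd h]; rfl)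
  · refine (thD_in (w := (Dk χ hχ).act g w) (e.trans_ne h)).trans ?_
    rw [thD_in h]
    change (((cw (χ g * w) : ℂ)⁻¹ * (χ g * w) : ℂ) : OnePoint ℂ) =
      ((χ g * ((cw w : ℂ)⁻¹ * w) : ℂ) : OnePoint ℂ)
    rw [e, mul_left_comm]

/-- the base -/
abbrev YS : GS Γ := Y.prod (Sp χ hχ r)
/-- the disc bundle -/
abbrev YD : GS Γ := (YS Y χ hχ r).prod (Dk χ hχ)
/-- the sphere bundle -/
abbrev YP : Ex (YS Y χ hχ r).Q := Sb (YS Y χ hχ r) (ch χ hχ)

/-- the join map -/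
def jn (r : ℕ) : C(US r × UD, US (r + 1)) :=
  ⟨fun z => ⟨Fin.cons (z.2 : ℂ) fun i => (cw z.2 : ℂ) * z.1.1 i, by
    have h : ∑ i, conj (z.1.1 i) * z.1.1 i = 1 := z.1.2
    have c : ((cw z.2 : ℝ) : ℂ) ^ 2 = 1 - (‖(z.2 : ℂ)‖ ^ 2 : ℝ) := by exact_mod_cast cw_sq z.2
    simp only [Un1, Fin.sum_univ_succ, Fin.cons_zero, Fin.cons_succ, map_mul, Complex.conj_ofReal]
    rw [Finset.sum_congr rfl (g := fun i => (cw z.2 : ℂ) ^ 2 * (conj (z.1.1 i) * z.1.1 i))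
      fun i _ => by ring, ← Finset.mul_sum, h, c, conj_mul_self]; ring⟩, by
    refine Continuous.subtype_mk (continuous_pi fun i => ?_) _
    have := cw_cont
    refine Fin.cases ?_ (fun i => ?_) i
    · simp only [Fin.cons_zero]; fun_prop
    · simp only [Fin.cons_succ]
      exact (Complex.continuous_ofReal.comp (cw_cont.comp (by fun_prop))).mul
        ((continuous_apply i).comp (continuous_subtype_val.comp continuous_fst))⟩

theorem jn_succ (u : US r) (w : UD) (i : Fin r) : (jn r (u, w)).1 i.succ = cw w * u.1 i := rfl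

theorem jn_act (g : Γ) (u : US r) (w : UD) : jn r ((Sp χ hχ r).act g u, (Dk χ hχ).act g w) =
    (Sp χ hχ (r + 1)).act g (jn r (u, w)) := by
  refine Subtype.ext (funext fun i => Fin.cases rfl (fun i => ?_) i)
  change (cw (χ g * w) : ℂ) * (χ g * u.1 i) = χ g * (cw w * u.1 i)
  rw [cw_circ]; ring

theorem jn_inj {u u' : US r} {w w' : UD} (h : jn r (u, w) = jn r (u', w')) (h0 : cw w ≠ 0) :
    u = u' ∧ w = w' := by
  obtain rfl : w = w' := Subtype.ext (congrArg (fun z : US (r + 1) => z.1 0) h)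
  refine ⟨Subtype.ext (funext fun i => ?_), rfl⟩
  exact mul_left_cancel₀ (by exact_mod_cast h0) (congrArg (fun z : US (r + 1) => z.1 i.succ) h)

/-- points on the axis -/
def Ax (u : US (r + 1)) : Prop := ∀ i : Fin r, u.1 i.succ = 0

theorem ax_jn {u : US r} {w : UD} : Ax r (jn r (u, w)) ↔ cw w = 0 := by
  refine ⟨fun h => by_contra fun a => ?_, fun h i => by rw [jn_succ, h]; simp⟩
  have h1 : ∑ i, conj (u.1 i) * u.1 i = 1 := u.2
  have h2 : ∀ i, u.1 i = 0 := fun i => (mul_eq_zero.1 (h i)).resolve_left (by exact_mod_cast a)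
  simp [h2] at h1

theorem jn_surj (u : US (r + 1)) : Ax r u ∨ ∃ z, jn r z = u := by
  let w : UD := ⟨u.1 0, mem_closedBall_zero_iff.2 (u.2.norm_le 0)⟩
  have h : conj (u.1 0) * u.1 0 + ∑ i : Fin r, conj (u.1 i.succ) * u.1 i.succ = 1 := by
    have := u.2
    rwa [Un1, Fin.sum_univ_succ] at this
  have c : ((cw w : ℝ) : ℂ) ^ 2 = 1 - (‖u.1 0‖ ^ 2 : ℝ) := by exact_mod_cast cw_sq w
  rw [conj_mul_self] at h
  by_cases a : cw w = 0
  · refine .inl fun i => ?_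
    have h1 : ∑ i : Fin r, ‖u.1 i.succ‖ ^ 2 = 0 := by
      have : ∑ i : Fin r, conj (u.1 i.succ) * u.1 i.succ = 0 := by
        rw [a, Complex.ofReal_zero] at c; linear_combination h - c
      simp only [conj_mul_self] at this
      exact_mod_cast this
    simpa using (Finset.sum_eq_zero_iff_of_nonneg fun _ _ => sq_nonneg _).1 h1 i (Finset.mem_univ _)
  · have a' : (cw w : ℂ) ≠ 0 := by exact_mod_cast a
    refine .inr ⟨(⟨fun i => (cw w : ℂ)⁻¹ * u.1 i.succ, ?_⟩, w),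
      Subtype.ext (funext fun i => Fin.cases rfl (fun i => mul_inv_cancel_left₀ a' _) i)⟩
    simp only [Un1, map_mul, map_inv₀, Complex.conj_ofReal]
    rw [Finset.sum_congr rfl
      (g := fun i => ((cw w : ℂ) ^ 2)⁻¹ * (conj (u.1 i.succ) * u.1 i.succ)) fun i _ => by ring,
      ← Finset.mul_sum, inv_mul_eq_one₀ (pow_ne_zero 2 a')]
    linear_combination c - h

/-- disc bundle to the next sphere -/
def f1 : C((YD Y χ hχ r).Q, (YS Y χ hχ (r + 1)).Q) :=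
  GS.qmap _ _ ⟨fun z : (Y.Z × US r) × UD => (z.1.1, jn r (z.1.2, z.2)), by fun_prop⟩
    fun g z => ⟨g, Prod.ext rfl (jn_act χ hχ r g z.1.2 z.2).symm⟩

/-- disc bundle to the sphere bundle -/
def f2 : C((YD Y χ hχ r).Q, (YP Y χ hχ r).E) :=
  GS.qmap _ _ ⟨fun z : (Y.Z × US r) × UD => (z.1, thD z.2), by fun_prop⟩
    fun g z => ⟨g, Prod.ext rfl (thD_act χ hχ g z.2).symm⟩

/-- points of the disc bundle -/
def pd (y : Y.Z) (u : US r) (w : UD) : (YD Y χ hχ r).Q := (YD Y χ hχ r).pr ((y, u), w)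
/-- points of the base -/
def pb (y : Y.Z) (u : US r) : (YS Y χ hχ r).Q := (YS Y χ hχ r).pr (y, u)

theorem pd_surj (z : (YD Y χ hχ r).Q) : ∃ y u w, pd Y χ hχ r y u w = z :=
  let ⟨a, h⟩ := (YD Y χ hχ r).pr_surj z; ⟨a.1.1, a.1.2, a.2, h⟩
theorem pb_surj (z : (YS Y χ hχ r).Q) : ∃ y u, pb Y χ hχ r y u = z :=
  let ⟨a, h⟩ := (YS Y χ hχ r).pr_surj z; ⟨a.1, a.2, h⟩
theorem pb_eq {y y' : Y.Z} {u u' : US r} : pb Y χ hχ r y u = pb Y χ hχ r y' u' ↔
    ∃ g, Y.act g y = y' ∧ (Sp χ hχ r).act g u = u' :=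
  (YS Y χ hχ r).pr_eq.trans (exists_congr fun _ => Prod.ext_iff)
theorem f1_pd (y : Y.Z) (u : US r) (w : UD) :
    f1 Y χ hχ r (pd Y χ hχ r y u w) = pb Y χ hχ (r + 1) y (jn r (u, w)) := rfl
theorem f2_pd (y : Y.Z) (u : US r) (w : UD) :
    f2 Y χ hχ r (pd Y χ hχ r y u w) = pt (YS Y χ hχ r) (ch χ hχ) (y, u) (thD w) := rfl

/-- the boundary of the disc bundle -/
def bdD : Set (YD Y χ hχ r).Q := {z | ∃ y u w, cw (w : UD) = 0 ∧ pd Y χ hχ r y u w = z}

theorem pd_bd {y : Y.Z} {u : US r} {w : UD} : pd Y χ hχ r y u w ∈ bdD Y χ hχ r ↔ cw w = 0 := by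
  refine ⟨fun ⟨y', u', w', a, e⟩ => ?_, fun h => ⟨y, u, w, h, rfl⟩⟩
  obtain ⟨g, e⟩ := (YD Y χ hχ r).pr_eq.1 e
  rw [← show (Dk χ hχ).act g w' = w from congrArg Prod.snd e]
  exact (cw_circ (χ g) w').trans a

/-- the inclusion of the boundary -/
def iD : C(bdD Y χ hχ r, (YD Y χ hχ r).Q) := ⟨Subtype.val, continuous_subtype_val⟩

theorem f2_surj : Function.Surjective (f2 Y χ hχ r) := fun e => by
  obtain ⟨y, v, rfl⟩ := pt_surj e
  obtain ⟨w, rfl⟩ := thD_surj v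
  exact ⟨pd Y χ hχ r y.1 y.2 w, rfl⟩

theorem f2_inj {z z' : (YD Y χ hχ r).Q} (h : f2 Y χ hχ r z = f2 Y χ hχ r z') :
    z = z' ∨ z ∈ bdD Y χ hχ r := by
  obtain ⟨y, u, w, rfl⟩ := pd_surj _ _ _ _ z
  obtain ⟨y', u', w', rfl⟩ := pd_surj _ _ _ _ z'
  refine or_iff_not_imp_right.2 fun a => ?_
  obtain ⟨g, e, e'⟩ := pt_iff.1 h
  refine (YD Y χ hχ r).pr_eq.2 ⟨g, Prod.ext e (thD_inj ((thD_act χ hχ g w).trans e') ?_)⟩
  exact (cw_circ (χ g) w).trans_ne fun b => a ((pd_bd ..).2 b)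

theorem f2_s {z : (YD Y χ hχ r).Q} :
    f2 Y χ hχ r z ∈ range (YP Y χ hχ r).s ↔ z ∈ bdD Y χ hχ r := by
  obtain ⟨y, u, w, rfl⟩ := pd_surj _ _ _ _ z
  rw [pd_bd, f2_pd, ← thD_inf]
  refine ⟨fun ⟨b, e⟩ => ?_, fun h => ⟨pb Y χ hχ r y u, by rw [h]; rfl⟩⟩
  obtain ⟨y', u', rfl⟩ := pb_surj _ _ _ _ b
  obtain ⟨g, -, e'⟩ := pt_iff.1 e
  exact e'.symm

theorem exc2 : Exc (cr (YP Y χ hχ r).s) (cr (iD Y χ hχ r)) (cr (f2 Y χ hχ r)) :=
  exc_of _ _ _ (fun x => .inl (f2_surj _ _ _ _ x))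
    (fun z => (f2_s ..).trans (by simp [iD])) fun z z' h => by simpa [iD] using f2_inj _ _ _ _ h

theorem f1_inj {z z' : (YD Y χ hχ r).Q} (h : f1 Y χ hχ r z = f1 Y χ hχ r z') :
    z = z' ∨ z ∈ bdD Y χ hχ r := by
  obtain ⟨y, u, w, rfl⟩ := pd_surj _ _ _ _ z
  obtain ⟨y', u', w', rfl⟩ := pd_surj _ _ _ _ z'
  refine or_iff_not_imp_right.2 fun a => ?_
  obtain ⟨g, e, e'⟩ := (pb_eq ..).1 h
  rw [← jn_act] at e'
  obtain ⟨e1, e2⟩ := jn_inj r e' ((cw_circ (χ g) w).trans_ne fun b => a ((pd_bd ..).2 b))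
  exact (YD Y χ hχ r).pr_eq.2 ⟨g, Prod.ext (Prod.ext e e1) e2⟩

/-- excision for any parametrisation `i` of the axis -/
theorem exc1 {A : Type} [TopologicalSpace A] [CompactSpace A] (i : C(A, (YS Y χ hχ (r + 1)).Q))
    (hi : ∀ y u, pb Y χ hχ (r + 1) y u ∈ range i ↔ Ax r u) :
    Exc (cr i) (cr (iD Y χ hχ r)) (cr (f1 Y χ hχ r)) :=
  exc_of _ _ _ (fun x => by
      obtain ⟨y, u, rfl⟩ := pb_surj _ _ _ _ x
      rcases jn_surj r u with h | ⟨z, rfl⟩
      exacts [.inr ((hi y u).2 h), .inl ⟨pd Y χ hχ r y z.1 z.2, rfl⟩])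
    (fun z => by
      obtain ⟨y, u, w, rfl⟩ := pd_surj _ _ _ _ z
      rw [f1_pd, hi, ax_jn, ← pd_bd Y χ hχ r (y := y) (u := u)]; simp [iD])
    fun z z' h => by simpa [iD] using f1_inj _ _ _ _ h

end Crest.Agent.N218.K.Cp

end
end

-- ▼ part N218/K/Cp1
section

/-!
# Row 218, block D0 (helper56): K-theory of projective bundles, from Thom classes
-/

set_option autoImplicit false
set_option linter.unusedVariables false

open Crest.Agent.R204.K357 Crest.Agent.R204.Ex837 Topology Set OnePoint ComplexConjugate Polynomial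

noncomputable section

namespace Crest.Agent.N218.K.Cp

variable {Γ : Type} [Group Γ] [TopologicalSpace Γ] [CompactSpace Γ]

/-- all stabilisers surject onto the circle -/
def StS (Y : GS Γ) (χ : Γ →* Circle) : Prop := ∀ y z, ∃ g, Y.act g y = y ∧ χ g = z

variable (Y : GS Γ) (χ : Γ →* Circle) (hχ : Continuous χ) (r : ℕ)

/-- projection to the base -/
def piB : C((YS Y χ hχ r).Q, Y.Q) := GS.qmap _ _ ContinuousMap.fst fun g _ => ⟨g, rfl⟩

/-- the first basis vector -/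
def e0 (r : ℕ) : US (r + 1) := ⟨Fin.cons 1 0, by simp [Un1, Fin.sum_univ_succ]⟩

theorem ax_e0 : Ax r (e0 r) := fun _ => rfl

theorem Ax.circ {u : US (r + 1)} (h : Ax r u) : ∃ z : Circle, u.1 0 = z := by
  have h1 : conj (u.1 0) * u.1 0 = 1 := by
    have := u.2
    rw [Un1, Fin.sum_univ_succ] at this
    simpa [h _] using this
  rw [conj_mul_self] at h1
  have h2 : ‖u.1 0‖ ^ 2 = 1 := by exact_mod_cast h1
  exact ⟨⟨u.1 0, mem_sphere_zero_iff_norm.2 (by nlinarith [norm_nonneg (u.1 0)])⟩, rfl⟩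

omit [CompactSpace Γ] in
theorem ax_act (g : Γ) {u : US (r + 1)} : Ax r ((Sp χ hχ (r + 1)).act g u) ↔ Ax r u :=
  forall_congr' fun i => (mul_eq_zero_iff_left (Circle.coe_ne_zero (χ g)))

variable {Y χ}

theorem ax_eq (H : StS Y χ) (y : Y.Z) {u : US (r + 1)} (h : Ax r u) :
    pb Y χ hχ (r + 1) y (e0 r) = pb Y χ hχ (r + 1) y u := by
  obtain ⟨z, e⟩ := h.circ
  obtain ⟨g, a, b⟩ := H y z
  refine (pb_eq ..).2 ⟨g, a, Subtype.ext (funext fun i => Fin.cases ?_ (fun i => ?_) i)⟩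
  · change (χ g : ℂ) * 1 = _
    rw [b, e, mul_one]
  · exact (mul_zero _).trans (h i).symm

/-- the section given by the axis -/
def jB (H : StS Y χ) : C(Y.Q, (YS Y χ hχ (r + 1)).Q) :=
  Y.lift ((YS Y χ hχ (r + 1)).pr.comp ⟨fun y => (y, e0 r), by fun_prop⟩) fun g y =>
    (ax_eq hχ r H _ ((ax_act χ hχ r g).2 (ax_e0 r))).trans ((pb_eq ..).2 ⟨g, rfl, rfl⟩).symm


theorem jB_range (H : StS Y χ) (y : Y.Z) (u : US (r + 1)) :
    pb Y χ hχ (r + 1) y u ∈ range (jB hχ r H) ↔ Ax r u := by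
  refine ⟨fun ⟨b, e⟩ => ?_, fun h => ⟨Y.pr y, ax_eq hχ r H y h⟩⟩
  obtain ⟨y', rfl⟩ := Y.pr_surj b
  obtain ⟨g, -, rfl⟩ := (pb_eq ..).1 e
  exact (ax_act χ hχ r g).2 (ax_e0 r)

theorem piB_jB (H : StS Y χ) (b : Y.Q) : piB Y χ hχ (r + 1) (jB hχ r H b) = b := by
  obtain ⟨y, rfl⟩ := Y.pr_surj b; rfl

theorem f1_bd (H : StS Y χ) {z : (YD Y χ hχ r).Q} (h : z ∈ bdD Y χ hχ r) :
    f1 Y χ hχ r z = jB hχ r H (piB Y χ hχ r ((YP Y χ hχ r).p (f2 Y χ hχ r z))) := by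
  obtain ⟨y, u, w, a, rfl⟩ := h
  exact (ax_eq hχ r H y ((ax_jn r).2 a)).symm

omit [CompactSpace Γ] in
theorem qm_of {A B : Type} [TopologicalSpace A] [CompactSpace A] [TopologicalSpace B] [T2Space B]
    (f : C(A, B)) (h : Function.Surjective f) : IsQuotientMap f :=
  f.continuous.isClosedMap.isQuotientMap f.continuous h

theorem f1_fac (H : StS Y χ) : Function.FactorsThrough (f1 Y χ hχ r) (f2 Y χ hχ r) :=
  fun z z' e => by
    rcases f2_inj _ _ _ _ e with rfl | h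
    · rfl
    · rw [f1_bd hχ r H h, f1_bd hχ r H ((f2_s ..).1 (e ▸ (f2_s ..).2 h)), e]

/-- the collapse of the section at infinity -/
def cP (H : StS Y χ) : C((YP Y χ hχ r).E, (YS Y χ hχ (r + 1)).Q) :=
  (qm_of _ (f2_surj Y χ hχ r)).lift (f1 Y χ hχ r) (f1_fac hχ r H)

theorem cP_f2 (H : StS Y χ) (z : (YD Y χ hχ r).Q) : cP hχ r H (f2 Y χ hχ r z) = f1 Y χ hχ r z :=
  DFunLike.congr_fun ((qm_of _ (f2_surj Y χ hχ r)).lift_comp (f1 Y χ hχ r) (f1_fac hχ r H)) z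

theorem piB_cP (H : StS Y χ) (e : (YP Y χ hχ r).E) :
    piB Y χ hχ (r + 1) (cP hχ r H e) = piB Y χ hχ r ((YP Y χ hχ r).p e) := by
  obtain ⟨z, rfl⟩ := f2_surj Y χ hχ r e
  obtain ⟨y, u, w, rfl⟩ := pd_surj _ _ _ _ z
  rw [cP_f2]; rfl

theorem cP_s (H : StS Y χ) (b : (YS Y χ hχ r).Q) :
    cP hχ r H ((YP Y χ hχ r).s b) = jB hχ r H (piB Y χ hχ r b) := by
  obtain ⟨z, e⟩ := f2_surj Y χ hχ r ((YP Y χ hχ r).s b)
  rw [← e, cP_f2, f1_bd hχ r H ((f2_s ..).1 ⟨b, e.symm⟩), e, Ex.ps]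

theorem cP_inj (H : StS Y χ) {x : KX (YS Y χ hχ (r + 1)).Q} (h1 : pull (jB hχ r H) x = 0)
    (h2 : pull (cP hχ r H) x = 0) : x = 0 := by
  obtain ⟨z, rfl, z2⟩ := Db.lift (ρ := cr (jB hχ r H))
    (cr_surj (Function.LeftInverse.injective (piB_jB hχ r H))) h1
  have E := exc1 Y χ hχ r (jB hχ r H) (jB_range hχ r H)
  have m : ∀ a, cr (jB hχ r H) a = 0 → cr (YP Y χ hχ r).s (cr (cP hχ r H) a) = 0 := fun a ha =>
    ContinuousMap.ext fun b => (congrArg a (cP_s hχ r H b)).trans (DFunLike.congr_fun ha _)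
  have e1 : KR (Db.mp (cr (cP hχ r H)) m) z = 0 :=
    Db.inj (stLift_of_section _ (cr (YP Y χ hχ r).p) fun a =>
      ContinuousMap.ext fun b => congrArg a ((YP Y χ hχ r).ps b))
      ((Db.f_mp _ m z).trans h2) (by rw [Db.s_mp, z2, map_zero])
  have e2 : z = 0 := E.kinj (by
    rw [← kr_kr (Db.mp _ (exc2 Y χ hχ r).mp) (Db.mp (cr (cP hχ r H)) m) (Db.mp _ E.mp) fun a =>
      Subtype.ext (Prod.ext (ContinuousMap.ext fun w => congrArg a.1.1 (cP_f2 hχ r H w))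
        (ContinuousMap.ext fun w => congrArg a.1.2 (cP_f2 hχ r H w))), e1, map_zero]) z2
  rw [e2, map_zero]

theorem kx_empty {X : Type} [TopologicalSpace X] [IsEmpty X] (x : KX X) : x = 0 := by
  rw [← mul_one x, ← kc_one, Subsingleton.elim (1 : Matrix Unit Unit C(X, ℂ)) 0]
  exact mul_eq_zero_of_right _ K0.cls_zero

instance : IsEmpty (US 0) := ⟨fun u => by simpa [Un1] using u.2⟩

omit [CompactSpace Γ] in
instance : IsEmpty (YS Y χ hχ 0).Q :=
  ⟨fun z => let ⟨a, _⟩ := (YS Y χ hχ 0).pr_surj z; isEmptyElim (α := US 0) a.2⟩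

theorem ev_hom {R K K' : Type} [CommRing R] [CommRing K] [CommRing K'] (i : R →+* K) (l : K)
    (f : K →+* K') (i' : R →+* K') (h : ∀ a, f (i a) = i' a) (p : R[X]) :
    f (eval₂ i l p) = eval₂ i' (f l) p := by
  rw [hom_eval₂, RingHom.ext (f := f.comp i) h]

theorem ev_mul {R K : Type} [CommRing R] [CommRing K] (i : R →+* K) {l l' t : K}
    (h : l * t = l' * t) (p : R[X]) : eval₂ i l p * t = eval₂ i l' p * t := by
  have := sub_dvd_eval_sub l l' (p.map i)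
  obtain ⟨c, hc⟩ := this
  rw [eval_map, eval_map] at hc
  linear_combination hc * t + c * h

/-- **the projective bundle theorem** -/
theorem cp_of (H : StS Y χ) (L : ∀ r, KX (YS Y χ hχ r).Q) (lam : ∀ r, KX (YP Y χ hχ r).E)
    (th : ∀ r, (YP Y χ hχ r).Th (lam r))
    (hc : ∀ r, lam r = 1 - pull (cP hχ r H) (L (r + 1)))
    (hm : ∀ r, pull (cP hχ r H) (L (r + 1)) * lam r = pull (YP Y χ hχ r).p (L r) * lam r)
    (hj : ∀ r, pull (jB hχ r H) (L (r + 1)) = 1) (r : ℕ) :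
    (∀ x, ∃ p, eval₂ (pull (piB Y χ hχ r)) (L r) p = x) ∧
      ∀ p, eval₂ (pull (piB Y χ hχ r)) (L r) p = 0 ↔ (1 - X) ^ r ∣ p := by
  induction r with
  | zero => exact ⟨fun x => ⟨0, (kx_empty _).trans (kx_empty _).symm⟩, fun p => by simp [kx_empty]⟩
  | succ r ih =>
    have K2 : ∀ a, pull (cP hχ r H) (eval₂ (pull (piB Y χ hχ (r + 1))) (L (r + 1)) ((1 - X) * a))
        = (YP Y χ hχ r).sm (eval₂ (pull (piB Y χ hχ r)) (L r) a) (lam r) := fun a => by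
      rw [Ex.sm, ev_hom _ _ (pull (YP Y χ hχ r).p)
          ((pull (YP Y χ hχ r).p).comp (pull (piB Y χ hχ r))) (fun _ => rfl), ← ev_mul _ (hm r),
        ev_hom _ _ (pull (cP hχ r H)) ((pull (YP Y χ hχ r).p).comp (pull (piB Y χ hχ r)))
          fun k => (pull_pull _ _ _ (piB_cP hχ r H) k).trans (pull_comp _ _ k),
        eval₂_mul, eval₂_sub, eval₂_one, eval₂_X, ← hc, mul_comm]
    have K3 : ∀ a, pull (jB hχ r H) (eval₂ (pull (piB Y χ hχ (r + 1))) (L (r + 1)) a) =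
        a.eval 1 := fun a => by
      rw [ev_hom _ _ _ (RingHom.id _) (pull_pull_id _ _ (piB_jB hχ r H)), hj]; rfl
    refine ⟨fun x => ?_, fun p => ⟨fun h => ?_, ?_⟩⟩
    · set y := x - pull (piB Y χ hχ (r + 1)) (pull (jB hχ r H) x) with hy
      have y0 : pull (jB hχ r H) y = 0 := by
        rw [hy, map_sub, pull_pull_id _ _ (piB_jB hχ r H), sub_self]
      obtain ⟨b, hb, -⟩ := (th r).2 (pull (cP hχ r H) y) (by
        rw [Ex.Rd, pull_pull _ _ ((jB hχ r H).comp (piB Y χ hχ r)) (cP_s hχ r H), pull_comp, y0,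
          map_zero])
      obtain ⟨a, rfl⟩ := ih.1 b
      refine ⟨C (pull (jB hχ r H) x) + (1 - X) * a, ?_⟩
      have := cP_inj hχ r H
        (x := y - eval₂ (pull (piB Y χ hχ (r + 1))) (L (r + 1)) ((1 - X) * a))
        (by rw [map_sub, y0, K3]; simp) (by rw [map_sub, K2, hb, sub_self])
      rw [eval₂_add, eval₂_C]
      linear_combination -this
    · have h1 : p.IsRoot 1 := by rw [IsRoot, ← K3, h, map_zero]
      obtain ⟨a, rfl⟩ : (1 - X) ∣ p := by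
        have := dvd_iff_isRoot.2 h1
        rwa [C_1, ← neg_sub, neg_dvd] at this
      have h2 := K2 a
      rw [h, map_zero] at h2
      obtain ⟨b, -, hb⟩ := (th r).2 0 (map_zero _)
      rw [pow_succ']
      exact mul_dvd_mul_left _ ((ih.2 a).1 ((hb _ h2).trans (hb 0 (by simp [Ex.sm])).symm))
    · rintro ⟨a, rfl⟩
      rw [pow_succ', mul_assoc]
      exact cP_inj hχ r H (by rw [K3]; simp)
        (by rw [K2, (ih.2 _).2 (dvd_mul_right _ _)]; simp [Ex.sm])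

end Crest.Agent.N218.K.Cp

end
end

-- ▼ part N218/K/Cp2

/-!
# Row 218, block D0 (helper56): K-theory of projective bundles
-/

set_option autoImplicit false
set_option linter.unusedVariables false

open Crest.Agent.R204.K357 Crest.Agent.R204.Ex837 Topology Set OnePoint ComplexConjugate Polynomial

noncomputable section

namespace Crest.Agent.N218.K

/-- the Thom isomorphism for one character -/
def THOM1 : Prop := ∀ (Γ : Type) [Group Γ] [TopologicalSpace Γ] [CompactSpace Γ] (Y : GS Γ)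
  (χ : Γ →* Circle) (hχ : Continuous χ), Nonempty (Sec Y χ) → (Sb Y (ch χ hχ)).Th (lam1 Y χ hχ)

namespace Cp

variable {Γ : Type} [Group Γ] [TopologicalSpace Γ]

/-- the tautological section over `Y × S(r χ)` -/
def spS (Y : GS Γ) (χ : Γ →* Circle) (hχ : Continuous χ) (r : ℕ) : Sec (YS Y χ hχ r) χ :=
  ⟨Fin r, ⟨fun z : Y.Z × US r => z.2.1, continuous_subtype_val.comp continuous_snd⟩,
    fun z : Y.Z × US r => z.2.2, fun _ _ _ => rfl⟩

/-- the tautological section over `S(r χ)` -/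
def spS0 (χ : Γ →* Circle) (hχ : Continuous χ) (r : ℕ) : Sec (Sp χ hχ r) χ :=
  ⟨Fin r, ⟨fun z : US r => z.1, continuous_subtype_val⟩, fun z : US r => z.2, fun _ _ _ => rfl⟩

theorem cw_rel (w : UD) : (cw w : ℂ) * cw w + conj (w : ℂ) * w = 1 := by
  have c : ((cw w : ℝ) : ℂ) ^ 2 = 1 - (‖(w : ℂ)‖ ^ 2 : ℝ) := by exact_mod_cast cw_sq w
  rw [conj_mul_self]; linear_combination c

theorem al_thD (w : UD) : al (thD w) = (cw w : ℂ) * cw w := by
  by_cases h : cw w = 0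
  · rw [thD_bd h, h, al_infty]; simp
  · rw [thD_in h, al_coe, ← Complex.ofReal_mul]
    congr 1
    have := cw_sq w
    rw [norm_mul, norm_inv, Complex.norm_real, Real.norm_of_nonneg (cw_nn _)]
    refine inv_eq_of_mul_eq_one_right ?_
    field_simp
    linarith

theorem be_thD (w : UD) : be (thD w) = (w : ℂ) * cw w := by
  by_cases h : cw w = 0
  · rw [thD_bd h, h, be_infty]; simp
  · have := al_thD w
    have h' : (cw w : ℂ) ≠ 0 := by exact_mod_cast h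
    rw [thD_in h] at this ⊢
    rw [be_coe, this]; field_simp

variable [CompactSpace Γ] {Y : GS Γ} {χ : Γ →* Circle} (hχ : Continuous χ) (r : ℕ)

theorem cP_L (H : StS Y χ) :
    pull (cP hχ r H) (Lc (YS Y χ hχ (r + 1)) χ) = (spS Y χ hχ r).H hχ := by
  rw [Lc_eq (spS Y χ hχ (r + 1)), Sec.L, pull_kc _ (Sec.ln_out _).idem, Sec.H]
  let e : Fin (r + 1) → Fin r ⊕ Unit := Fin.cons (.inr ()) .inl
  refine (kc_ln (Matrix.of fun a (j : Fin (r + 1)) =>
    Sec.H2 hχ (spS Y χ hχ r) (spS Y χ hχ r) a (e j)) fun x => ?_).symm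
  obtain ⟨z, rfl⟩ := f2_surj Y χ hχ r x
  obtain ⟨y, u, w, rfl⟩ := pd_surj _ _ _ _ z
  have k := Sec.op_H2 hχ (spS Y χ hχ r) (spS Y χ hχ r) (y, u) (Complex.conj_ofReal (cw w))
    (al_thD w) (be_thD w) (cw_rel w)
  have e' : ∀ j, (spS Y χ hχ r).wv (y, u) (cw w) w (e j) = (jn r (u, w)).1 j :=
    fun j => Fin.cases rfl (fun _ => rfl) j
  refine ⟨_, (jn r (u, w)).1, Sec.un_wv _ _ (by rw [Complex.conj_ofReal, cw_rel]), (jn r (u, w)).2,
    k, fun i j => ?_, fun a j => (k a (e j)).trans (by rw [e'])⟩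
  change (spS Y χ hχ (r + 1)).out (spS Y χ hχ (r + 1)) i j (cP hχ r H _) = _
  rw [cP_f2]; rfl

theorem lam_cP (H : StS Y χ) :
    lam1 (YS Y χ hχ r) χ hχ = 1 - pull (cP hχ r H) (Lc (YS Y χ hχ (r + 1)) χ) := by
  rw [cP_L, lam1_eq hχ (spS Y χ hχ r)]

theorem jB_L (H : StS Y χ) : pull (jB hχ r H) (Lc (YS Y χ hχ (r + 1)) χ) = 1 := by
  rw [Lc_eq (spS Y χ hχ (r + 1)), Sec.L, pull_kc _ (Sec.ln_out _).idem, ← kc_one]
  refine kc_ln (Matrix.of fun (i : Fin (r + 1)) _ => .const _ ((e0 r).1 i)) fun x => ?_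
  obtain ⟨y, rfl⟩ := Y.pr_surj x
  exact ⟨(e0 r).1, _, (e0 r).2, un1_unit, fun i j => rfl, op_one _, fun i j => by simp⟩

/-- **K-theory of projective bundles** -/
theorem cp (T : THOM1) (H : StS Y χ) :
    (∀ x, ∃ p, eval₂ (pull (piB Y χ hχ r)) (Lc (YS Y χ hχ r) χ) p = x) ∧
      ∀ p, eval₂ (pull (piB Y χ hχ r)) (Lc (YS Y χ hχ r) χ) p = 0 ↔ (1 - X) ^ r ∣ p :=
  cp_of hχ H (fun r => Lc (YS Y χ hχ r) χ) (fun r => lam1 (YS Y χ hχ r) χ hχ)
    (fun r => T _ _ _ _ ⟨spS Y χ hχ r⟩) (fun r => lam_cP hχ r H)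
    (fun r => by
      rw [cP_L, lam1_eq hχ (spS Y χ hχ r), Lc_eq (spS Y χ hχ r)]; exact Sec.H_rel hχ _)
    (fun r => jB_L hχ r H) r

theorem cp_pz (T : THOM1) (H : StS Y χ) :
    Al.Pz (pull (piB Y χ hχ r)) (Lc (YS Y χ hχ r) χ) r 0 :=
  ⟨(cp hχ r T H).1, fun p h => let ⟨a, e⟩ := ((cp hχ r T H).2 p).1 h; ⟨a, 0, by simp [e]⟩⟩

theorem cp_nil (T : THOM1) (H : StS Y χ) : (1 - Lc (YS Y χ hχ r) χ) ^ r = 0 := by
  simpa [eval₂_pow] using ((cp hχ r T H).2 _).2 dvd_rfl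

end Cp

end Crest.Agent.N218.K

end
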