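import Crest.Agent.N218.K.Cx0
import Crest.Agent.N218.K.Cp2

/-! Row 218, D1 (helper32): universal Thom classes and sums of characters. -/

set_option autoImplicit false
set_option linter.unusedVariables false

open Topology Filter Set OnePoint

noncomputable section

namespace Crest.Agent.N218.K

variable {Γ Γ' : Type} [Group Γ] [TopologicalSpace Γ] [Group Γ'] [TopologicalSpace Γ']

/-! ### sums of characters -/

/-- splitting off the first character -/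
def wtCons {n : ℕ} (χ : Fin (n + 1) → Γ →* Circle) (h : ∀ i, Continuous (χ i)) :
    (Rep.wt χ h).ls.Iso ((ch (χ 0) (h 0)).prod (Rep.wt (fun i : Fin n => χ i.succ) fun _ => h _).ls) :=
  ⟨(Fin.consEquivL ℂ fun _ : Fin (n + 1) => ℂ).symm.toHomeomorph, fun _ _ => rfl⟩

/-- reindexing -/
def wtRe {ι κ : Type} [Fintype ι] [Fintype κ] (e : κ ≃ ι) (χ : ι → Γ →* Circle)
    (h : ∀ i, Continuous (χ i)) : (Rep.wt χ h).ls.Iso (Rep.wt (fun k => χ (e k)) fun _ => h _).ls :=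
  ⟨(Homeomorph.piCongrLeft (Y := fun _ : ι => ℂ) e).symm, fun _ _ => rfl⟩

/-- sums -/
def wtSum {ι κ : Type} [Fintype ι] [Fintype κ] (χ : ι ⊕ κ → Γ →* Circle)
    (h : ∀ i, Continuous (χ i)) : (Rep.wt χ h).ls.Iso
      ((Rep.wt (fun i => χ (.inl i)) fun _ => h _).ls.prod (Rep.wt (fun i => χ (.inr i)) fun _ => h _).ls) :=
  ⟨Homeomorph.sumPiEquivProdPi ι κ fun _ => ℂ, fun _ _ => rfl⟩

theorem Cx.iso {V W : LS Γ} (A : V.Iso W) (h : Cx W) : Cx V :=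
  let ⟨n, χ, hχ, ⟨B⟩⟩ := h; ⟨n, χ, hχ, ⟨A.trans B⟩⟩

theorem cx_wt {ι : Type} [Fintype ι] (χ : ι → Γ →* Circle) (h : ∀ i, Continuous (χ i)) :
    Cx (Rep.wt χ h).ls := ⟨_, _, _, ⟨wtRe (Fintype.equivFin ι).symm χ h⟩⟩

theorem Cx.prod {V W : LS Γ} (h : Cx V) (h' : Cx W) : Cx (V.prod W) := by
  obtain ⟨n, χ, hχ, ⟨A⟩⟩ := h
  obtain ⟨m, ψ, hψ, ⟨B⟩⟩ := h'
  exact (cx_wt (Sum.elim χ ψ) (by rintro (i | i); exacts [hχ i, hψ i])).iso
    ((A.prod B).trans (wtSum (Sum.elim χ ψ) _).symm)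

theorem Cx.res {W : LS Γ} (h : Cx W) (φ : Γ' →* Γ) (hφ : Continuous φ) : Cx (W.res φ hφ) :=
  let ⟨n, χ, hχ, ⟨A⟩⟩ := h
  ⟨n, fun i => (χ i).comp φ, fun i => (hχ i).comp hφ, ⟨A.res φ hφ⟩⟩


/-- trivial actions on even-dimensional spaces -/
def trivIso {W : LS Γ} (h : ∀ g w, W.act g w = w) {m : ℕ} (e : W.Z ≃ₜ (Fin m → ℂ)) :
    W.Iso (Rep.wt (fun _ : Fin m => (1 : Γ →* Circle)) fun _ => continuous_const).ls :=
  ⟨e, fun g w => by
    rw [h]; funext i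
    exact (one_mul (e w i)).symm⟩

theorem cx_triv {W : LS Γ} (h : ∀ g w, W.act g w = w) {m : ℕ} (e : W.Z ≃ₜ (Fin m → ℂ)) : Cx W :=
  ⟨m, _, _, ⟨trivIso h e⟩⟩

/-- even-dimensional real spaces -/
theorem homeo_even (E : Type) [NormedAddCommGroup E] [NormedSpace ℝ E] [FiniteDimensional ℝ E]
    (m : ℕ) (h : Module.finrank ℝ E = 2 * m) : Nonempty (E ≃ₜ (Fin m → ℂ)) :=
  ⟨(ContinuousLinearEquiv.ofFinrankEq (𝕜 := ℝ) (by
    rw [h, Module.finrank_pi_fintype]; simp [mul_comm])).toHomeomorph⟩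

theorem cx_even (E : Type) [NormedAddCommGroup E] [NormedSpace ℝ E] [FiniteDimensional ℝ E]
    (m : ℕ) (h : Module.finrank ℝ E = 2 * m) : Cx (Rep.triv Γ E).ls :=
  let ⟨e⟩ := homeo_even E m h; cx_triv (fun _ _ => rfl) e

theorem Cx.xr2 {W : LS Γ} (h : Cx W) : Cx W.xr.xr :=
  (h.prod (cx_even (ℝ × ℝ) 1 (by simp))).iso (LS.Iso.assoc _ _ _)

/-- exchange of the last two factors -/
def rcomm (A B C : LS Γ) : ((A.prod B).prod C).Iso ((A.prod C).prod B) :=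
  (LS.Iso.assoc _ _ _).trans (((LS.Iso.refl _).prod (.comm _ _)).trans (LS.Iso.assoc _ _ _).symm)

/-- `X × ℝ ≅ ℝ^(m+1) × V` -/
def admIso {m : ℕ} {X V : Rep Γ} (A : X.Iso ((Rep.triv Γ (Fin m → ℝ)).prod V)) :
    X.ls.xr.Iso ((Rep.triv Γ ((Fin m → ℝ) × ℝ)).ls.prod V.ls) :=
  (A.ls.prod (.refl _)).trans (rcomm (Rep.triv Γ (Fin m → ℝ)).ls V.ls (LS.triv Γ ℝ))

/-- `X × ℝ × ℝ ≅ ℝ^(m+2) × V` -/
def admIso2 {m : ℕ} {X V : Rep Γ} (A : X.Iso ((Rep.triv Γ (Fin m → ℝ)).prod V)) :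
    X.ls.xr.xr.Iso ((Rep.triv Γ (((Fin m → ℝ) × ℝ) × ℝ)).ls.prod V.ls) :=
  ((admIso A).prod (.refl _)).trans (rcomm (Rep.triv Γ ((Fin m → ℝ) × ℝ)).ls V.ls (LS.triv Γ ℝ))

theorem Adm.cx_odd {m : ℕ} {X V : Rep Γ} (h : Adm (2 * m + 1) X V) (hV : Cx V.ls) : Cx X.ls.xr :=
  let ⟨A⟩ := h; ((cx_even _ (m + 1) (by simp; ring)).prod hV).iso (admIso A)

theorem Adm.cx_even {m : ℕ} {X V : Rep Γ} (h : Adm (2 * m) X V) (hV : Cx V.ls) : Cx X.ls :=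
  let ⟨A⟩ := h; ((K.cx_even _ m (by simp)).prod hV).iso A.ls

theorem cx_tt (χ : Γ →* Circle) (hχ : Continuous χ) (r : ℕ) {V : Rep Γ} (hV : Cx V.ls) :
    Cx (V.prod (UU χ hχ r)).ls := hV.prod (cx_wt _ _)

/-- all characters have sections -/
def Gd (Y : GS Γ) : Prop := ∀ χ : Γ →* Circle, Continuous χ → Nonempty (Sec Y χ)

theorem Gd.map {Y Y' : GS Γ} (h : Gd Y) (g : C(Y'.Z, Y.Z))
    (hg : ∀ γ y, g (Y'.act γ y) = Y.act γ (g y)) : Gd Y' :=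
  fun χ hχ => EqC.sec (f := g) (fun γ y => ⟨γ, hg γ y, rfl⟩) (h χ hχ)

theorem Gd.prod {Y : GS Γ} (h : Gd Y) (Y' : GS Γ) : Gd (Y.prod Y') := h.map .fst fun _ _ => rfl

variable [CompactSpace Γ] [CompactSpace Γ']

/-! ### universal classes -/

/-- **universal Thom classes** -/
def UT (Y : GS Γ) (W : LS Γ) (l : KS Y W) : Prop :=
  (Sb Y W).Rd l ∧ ∀ (Γ' : Type) [Group Γ'] [TopologicalSpace Γ'] [CompactSpace Γ'] (φ : Γ' →* Γ)
    (hφ : Continuous φ) (Y' : GS Γ') (g : C(Y'.Z, Y.Z)), Eqv φ g →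
    ∀ F : C((Sb Y' (W.res φ hφ)).E, (Sb Y W).E), Mp g id F → (Sb Y' (W.res φ hφ)).Th (pull F l)

namespace UT
variable {Y : GS Γ} {V W U : LS Γ} {l : KS Y W}

theorem base (h : UT Y W l) {Y' : GS Γ} (g : C(Y'.Z, Y.Z))
    (hg : ∀ γ y, g (Y'.act γ y) = Y.act γ (g y)) {F : C((Sb Y' W).E, (Sb Y W).E)}
    (hF : Mp g id F) : (Sb Y' W).Th (pull F l) :=
  h.2 Γ (.id Γ) continuous_id Y' g hg F hF

theorem th (h : UT Y W l) : (Sb Y W).Th l := by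
  have := h.base (.id _) (fun _ _ => rfl) (F := .id _) fun _ _ => rfl
  rwa [pull_id] at this

theorem thq (h : UT Y W l) (U : LS Γ) : (smd Y W U).P.Th (pull (smd Y W U).q l) :=
  h.base (Y' := Y.prod U.sph) .fst (fun _ _ => rfl) fun _ _ => rfl

/-- base change and restriction of the group -/
theorem pull (h : UT Y W l) {φ : Γ' →* Γ} (hφ : Continuous φ) {Y' : GS Γ'} {g : C(Y'.Z, Y.Z)}
    (hg : Eqv φ g) {F : C((Sb Y' (W.res φ hφ)).E, (Sb Y W).E)} (hF : Mp g id F) :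
    UT Y' (W.res φ hφ) (pull F l) :=
  ⟨(h.2 Γ' φ hφ Y' g hg F hF).1, fun Γ₂ _ _ _ φ' hφ' Y₂ g' hg' F' hF' => by
    rw [← pull_comp]
    exact h.2 Γ₂ (φ.comp φ') (hφ.comp hφ') Y₂ (g.comp g')
      (fun γ y => (congrArg g (hg' γ y)).trans (hg _ _)) (F.comp F')
      fun y w => (congrArg F (hF' y w)).trans (hF _ _)⟩

theorem sm_unit (h : UT Y W l) {u : KX Y.Q} (hu : IsUnit u) : UT Y W ((Sb Y W).sm u l) :=
  ⟨h.1.sm u, fun Γ₂ _ _ _ φ hφ Y' g hg F hF => by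
    rw [show K.pull F _ = _ from (hF.hm rfl (bse F) hF.bse).pull_sm u l]
    exact (h.2 Γ₂ φ hφ Y' g hg F hF).sm_unit (hu.map _)⟩

theorem of_th (h : UT Y W l) {l' : KS Y W} (h' : (Sb Y W).Th l') : UT Y W l' := by
  obtain ⟨u, v, e, rfl, -⟩ := h.th.unit h'
  exact h.sm_unit (.of_mul_eq_one _ e)

theorem iso (h : UT Y W l) (A : V.Iso W) {F : C((Sb Y V).E, (Sb Y W).E)}
    (hF : Mp id (OnePoint.map A.e) F) : UT Y V (K.pull F l) :=
  ⟨h.1.hm (hF.hm rfl (.id _) fun _ => rfl), fun Γ₂ _ _ _ φ hφ Y' g hg F' hF' => by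
    rw [pull_sq F' F ((A.res φ hφ).h1 Y').f (hg.eqm hφ W).hm.f fun e => by
      obtain ⟨y, w, rfl⟩ := pt_surj e
      exact (congrArg F (hF' y w)).trans (hF _ _)]
    exact th_iso (A.res φ hφ) (fun _ _ => rfl) (h.2 Γ₂ φ hφ Y' g hg _ (hg.mp hφ W))⟩

theorem xm (h : UT Y W l) {m : KS Y U} (h' : UT Y U m) : UT Y (W.prod U) (xm l m) :=
  ⟨rd_xm l m, fun Γ₂ _ _ _ φ hφ Y' g hg F hF => by
    have e := (hg.eqm hφ W).xm_nat (hg.eqm hφ U) F (fun y w u => hF y _) h.1 h'.1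
    have k := h.pull hφ hg (hg.mp hφ W)
    have t := (smd Y' (W.res φ hφ) (U.res φ hφ)).th k.th (k.thq _)
      (h'.2 Γ₂ φ hφ Y' g hg _ (hg.mp hφ U))
    exact (congrArg (Sb Y' ((W.res φ hφ).prod (U.res φ hφ))).Th e).mpr t⟩

/-- **relative Thom isomorphism**, class on the left -/
theorem rel_l (h : UT Y W l) {x : KS Y (W.prod U)} (hx : (Sb Y _).Rd x) :
    ∃ y, (Sb Y U).Rd y ∧ x = K.xm l y := (smd Y W U).rel h.th (h.thq U) hx

theorem inj_l (h : UT Y W l) {y y' : KS Y U} (hy : (Sb Y U).Rd y) (hy' : (Sb Y U).Rd y')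
    (e : K.xm l y = K.xm l y') : y = y' := (smd Y W U).mul_inj h.1 (h.thq U) hy hy' e

theorem th_l (h : UT Y W l) {y : KS Y U} (hy : (Sb Y U).Th y) : (Sb Y _).Th (K.xm l y) :=
  (smd Y W U).th h.th (h.thq U) hy

theorem cancel_l (h : UT Y W l) {y : KS Y U} (hy : (Sb Y U).Rd y) (k : (Sb Y _).Th (K.xm l y)) :
    (Sb Y U).Th y := (smd Y W U).th_cancel h.th (h.thq U) hy k

/-- **relative Thom isomorphism**, class on the right -/
theorem rel_r (h : UT Y W l) {x : KS Y (U.prod W)} (hx : (Sb Y _).Rd x) :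
    ∃ y, (Sb Y U).Rd y ∧ x = K.xm y l := by
  obtain ⟨y, hy, e⟩ := h.rel_l (hx.hm ((LS.Iso.comm W U).h1 Y))
  refine ⟨y, hy, ?_⟩
  rw [← xm_swap h.1 hy, ← e]
  exact (pull_pull_id _ _ (LS.Iso.comm U W).h1_symm x).symm

theorem inj_r (h : UT Y W l) {y y' : KS Y U} (hy : (Sb Y U).Rd y) (hy' : (Sb Y U).Rd y')
    (e : K.xm y l = K.xm y' l) : y = y' :=
  h.inj_l hy hy' (by rw [← xm_swap hy h.1, e, xm_swap hy' h.1])

theorem th_r (h : UT Y W l) {y : KS Y U} (hy : (Sb Y U).Th y) : (Sb Y _).Th (K.xm y l) := by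
  rw [← xm_swap h.1 hy.1]
  exact th_iso (LS.Iso.comm U W) (fun _ _ => rfl) (h.th_l hy)

theorem cancel_r (h : UT Y W l) {y : KS Y U} (hy : (Sb Y U).Rd y) (k : (Sb Y _).Th (K.xm y l)) :
    (Sb Y U).Th y := by
  refine h.cancel_l hy ?_
  rw [← xm_swap hy h.1]
  exact th_iso (LS.Iso.comm W U) (fun _ _ => rfl) k

end UT

section std
variable {Y : GS Γ} {W : LS Γ}

theorem ut_lam1 (T : THOM1) {χ : Γ →* Circle} (hχ : Continuous χ) (h : Nonempty (Sec Y χ)) :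
    UT Y (ch χ hχ) (lam1 Y χ hχ) :=
  ⟨rd_lam1 hχ, fun Γ₂ _ _ _ φ hφ Y' g hg F hF => by
    have c : EqC g (χ.comp φ) χ := fun γ y => ⟨φ γ, hg γ y, rfl⟩
    have k : Continuous (χ.comp φ) := hχ.comp hφ
    have e := pull_lam1 hχ k h c F hF
    exact (congrArg (Sb Y' (ch (χ.comp φ) k)).Th e).mpr (T Γ₂ Y' (χ.comp φ) k (c.sec h))⟩

/-- the section given by a fixed point -/
def zs (Y : GS Γ) (w : W.Z) (h : ∀ g, W.act g w = w) : C(Y.Q, (Sb Y W).E) :=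
  GS.qmap Y (Y.prod W.sph) ⟨fun y => (y, (w : OnePoint W.Z)), by fun_prop⟩ fun g _ =>
    ⟨g, Prod.ext rfl (congrArg OnePoint.some (h g))⟩

theorem zs_cov [Subsingleton W.Z] (w : W.Z) (e : (Sb Y W).E) :
    e ∈ range (Sb Y W).s ∨ e ∈ range (zs Y w fun _ => Subsingleton.elim _ _) := by
  induction e using sb_ind with
  | h0 y => exact .inl ⟨Y.pr y, rfl⟩
  | h1 y v => exact .inr ⟨Y.pr y, congrArg (fun v : W.Z => pt Y W y v) (Subsingleton.elim _ _)⟩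

theorem p_zs (w : W.Z) (h : ∀ g, W.act g w = w) (x : Y.Q) : (Sb Y W).p (zs Y w h x) = x := by
  obtain ⟨y, rfl⟩ := Y.pr_surj x; rfl

theorem ut_pt [Subsingleton W.Z] (w : W.Z) : ∃ l, UT Y W l ∧ ps _ l = (Sb Y W).sm 1 l := by
  let z := zs Y w fun _ => Subsingleton.elim _ _
  obtain ⟨c, c0, c1⟩ := exists_glue (Sb Y W).s z (zs_cov w) 0 1 (fun _ _ _ => rfl)
    (fun _ _ _ => rfl) fun u u' e => by
      obtain ⟨y, rfl⟩ := Y.pr_surj u
      obtain ⟨y', rfl⟩ := Y.pr_surj u'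
      obtain ⟨g, -, e⟩ := pt_eq.1 (show pt Y W y ∞ = pt Y W y' w from e)
      exact absurd e (infty_ne_coe _)
  have i : (Matrix.of fun _ _ : Unit => c) * (Matrix.of fun _ _ : Unit => c) =
      Matrix.of fun _ _ : Unit => c := by
    ext _ _ e
    rcases zs_cov w e with ⟨u, rfl⟩ | ⟨u, rfl⟩
    · simp [mul_ap, c0]
    · simp [mul_ap, show c (zs Y w _ u) = 1 from c1 u]
  have h0 : (Sb Y W).Rd (kc (Matrix.of fun _ _ : Unit => c)) := by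
    unfold Ex.Rd
    rw [pull_kc _ i, show (Matrix.of fun _ _ => _) = (0 : Matrix Unit Unit C(Y.Q, ℂ)) from ?_]
    swap; · exact Matrix.ext fun _ _ => ContinuousMap.ext c0
    exact R204.K357.K0.cls_zero
  have h1 : pull z (kc (Matrix.of fun _ _ : Unit => c)) = 1 := by
    rw [pull_kc _ i, show (Matrix.of fun _ _ => _) = (1 : Matrix Unit Unit C(Y.Q, ℂ)) from ?_, kc_one]
    exact Matrix.ext fun _ _ => ContinuousMap.ext c1
  refine ⟨_, ⟨h0, fun Γ₂ _ _ _ φ hφ Y' g hg F hF => ?_⟩,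
    (Ex.th_pt z (p_zs w _) (zs_cov w) h0 h1).2⟩
  have : Subsingleton (W.res φ hφ).Z := inferInstanceAs (Subsingleton W.Z)
  refine (Ex.th_pt _ (p_zs (W := W.res φ hφ) w _) (zs_cov (W := W.res φ hφ) w)
    (h0.hm (hF.hm rfl (bse F) hF.bse)) ?_).1
  refine (pull_sq _ F (bse F) z (fun x => ?_) _).trans (by rw [h1, map_one])
  obtain ⟨y, rfl⟩ := Y'.pr_surj x
  rw [hF.bse]; exact hF y _

theorem ut_fin (T : THOM1) {n : ℕ} (χ : Fin n → Γ →* Circle) (hχ : ∀ i, Continuous (χ i))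
    (h : ∀ i, Nonempty (Sec Y (χ i))) : ∃ l, UT Y (Rep.wt χ hχ).ls l ∧
      ps _ l = (Sb Y _).sm (∏ i, rho3 (Lc Y (χ i))) l := by
  induction n with
  | zero =>
    have : Subsingleton (Rep.wt χ hχ).ls.Z := inferInstanceAs (Subsingleton (Fin 0 → ℂ))
    rw [Finset.univ_eq_empty, Finset.prod_empty]
    exact ut_pt (W := (Rep.wt χ hχ).ls) (0 : Fin 0 → ℂ)
  | succ n ih =>
    obtain ⟨l, a, b⟩ := ih (fun i => χ i.succ) (fun _ => hχ _) fun _ => h _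
    refine ⟨_, ((ut_lam1 T (hχ 0) (h 0)).xm a).iso (wtCons χ hχ) ((wtCons χ hχ).mp Y), ?_⟩
    rw [Fin.prod_univ_succ]
    exact eig_iso _ ((wtCons χ hχ).mp Y) (eig_xm (ps_lam1 (hχ 0)) b)

/-- **the standard class** of a space isomorphic to a sum of characters -/
theorem ut_wt (T : THOM1) {ι : Type} [Fintype ι] {χ : ι → Γ →* Circle} {hχ : ∀ i, Continuous (χ i)}
    (h : ∀ i, Nonempty (Sec Y (χ i))) (A : W.Iso (Rep.wt χ hχ).ls) : ∃ l, UT Y W l ∧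
      ps _ l = (Sb Y _).sm (∏ i, rho3 (Lc Y (χ i))) l := by
  let e := (Fintype.equivFin ι).symm
  obtain ⟨l, a, b⟩ := ut_fin T (fun k => χ (e k)) (fun _ => hχ _) fun _ => h _
  refine ⟨_, a.iso (A.trans (wtRe e χ hχ)) (LS.Iso.mp _ Y), ?_⟩
  rw [← e.prod_comp]
  exact eig_iso _ (LS.Iso.mp _ Y) b

theorem Cx.ut (T : THOM1) (hY : Gd Y) (h : Cx W) : ∃ l, UT Y W l :=
  let ⟨n, χ, hχ, ⟨A⟩⟩ := h; (ut_wt T (fun i => hY _ (hχ i)) A).imp fun _ h => h.1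

/-- **every Thom class is universal** -/
theorem ut_of_th (T : THOM1) (hY : Gd Y) (h : Cx W) {l : KS Y W} (hl : (Sb Y W).Th l) : UT Y W l :=
  let ⟨_, a⟩ := h.ut T hY; a.of_th hl

/-- trivial even-dimensional spaces need no hypothesis on `Y` -/
theorem ut_even (T : THOM1) (Y : GS Γ) (E : Type) [NormedAddCommGroup E] [NormedSpace ℝ E]
    [FiniteDimensional ℝ E] (m : ℕ) (h : Module.finrank ℝ E = 2 * m) :
    ∃ l, UT Y (Rep.triv Γ E).ls l ∧ ps _ l = (Sb Y _).sm (3 ^ m) l := by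
  obtain ⟨e⟩ := homeo_even E m h
  obtain ⟨l, a, b⟩ := ut_wt T (fun _ => ⟨Sec.one Y⟩)
    (trivIso (W := (Rep.triv Γ E).ls) (fun _ _ => rfl) e)
  refine ⟨l, a, ?_⟩
  rw [b, Lc_one, Finset.prod_const, Finset.card_univ, Fintype.card_fin]
  norm_num [rho3]


end std

end Crest.Agent.N218.K

end
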