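import Crest.Agent.N218.Th.Mv_Mg
import Crest.Agent.N218.K.Cp2
import Crest.Agent.N218.K.Sus
import Crest.Agent.N218.K.Prod
import Crest.Agent.R204.Per_369

/-!
# Row 218, block D0 (helper36): `K1Triv` versus `K (W × S¹)`
-/

set_option autoImplicit false
set_option linter.unusedVariables false

open Crest.Agent.R204 Crest.Agent.R204.Ex837 Crest.Agent.R204.LineT357 unitInterval Matrix
open K357 (K0)
open Crest.Agent.N218.Th

noncomputable section

namespace Crest.Agent.N218.K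

section alg
variable {A : Type} [NormedCommRing A] [NormedAlgebra ℂ A] [CompleteSpace A]

theorem dL_of_path {n : Type} [Fintype n] [DecidableEq n] (g h : (Matrix n n A)ˣ)
    (c : I → Matrix n n A) (hc : Continuous c) (hu : ∀ t, IsUnit (c t)) (e0 : c 0 = g.val)
    (e1 : c 1 = h.val) : dL g = dL h := by
  have k : Continuous fun t => (hu t).unit :=
    (isOpenEmbedding_val_matrix n A).isInducing.continuous_iff.2 hc
  exact dL_joined g h c (fun t => ((hu t).unit⁻¹ : (Matrix n n A)ˣ)) hc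
    (Units.continuous_val.comp k.inv) (fun t => (hu t).mul_val_inv) (fun t => (hu t).val_inv_mul)
    e0 e1

omit [CompleteSpace A] in
theorem k1Triv_of_LA (h : ∀ y : KC (LA A), e0 A y = 0 → y = 0) : K1Triv A := by
  intro n g g' h1 h2
  obtain ⟨M, c, hc, hu, c0, c1⟩ := joined_of_dL 1 ⟨g, g', h1, h2⟩
    (dL_one.trans (h _ (e0_dL _)).symm)
  obtain ⟨e'⟩ : Nonempty (Fin (M + (n + M)) ≃ Fin M ⊕ (Fin n ⊕ Fin M)) :=
    ⟨finSumFinEquiv.symm.trans ((Equiv.refl _).sumCongr finSumFinEquiv.symm)⟩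
  let e : Fin n ⊕ Fin (M + (n + M)) ≃ (Fin n ⊕ Fin M) ⊕ (Fin n ⊕ Fin M) :=
    ((Equiv.refl _).sumCongr e').trans (Equiv.sumAssoc _ _ _).symm
  refine ⟨M + (n + M), fun t => (c t).submatrix e e, hc.matrix_submatrix _ _, fun t => ?_, ?_, ?_⟩
  · exact (hu t).map (Matrix.reindexAlgEquiv ℂ A e.symm)
  · simp [c0]
  · have k : fromBlocks (fromBlocks g 0 0 (1 : Matrix (Fin M) (Fin M) A)) 0 0
        (1 : Matrix (Fin n ⊕ Fin M) (Fin n ⊕ Fin M) A) = (fromBlocks g 0 0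
          (1 : Matrix (Fin M ⊕ (Fin n ⊕ Fin M)) (Fin M ⊕ (Fin n ⊕ Fin M)) A)).submatrix
          (Equiv.sumAssoc _ _ _) (Equiv.sumAssoc _ _ _) := by
      ext ((i | i) | i) ((j | j) | j) <;> simp [Matrix.one_apply]
    simp only [c1, k, submatrix_submatrix]
    ext (i | i) (j | j) <;> simp [e, Matrix.one_apply]

end alg

/-- `K⁻¹ W = 0` -/
def K1Z (W : Type) [TopologicalSpace W] : Prop :=
  ∀ x : KX (W × T1), ∃ a, x = pull ContinuousMap.fst a

/-- the base section -/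
def iT (W : Type) [TopologicalSpace W] : C(W, W × T1) := ⟨fun w => (w, qT 0), by fun_prop⟩

theorem e0_lpT {W : Type} [TopologicalSpace W] [CompactSpace W] (z : KX (W × T1)) :
    e0 _ (KA (lpT W) z) = pull (iT W) z :=
  K.ka_ka (A := C(W × T1, ℂ)) (B := LA C(W, ℂ)) (LA.ev 0) (lpT W) (ca (iT W)) (fun _ => rfl) z

theorem K1Z.k1Triv {W : Type} [TopologicalSpace W] [CompactSpace W] [T2Space W] (h : K1Z W) :
    K1Triv C(W, ℂ) := k1Triv_of_LA fun y hy => by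
  obtain ⟨x, rfl⟩ := (ka_bij _ (lpT_bij W)).2 y
  obtain ⟨a, rfl⟩ := h x
  rw [e0_lpT, pull_pull_id (iT W) ContinuousMap.fst (fun _ => rfl)] at hy
  rw [hy, map_zero, map_zero]

theorem k1Z_unit : K1Z Unit := fun x => by
  let i := iT Unit
  refine ⟨pull i x, sub_eq_zero.1 ((injective_iff_map_eq_zero _).1 (ka_bij _ (lpT_bij Unit)).1 _ ?_)⟩
  obtain ⟨n, g, hg⟩ := exists_dL (y := KA (lpT Unit) (x - pull ContinuousMap.fst (pull i x)))
    (by rw [e0_lpT, map_sub, pull_pull_id i ContinuousMap.fst (fun _ => rfl), sub_self])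
  let ε : C(Unit, ℂ) →+* ℂ := (ContinuousMap.evalAlgHom ℂ ℂ ()).toRingHom
  let ι : ℂ →+* C(Unit, ℂ) := algebraMap _ _
  obtain ⟨γ, cγ, uγ, γ0, γ1⟩ := BottK369.glc_path (g.val.map ε) (g.isUnit.map ε.mapMatrix)
  rw [← hg, ← dL_one (n := Fin n)]
  refine (dL_of_path 1 g (fun t => (γ t).map ι) (cγ.matrix_map (continuous_algebraMap _ _))
    (fun t => (uγ t).map ι.mapMatrix) (by rw [γ0, mapOne]; rfl) ?_).symm
  rw [γ1]; rfl


theorem pull_bij {A B : Type} [TopologicalSpace A] [CompactSpace A] [TopologicalSpace B]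
    [T2Space B] (f : C(A, B)) (h : Function.Bijective f) : Function.Bijective (pull f) := by
  let e := Continuous.homeoOfEquivCompactToT2 (f := Equiv.ofBijective f h) f.continuous
  exact Function.bijective_iff_has_inverse.2 ⟨pull ⟨e.symm, e.symm.continuous⟩,
    pull_pull_id _ f e.apply_symm_apply, pull_pull_id f _ e.symm_apply_apply⟩

variable {Γ : Type} [Group Γ] [TopologicalSpace Γ] [CompactSpace Γ]

/-- `(Y × T) / Γ = Y / Γ × T` -/
def qT1 (Y : GS Γ) : C((Y.prod (GS.triv Γ T1)).Q, Y.Q × T1) :=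
  GS.lift _ ⟨fun z => (Y.pr z.1, z.2), (Y.pr.continuous.comp continuous_fst).prodMk continuous_snd⟩
    fun g z => Prod.ext (Y.pr_act g z.1) rfl

omit [CompactSpace Γ] in
theorem qT1_bij (Y : GS Γ) : Function.Bijective (qT1 Y) := by
  refine ⟨fun a b h => ?_, fun ⟨a, t⟩ => ?_⟩
  · obtain ⟨a, rfl⟩ := GS.pr_surj _ a
    obtain ⟨b, rfl⟩ := GS.pr_surj _ b
    obtain ⟨g, e⟩ := Y.pr_eq.1 (congrArg Prod.fst h)
    have h2 := congrArg Prod.snd h
    exact (GS.pr_eq _).2 ⟨g, Prod.ext e h2⟩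
  · obtain ⟨a, rfl⟩ := Y.pr_surj a
    exact ⟨GS.pr _ (a, t), rfl⟩

open Cp Polynomial in
/-- **`K⁻¹` of projective bundles** -/
theorem k1Z_cp (T : THOM1) {Y : GS Γ} {χ : Γ →* Circle} (hχ : Continuous χ) (r : ℕ)
    (H : StS Y χ) (h : K1Z Y.Q) : K1Z (YS Y χ hχ r).Q := fun x => by
  let Y' := Y.prod (GS.triv Γ T1)
  have H' : StS Y' χ := fun y z => (H y.1 z).imp fun g e => ⟨Prod.ext e.1 rfl, e.2⟩
  let a : C((YS Y' χ hχ r).Z, (YS Y χ hχ r).Z) := ⟨fun z => (z.1.1, z.2),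
    continuous_fst.fst.prodMk continuous_snd⟩
  let f : C((YS Y' χ hχ r).Q, (YS Y χ hχ r).Q × T1) :=
    GS.lift _ ⟨fun z => (GS.pr _ (a z), z.1.2),
      ((GS.pr _).continuous.comp a.continuous).prodMk continuous_fst.snd⟩
      fun g z => Prod.ext (GS.pr_act _ g (a z)) rfl
  have hf : Function.Injective f := fun a b h => by
    obtain ⟨a, rfl⟩ := GS.pr_surj _ a
    obtain ⟨b, rfl⟩ := GS.pr_surj _ b
    obtain ⟨g, e⟩ := (GS.pr_eq _).1 (congrArg Prod.fst h)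
    have h1 := congrArg Prod.fst e
    have h2 := congrArg Prod.snd h
    have h3 := congrArg Prod.snd e
    exact (GS.pr_eq _).2 ⟨g, Prod.ext (Prod.ext h1 h2) h3⟩
  have hs : Function.Surjective f := fun ⟨a, t⟩ => by
    obtain ⟨a, rfl⟩ := GS.pr_surj _ a
    exact ⟨GS.pr _ ((a.1, t), a.2), rfl⟩
  let F := ContinuousMap.fst.comp f
  have key : ∀ p, ∃ b, eval₂ (pull (piB Y' χ hχ r)) (Lc (YS Y' χ hχ r) χ) p = pull F b := by
    intro p
    induction p using Polynomial.induction_on' with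
    | add p q hp hq =>
      obtain ⟨b, hb⟩ := hp
      obtain ⟨c, hc⟩ := hq
      exact ⟨b + c, by rw [eval₂_add, hb, hc, map_add]⟩
    | monomial n c =>
      obtain ⟨c, rfl⟩ := (pull_bij _ (qT1_bij Y)).2 c
      obtain ⟨c, rfl⟩ := h c
      refine ⟨pull (piB Y χ hχ r) c * Lc _ χ ^ n, ?_⟩
      rw [eval₂_monomial, map_mul, map_pow,
        pull_Lc ⟨spS Y χ hχ r⟩ (f := a) (fun g y => ⟨g, rfl, rfl⟩) F fun _ => rfl,
        ← pull_comp, ← pull_comp, ← pull_comp]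
      congr 3
      ext z
      obtain ⟨z, rfl⟩ := GS.pr_surj _ z
      rfl
  obtain ⟨p, hp⟩ := (cp hχ r T H').1 (pull f x)
  obtain ⟨b, hb⟩ := key p
  exact ⟨b, (pull_bij f ⟨hf, hs⟩).1 (by rw [← hp, hb, ← pull_comp])⟩

theorem K1Z.of_bij {A B : Type} [TopologicalSpace A] [CompactSpace A] [TopologicalSpace B]
    [T2Space B] (f : C(A, B)) (hf : Function.Bijective f) (h : K1Z A) : K1Z B := fun x => by
  let F : C(A × T1, B × T1) := f.prodMap (.id _)
  obtain ⟨a, ha⟩ := h (pull F x)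
  obtain ⟨b, rfl⟩ := (pull_bij f hf).2 a
  exact ⟨b, (pull_bij F (hf.prodMap Function.bijective_id)).1
    (ha.trans (pull_sq ContinuousMap.fst f F ContinuousMap.fst (fun _ => rfl) b))⟩

theorem k1Z_pt : K1Z (GS.triv Γ Unit).Q :=
  k1Z_unit.of_bij (GS.pr _) ⟨fun _ _ _ => rfl, GS.pr_surj _⟩

open Cp in
/-- **`K⁻¹ (ℂP) = 0`** -/
theorem k1Z_sp (T : THOM1) {χ : Γ →* Circle} (hχ : Continuous χ) (r : ℕ)
    (H : Function.Surjective χ) : K1Z (Sp χ hχ r).Q := by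
  refine (k1Z_cp T (Y := GS.triv Γ Unit) hχ r (fun y z => (H z).imp fun g e => ⟨rfl, e⟩)
    k1Z_pt).of_bij (GS.qmap _ _ ContinuousMap.snd fun g _ => ⟨g, rfl⟩) ⟨fun a b h => ?_, fun a => ?_⟩
  · obtain ⟨a, rfl⟩ := GS.pr_surj _ a
    obtain ⟨b, rfl⟩ := GS.pr_surj _ b
    obtain ⟨g, e⟩ := (GS.pr_eq _).1 h
    exact (GS.pr_eq _).2 ⟨g, Prod.ext rfl e⟩
  · obtain ⟨a, rfl⟩ := GS.pr_surj _ a
    exact ⟨GS.pr _ ((), a), rfl⟩

/-- **reduced classes on the suspension vanish** -/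
theorem K1Z.rd {Y : GS Γ} (h : K1Z Y.Q) {x : KS Y (LS.triv Γ ℝ)} (hx : (Sb _ _).Rd x) : x = 0 := by
  obtain ⟨θ, hθ⟩ := exists_desc qT qT_surj ⟨thI, continuous_thI⟩ fun t t' e =>
    qT_fac thI ((thI_infty.2 (.inl rfl)).trans (thI_infty.2 (.inr rfl)).symm) e
  have ta : ∀ g (w : OnePoint ℝ), (LS.triv Γ ℝ).sph.act g w = w := fun g w => by
    induction w using OnePoint.rec <;> rfl
  let m : C((Y.prod (GS.triv Γ T1)).Q, (Sb Y (LS.triv Γ ℝ)).E) :=
    GS.qmap _ _ ((ContinuousMap.id _).prodMap θ) fun g z => ⟨g, Prod.ext rfl (ta g _)⟩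
  have hm : Function.Bijective m := by
    refine ⟨fun a b h => ?_, fun a => ?_⟩
    · obtain ⟨⟨a, t⟩, rfl⟩ := GS.pr_surj _ a
      obtain ⟨⟨b, t'⟩, rfl⟩ := GS.pr_surj _ b
      obtain ⟨t, rfl⟩ := qT_surj t
      obtain ⟨t', rfl⟩ := qT_surj t'
      obtain ⟨g, e1, e2⟩ := pt_eq.1 h
      have e3 : thI t = thI t' := (hθ t).symm.trans (((ta g _).symm.trans e2).trans (hθ t'))
      refine (GS.pr_eq _).2 ⟨g, Prod.ext e1 ?_⟩
      change qT t = qT t'
      induction e : thI t' using OnePoint.rec with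
      | infty =>
        rcases thI_infty.1 (e3.trans e) with rfl | rfl <;> rcases thI_infty.1 e with rfl | rfl <;>
          simp [qT_01]
      | coe v => rw [thI_inj (e3.trans e) e]
    · obtain ⟨y, w, rfl⟩ := pt_surj' _ _ a
      obtain ⟨t, rfl⟩ := thI_surj w
      exact ⟨GS.pr _ (y, qT t), congrArg (pt Y _ y) (hθ t)⟩
  obtain ⟨z, hz⟩ := (pull_bij _ (qT1_bij Y)).2 (pull m x)
  obtain ⟨a, rfl⟩ := h z
  let i : C(Y.Q, (Y.prod (GS.triv Γ T1)).Q) :=
    GS.qmap _ _ ⟨fun y => (y, qT 0), continuous_id.prodMk continuous_const⟩ fun g _ => ⟨g, rfl⟩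
  have e := congrArg (pull i) hz
  rw [← pull_comp, pull_pull_id ((qT1 Y).comp i) ContinuousMap.fst (fun y => by obtain ⟨y, rfl⟩ := Y.pr_surj y; rfl),
    pull_pull i m (Sb Y (LS.triv Γ ℝ)).s (fun y => by
      obtain ⟨y, rfl⟩ := Y.pr_surj y
      exact congrArg (pt Y _ y) ((hθ 0).trans (thI_infty.2 (.inl rfl)))), hx] at e
  refine (pull_bij m hm).1 ?_
  rw [← hz, e, map_zero, map_zero, map_zero]

end Crest.Agent.N218.K

end
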