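import Crest.Agent.N218.K.Pd
import Crest.Agent.N218.K.Ln
import Crest.Agent.N218.K.Sus
import Crest.Agent.N218.K.K1
import Crest.Agent.R204.KPt_472

-- ▼ part N218/K/Gys
section

/-!
# Row 218, block D0 (helper36): the Gysin boundary `K⁻¹(sphere bundle) → K(Thom space)`, as a relation
-/

set_option autoImplicit false
set_option linter.unusedVariables false

open Crest.Agent.R204 Crest.Agent.R204.Ex837 unitInterval Topology Matrix
open K357 (K0 psi)

noncomputable section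

namespace Crest.Agent.N218.K

/-- `E = L × S¹` and `P = ` double cone of `π : L → B`, both quotients of `Z` -/
structure Gy (B L E P Z : Type) [TopologicalSpace B] [TopologicalSpace L] [TopologicalSpace E]
    [TopologicalSpace P] [TopologicalSpace Z] where
  π : C(L, B)
  s : C(L, E)
  pE : C(E, L)
  z0 : C(B, P)
  z1 : C(B, P)
  pP : C(P, B)
  c : C(Z, E)
  j : C(Z, P)
  h : C(P, ℂ)
  πs : Function.Surjective π
  hs : ∀ l, pE (s l) = l
  p0 : ∀ b, pP (z0 b) = b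
  p1 : ∀ b, pP (z1 b) = b
  cq : IsQuotientMap c
  jq : IsQuotientMap j
  hp : ∀ z, pP (j z) = π (pE (c z))
  h0 : ∀ b, h (z0 b) = 0
  h1 : ∀ b, h (z1 b) = 1
  en : ∀ l, ∃ z z', c z = s l ∧ c z' = s l ∧ j z = z0 (π l) ∧ j z' = z1 (π l)
  F1 : ∀ f : P → ℂ, (∀ b, f (z0 b) = f (z1 b)) → ∀ z z', c z = c z' → f (j z) = f (j z')
  F2 : ∀ (a : E → ℂ) (b : B → ℂ), (∀ l, a (s l) = b (π l)) →
    ∀ z z', j z = j z' → a (c z) = a (c z')

namespace Gy
variable {B L E P Z : Type} [TopologicalSpace B] [TopologicalSpace L] [TopologicalSpace E]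
  [TopologicalSpace P] [TopologicalSpace Z] (G : Gy B L E P Z)

/-- pull-back of functions -/
abbrev cr {X Y : Type} [TopologicalSpace X] [TopologicalSpace Y] (f : C(X, Y)) :
    C(Y, ℂ) →ₐ[ℂ] C(X, ℂ) := ContinuousMap.compRightAlgHom ℂ ℂ f

/-- functions with the same values on both sections -/
def R : Subalgebra ℂ C(P, ℂ) := AlgHom.equalizer (cr G.z0) (cr G.z1)

theorem mem_R {f : C(P, ℂ)} : f ∈ G.R ↔ ∀ b, f (G.z0 b) = f (G.z1 b) :=
  ⟨fun h b => DFunLike.congr_fun (show cr G.z0 f = cr G.z1 f from h) b,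
    fun h => ContinuousMap.ext h⟩

/-- descent to `E` -/
def ph0 (f : G.R) : C(E, ℂ) :=
  G.cq.lift (f.1.comp G.j) fun z z' h => G.F1 f.1 (G.mem_R.1 f.2) z z' h

theorem ph0_c (f : G.R) (z : Z) : G.ph0 f (G.c z) = f.1 (G.j z) :=
  DFunLike.congr_fun (G.cq.lift_comp (f.1.comp G.j)
    fun z z' h => G.F1 f.1 (G.mem_R.1 f.2) z z' h) z

theorem extE {a b : C(E, ℂ)} (h : ∀ z, a (G.c z) = b (G.c z)) : a = b := by
  ext e
  obtain ⟨z, rfl⟩ := G.cq.surjective e
  exact h z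

/-- descent to `E` -/
def ph : G.R →ₐ[ℂ] C(E, ℂ) where
  toFun := G.ph0
  map_one' := G.extE fun z => by rw [ph0_c]; rfl
  map_mul' a b := G.extE fun z => by simp only [ph0_c, ContinuousMap.mul_apply]; rfl
  map_zero' := G.extE fun z => by rw [ph0_c]; rfl
  map_add' a b := G.extE fun z => by simp only [ph0_c, ContinuousMap.add_apply]; rfl
  commutes' a := G.extE fun z => by rw [ph0_c]; rfl

theorem ph_c (f : G.R) (z : Z) : G.ph f (G.c z) = f.1 (G.j z) := G.ph0_c f z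

/-- the inclusion -/
def vl : G.R →ₐ[ℂ] C(P, ℂ) := G.R.val

theorem pull_cr {X Y : Type} [TopologicalSpace X] [TopologicalSpace Y] (f : C(X, Y)) (x : KX Y) :
    pull f x = KA (cr f) x := rfl

/-- restriction to the sections -/
def zz : G.R →ₐ[ℂ] C(B, ℂ) := (cr G.z1).comp G.vl

/-- functions from the base -/
def uu : C(B, ℂ) →ₐ[ℂ] G.R :=
  (cr G.pP).codRestrict G.R fun a => G.mem_R.2 fun b => congrArg a ((G.p0 b).trans (G.p1 b).symm)

/-- the excision square -/
def sq2 : Sq G.R C(E, ℂ) C(B, ℂ) C(L, ℂ) where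
  p1 := (G.ph : G.R →+* C(E, ℂ))
  p2 := (G.zz : G.R →+* C(B, ℂ))
  al := (cr G.s : C(E, ℂ) →+* C(L, ℂ))
  be := (cr G.π : C(B, ℂ) →+* C(L, ℂ))
  comm f := ContinuousMap.ext fun l => by
    obtain ⟨-, z, -, a, -, b⟩ := G.en l
    change G.ph f (G.s l) = f.1 (G.z1 (G.π l))
    rw [← a, ph_c, b]
  lift a b h := by
    have h' : ∀ l, a (G.s l) = b (G.π l) := fun l => DFunLike.congr_fun h l
    let f : C(P, ℂ) := G.jq.lift (a.comp G.c) fun z z' e => G.F2 a b h' z z' e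
    have hf : ∀ z, f (G.j z) = a (G.c z) := fun z =>
      DFunLike.congr_fun (G.jq.lift_comp (a.comp G.c) fun z z' e => G.F2 a b h' z z' e) z
    have k : ∀ x, f (G.z0 x) = b x ∧ f (G.z1 x) = b x := fun x => by
      obtain ⟨l, rfl⟩ := G.πs x
      obtain ⟨z, z', a1, a2, a3, a4⟩ := G.en l
      exact ⟨by rw [← a3, hf, a1, h'], by rw [← a4, hf, a2, h']⟩
    refine ⟨⟨f, G.mem_R.2 fun x => (k x).1.trans (k x).2.symm⟩, G.extE fun z => ?_,
      ContinuousMap.ext fun x => (k x).2⟩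
    exact (G.ph_c _ z).trans (hf z)
  inj x y h _ := Subtype.ext (ContinuousMap.ext fun p => by
    obtain ⟨z, rfl⟩ := G.jq.surjective p
    rw [← ph_c, ← ph_c]
    exact DFunLike.congr_fun h _)

/-- the identification square -/
def sq1 : Sq G.R C(P, ℂ) C(B, ℂ) (C(B, ℂ) × C(B, ℂ)) where
  p1 := (G.vl : G.R →+* C(P, ℂ))
  p2 := (G.zz : G.R →+* C(B, ℂ))
  al := ((cr G.z0).prod (cr G.z1) : C(P, ℂ) →ₐ[ℂ] C(B, ℂ) × C(B, ℂ))
  be := (RingHom.id _).prod (RingHom.id _)
  comm f := Prod.ext f.2 rfl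
  lift a b h := ⟨⟨a, (congrArg Prod.fst h).trans (congrArg Prod.snd h).symm⟩, rfl,
    congrArg Prod.snd h⟩
  inj _ _ h _ := Subtype.ext h

theorem al_surj : Function.Surjective G.sq1.al := fun ⟨a, b⟩ =>
  ⟨(1 - G.h) * cr G.pP a + G.h * cr G.pP b,
    Prod.ext (ContinuousMap.ext fun x => by
      change (1 - G.h (G.z0 x)) * a (G.pP (G.z0 x)) + G.h (G.z0 x) * b (G.pP (G.z0 x)) = a x
      rw [G.h0, G.p0]; ring) (ContinuousMap.ext fun x => by
      change (1 - G.h (G.z1 x)) * a (G.pP (G.z1 x)) + G.h (G.z1 x) * b (G.pP (G.z1 x)) = b x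
      rw [G.h1, G.p1]; ring)⟩

theorem al_open [CompactSpace B] [CompactSpace P] : IsOpenMap G.sq1.al := by
  let T : C(P, ℂ) →L[ℂ] C(B, ℂ) × C(B, ℂ) :=
    { toLinearMap := ((cr G.z0).prod (cr G.z1)).toLinearMap
      cont := (ContinuousMap.continuous_precomp G.z0).prodMk
        (ContinuousMap.continuous_precomp G.z1) }
  exact T.isOpenMap G.al_surj

/-- pairing of matrices -/
def pr2 {A n : Type} (x y : Matrix n n A) : Matrix n n (A × A) := Matrix.of fun i j => (x i j, y i j)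

theorem pr2_mul {A n : Type} [Ring A] [Fintype n] (x y x' y' : Matrix n n A) :
    pr2 x y * pr2 x' y' = pr2 (x * x') (y * y') := by
  ext i j <;> simp [pr2, Matrix.mul_apply, Prod.fst_sum, Prod.snd_sum]

theorem pr2_one {A n : Type} [Ring A] [DecidableEq n] : pr2 (1 : Matrix n n A) 1 = 1 := by
  ext i j <;> by_cases h : i = j <;> simp [pr2, Matrix.one_apply, h]

theorem stLift [CompactSpace B] [CompactSpace P] (hK : K1Triv C(B, ℂ)) : StLift G.sq1.al := by
  intro n g g' h1 h2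
  let f := RingHom.fst C(B, ℂ) C(B, ℂ)
  let s := RingHom.snd C(B, ℂ) C(B, ℂ)
  have a1 : g.map f * g'.map f = 1 := by rw [← Matrix.map_mul, h1, mapOne]
  have a2 : g'.map f * g.map f = 1 := by rw [← Matrix.map_mul, h2, mapOne]
  have b1 : g.map s * g'.map s = 1 := by rw [← Matrix.map_mul, h1, mapOne]
  have b2 : g'.map s * g.map s = 1 := by rw [← Matrix.map_mul, h2, mapOne]
  have c1 : (g.map f * g'.map s) * (g.map s * g'.map f) = 1 := by
    rw [Matrix.mul_assoc, ← Matrix.mul_assoc (g'.map s), b2, Matrix.one_mul, a1]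
  have c2 : (g.map s * g'.map f) * (g.map f * g'.map s) = 1 := by
    rw [Matrix.mul_assoc, ← Matrix.mul_assoc (g'.map f), a2, Matrix.one_mul, b1]
  obtain ⟨l, H, hH, hu, h0, h3⟩ := hK n _ _ c1 c2
  obtain ⟨U, V, u1, u2, u3, -⟩ := lift_of_path G.al_open (fun t => pr2 (H t) 1)
    (continuous_pi fun i => continuous_pi fun j =>
      ((continuous_apply_apply i j).comp hH).prodMk continuous_const)
    (fun t => by
      obtain ⟨⟨u, v, uv, vu⟩, e⟩ := hu t
      have e' : u = H t := e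
      refine ⟨⟨pr2 (H t) 1, pr2 v 1, ?_, ?_⟩, rfl⟩
      · rw [← e', pr2_mul, Matrix.one_mul, uv, pr2_one]
      · rw [← e', pr2_mul, Matrix.one_mul, vu, pr2_one])
    (by rw [h0, pr2_one]) (u := pr2 (dsum (g.map f * g'.map s) 1) 1)
    (v := pr2 (dsum (g.map s * g'.map f) 1) 1)
    (by rw [pr2_mul, dsum_mul, c1, Matrix.one_mul, Matrix.one_mul, dsum_one, pr2_one])
    (by rw [pr2_mul, dsum_mul, c2, Matrix.one_mul, Matrix.one_mul, dsum_one, pr2_one])
    (by rw [h3])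
  let p : C(B, ℂ) →+* C(P, ℂ) := (cr G.pP : C(B, ℂ) →+* C(P, ℂ))
  have hp : ∀ x : Matrix (Fin n ⊕ Fin l) (Fin n ⊕ Fin l) C(B, ℂ),
      (x.map p).map G.sq1.al = pr2 x x := fun x => by
    ext i j b
    · exact congrArg (x i j) (G.p0 b)
    · exact congrArg (x i j) (G.p1 b)
  refine ⟨l, U * (dsum (g.map s) 1).map p, (dsum (g'.map s) 1).map p * V, ?_, ?_, ?_⟩
  · rw [Matrix.mul_assoc, ← Matrix.mul_assoc _ _ V, ← Matrix.map_mul, dsum_mul, b1,
      Matrix.one_mul, dsum_one, mapOne, Matrix.one_mul, u1]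
  · rw [Matrix.mul_assoc, ← Matrix.mul_assoc V, u2, Matrix.one_mul, ← Matrix.map_mul, dsum_mul, b2,
      Matrix.one_mul, dsum_one, mapOne]
  · rw [Matrix.map_mul, u3, hp, pr2_mul, dsum_mul, Matrix.mul_assoc, b2, Matrix.mul_one,
      Matrix.one_mul, Matrix.one_mul]
    ext (i | i) (j | j) <;> first | rfl | (by_cases h : i = j <;> simp [pr2, h])

/-- the Gysin relation -/
def Rl (x : KX E) (w : KX P) : Prop :=
  ∃ y : KC G.R, KA G.ph y = x ∧ KA G.zz y = 0 ∧ KA G.vl y = w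

variable {G} {x x' : KX E} {w w' : KX P}

theorem Rl.ex (G : Gy B L E P Z) (hx : pull G.s x = 0) : ∃ w, G.Rl x w := by
  obtain ⟨y, a, b⟩ := G.sq2.exists_rel
    (fun b => ⟨cr G.pE b, ContinuousMap.ext fun l => congrArg b (G.hs l)⟩) (x := x) hx
  exact ⟨_, y, a, b, rfl⟩

theorem Rl.z1 (h : G.Rl x w) : pull G.z1 w = 0 := by
  obtain ⟨y, a, b, rfl⟩ := h
  rw [pull_cr, ka_ka (cr G.z1) G.vl G.zz (fun f => rfl) y, b]

theorem Rl.z0 (h : G.Rl x w) : pull G.z0 w = 0 := by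
  obtain ⟨y, a, b, rfl⟩ := h
  rw [pull_cr, ka_ka (cr G.z0) G.vl G.zz (fun f => f.2) y, b]

theorem Rl.sub (h : G.Rl x w) (h' : G.Rl x' w') : G.Rl (x - x') (w - w') := by
  obtain ⟨y, a, b, c⟩ := h
  obtain ⟨y', a', b', c'⟩ := h'
  exact ⟨y - y', by rw [map_sub, a, a'], by rw [map_sub, b, b', sub_zero], by rw [map_sub, c, c']⟩

theorem Rl.int (h : G.Rl x w) (m : ℤ) : G.Rl (m * x) (m * w) := by
  obtain ⟨y, a, b, c⟩ := h
  exact ⟨m * y, by rw [map_mul, map_intCast, a], by rw [map_mul, b, mul_zero],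
    by rw [map_mul, map_intCast, c]⟩

theorem Rl.ps (h : G.Rl x w) : G.Rl (ps _ x) (ps _ w) := by
  obtain ⟨y, a, b, c⟩ := h
  exact ⟨K.ps _ y, by rw [← psi_ka, a], by rw [← psi_ka, b, map_zero], by rw [← psi_ka, c]⟩

theorem Rl.sm (h : G.Rl x w) (a : KX B) :
    G.Rl (pull G.pE (pull G.π a) * x) (pull G.pP a * w) := by
  obtain ⟨y, a1, b, c⟩ := h
  refine ⟨KA G.uu a * y, ?_, by rw [map_mul, b, mul_zero], ?_⟩
  · rw [map_mul, a1, pull_cr, pull_cr, ka_sq (B := G.R) G.ph G.uu (cr G.pE) (cr G.π)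
      (fun f => G.extE fun z => (G.ph_c (G.uu f) z).trans (congrArg f (G.hp z))) a]
  · rw [map_mul, c, pull_cr, ka_ka (B := G.R) G.vl G.uu (cr G.pP) (fun _ => rfl) a]

theorem Rl.right (h : G.Rl 0 w) : w = 0 := by
  obtain ⟨y, a, b, rfl⟩ := h
  rw [G.sq2.K0_inj (stLift_of_section _ (cr G.pE : C(L, ℂ) →+* C(E, ℂ))
    fun b => ContinuousMap.ext fun l => congrArg b (G.hs l)) a b, map_zero]

theorem Rl.left [CompactSpace B] [CompactSpace P] (hK : K1Triv C(B, ℂ)) (h : G.Rl x 0) :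
    x = 0 := by
  obtain ⟨y, rfl, b, c⟩ := h
  rw [G.sq1.K0_inj (G.stLift hK) c b, map_zero]

end Gy

end Crest.Agent.N218.K

end
end

-- ▼ part N218/K/Gy2
section

/-!
# Row 218, block D0 (helper36): the Gysin data of a circle bundle `Y/Γ' → Y/Γ`
-/

set_option autoImplicit false
set_option linter.unusedVariables false

open Crest.Agent.R204 Crest.Agent.R204.Ex837 unitInterval Topology OnePoint

noncomputable section

namespace Crest.Agent.N218.K

variable {Γ Γ' : Type} [Group Γ] [TopologicalSpace Γ] [Group Γ'] [TopologicalSpace Γ']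
  [CompactSpace Γ] [CompactSpace Γ']

/-- a ray in `M` whose orbit is `M⁺`, with isotropy the image of `φ` -/
structure Ray (φ : Γ' →* Γ) (M : LS Γ) (ε : I → OnePoint M.Z) : Prop where
  ct : Continuous ε
  e1 : ε 1 = ∞
  e0 : ∀ g, M.sph.act g (ε 0) = ε 0
  fx : ∀ g t, M.sph.act (φ g) (ε t) = ε t
  sj : ∀ w, ∃ g t, M.sph.act g (ε t) = w
  ij : ∀ g t t', M.sph.act g (ε t) = ε t' → t = t' ∧ (t = 0 ∨ t = 1 ∨ g ∈ φ.range)

theorem triv_act (g : Γ) (w : OnePoint ℝ) : (LS.triv Γ ℝ).sph.act g w = w := by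
  induction w using OnePoint.rec <;> rfl

theorem thI_eq {t t' : I} (h : thI t = thI t') : t = t' ∨ ((t = 0 ∨ t = 1) ∧ (t' = 0 ∨ t' = 1)) := by
  induction e : thI t' using OnePoint.rec with
  | infty => exact .inr ⟨thI_infty.1 (h.trans e), thI_infty.1 e⟩
  | coe x => exact .inl (thI_inj (h.trans e) e)

/-- the Gysin data -/
def gyS (Y : GS Γ) {φ : Γ' →* Γ} (hφ : Continuous φ) {M : LS Γ} {ε : I → OnePoint M.Z}
    (R : Ray φ M ε) (π : C((Y.res φ hφ).Q, Y.Q)) (hπ : ∀ y, π ((Y.res φ hφ).pr y) = Y.pr y)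
    (z0 : C(Y.Q, (Sb Y M).E)) (hz : ∀ y, z0 (Y.pr y) = pt Y M y (ε 0)) :
    Gy Y.Q (Y.res φ hφ).Q (Sb (Y.res φ hφ) (LS.triv Γ' ℝ)).E (Sb Y M).E (Y.Z × I) :=
  let c : C(Y.Z × I, (Sb (Y.res φ hφ) (LS.triv Γ' ℝ)).E) :=
    ⟨fun z => pt (Y.res φ hφ) (LS.triv Γ' ℝ) z.1 (thI z.2),
      (GS.pr _).continuous.comp (continuous_fst.prodMk (continuous_thI.comp continuous_snd))⟩
  let j : C(Y.Z × I, (Sb Y M).E) := ⟨fun z => pt Y M z.1 (ε z.2),
      (GS.pr _).continuous.comp (continuous_fst.prodMk (R.ct.comp continuous_snd))⟩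
  have cq : IsQuotientMap c := c.continuous.isClosedMap.isQuotientMap c.continuous fun e => by
    obtain ⟨y, w, rfl⟩ := pt_surj' _ _ e
    obtain ⟨t, rfl⟩ := thI_surj w
    exact ⟨(y, t), rfl⟩
  have jq : IsQuotientMap j := j.continuous.isClosedMap.isQuotientMap j.continuous fun e => by
    obtain ⟨y, w, rfl⟩ := pt_surj' _ _ e
    obtain ⟨g, t, rfl⟩ := R.sj w
    refine ⟨(Y.act g⁻¹ y, t), pt_eq.2 ⟨g, ?_, rfl⟩⟩
    rw [← Y.mul, mul_inv_cancel, Y.one]
  let hc : C(Y.Z × I, ℂ) := ⟨fun z => ((z.2 : ℝ) : ℂ), by fun_prop⟩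
  have hh : Function.FactorsThrough hc j := fun z z' e => by
    obtain ⟨g, -, e⟩ := pt_eq.1 e
    exact congrArg (fun t : I => ((t : ℝ) : ℂ)) (R.ij g _ _ e).1
  have j1 : ∀ y, j (y, 1) = (Sb Y M).s (Y.pr y) := fun y => congrArg (pt Y M y) R.e1
  have c0 : ∀ y t, (t = 0 ∨ t = 1) → c (y, t) =
      (Sb (Y.res φ hφ) (LS.triv Γ' ℝ)).s ((Y.res φ hφ).pr y) := fun y t h =>
    congrArg (pt (Y.res φ hφ) (LS.triv Γ' ℝ) y) (thI_infty.2 h)
  have hl : ∀ z, jq.lift hc hh (j z) = ((z.2 : ℝ) : ℂ) := fun z =>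
    DFunLike.congr_fun (jq.lift_comp hc hh) z
  { π := π
    s := (Sb _ _).s
    pE := (Sb _ _).p
    z0 := z0
    z1 := (Sb Y M).s
    pP := (Sb Y M).p
    c := c
    j := j
    h := jq.lift hc hh
    πs := fun b => by
      obtain ⟨y, rfl⟩ := Y.pr_surj b
      exact ⟨_, hπ y⟩
    hs := (Sb _ _).ps
    p0 := fun b => by
      obtain ⟨y, rfl⟩ := Y.pr_surj b
      rw [hz]; rfl
    p1 := (Sb Y M).ps
    cq := cq
    jq := jq
    hp := fun z => (hπ z.1).symm
    h0 := fun b => by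
      obtain ⟨y, rfl⟩ := Y.pr_surj b
      rw [hz]
      exact (hl (y, 0)).trans (by simp)
    h1 := fun b => by
      obtain ⟨y, rfl⟩ := Y.pr_surj b
      rw [← j1]
      exact (hl (y, 1)).trans (by simp)
    en := fun l => by
      obtain ⟨y, rfl⟩ := (Y.res φ hφ).pr_surj l
      exact ⟨(y, 0), (y, 1), c0 _ _ (.inl rfl), c0 _ _ (.inr rfl), 
        ((congrArg z0 (hπ y)).trans (hz y)).symm, (j1 y).trans (congrArg _ (hπ y).symm)⟩
    F1 := fun f hf ⟨y, t⟩ ⟨y', t'⟩ e => by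
      obtain ⟨g, a, b⟩ := pt_eq.1 e
      have k : ∀ y t, (t = 0 ∨ t = 1) → f (j (y, t)) = f ((Sb Y M).s (Y.pr y)) := by
        rintro y t (rfl | rfl)
        · rw [← hf, hz]; rfl
        · rw [j1]
      rcases thI_eq ((triv_act g _).symm.trans b) with h | ⟨h, h'⟩
      · obtain rfl : t = t' := h
        exact congrArg f (pt_eq.2 ⟨φ g, a, R.fx g t⟩)
      · rw [k y t h, k y' t' h', Y.pr_eq.2 ⟨φ g, a⟩]
    F2 := fun a b hab ⟨y, t⟩ ⟨y', t'⟩ e => by
      obtain ⟨g, e1, e2⟩ := pt_eq.1 e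
      obtain ⟨h, h'⟩ := R.ij g _ _ e2
      obtain rfl : t = t' := h
      rw [← or_assoc] at h'
      rcases h' with h' | ⟨g, rfl⟩
      · rw [c0 y t h', c0 y' t h', hab, hab]
        exact congrArg b ((hπ y).trans ((Y.pr_eq.2 ⟨g, e1⟩).trans (hπ y').symm))
      · exact congrArg a (pt_eq.2 ⟨g, e1, triv_act g _⟩) }

/-- the positive ray in `ℂ` -/
def rayC (t : I) : OnePoint ℂ := if (t : ℝ) = 1 then ∞ else ((((t : ℝ) / (1 - t) : ℝ) : ℂ) : ℂ)

theorem rayC_coe {t : I} {z : ℂ} (h : rayC t = z) :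
    (t : ℝ) < 1 ∧ z = (((t : ℝ) / (1 - t) : ℝ) : ℂ) := by
  unfold rayC at h
  split_ifs at h with h0
  · exact absurd h (infty_ne_coe _)
  · exact ⟨lt_of_le_of_ne t.2.2 h0, (coe_injective h).symm⟩

theorem rayC_infty {t : I} (h : rayC t = ∞) : t = 1 := by
  unfold rayC at h
  split_ifs at h with h0
  · exact Subtype.ext h0
  · exact absurd h (coe_ne_infty _)

theorem rayC_one : rayC 1 = ∞ := if_pos rfl

theorem rayC_zero : rayC 0 = ((0 : ℂ) : OnePoint ℂ) := by simp [rayC]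

theorem rayC_real {r : ℝ} (hr : 0 ≤ r) : ∃ t, rayC t = ((r : ℂ) : OnePoint ℂ) := by
  have h1 : 0 < 1 + r := by linarith
  have h2 : r / (1 + r) < 1 := (div_lt_one h1).2 (by linarith)
  refine ⟨⟨r / (1 + r), div_nonneg hr h1.le, h2.le⟩, ?_⟩
  unfold rayC
  rw [if_neg h2.ne]
  congr 2
  change r / (1 + r) / (1 - r / (1 + r)) = r
  have : 1 - r / (1 + r) = 1 / (1 + r) := by field_simp; ring
  rw [this]; field_simp

theorem continuous_rayC : Continuous rayC := by
  rw [continuous_iff_continuousAt]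
  intro t
  by_cases h : (t : ℝ) = 1
  · have e : rayC t = ∞ := if_pos h
    unfold ContinuousAt
    rw [e, hasBasis_nhds_infty.tendsto_right_iff]
    rintro K ⟨-, hK⟩
    obtain ⟨C, hC⟩ := hK.isBounded.exists_norm_le
    have h3 : ∀ᶠ s : I in 𝓝 t, C * (1 - (s : ℝ)) < s := by
      refine ContinuousAt.eventually_lt (by fun_prop) (by fun_prop) ?_
      rw [h]; norm_num
    filter_upwards [h3] with s hs
    induction e' : rayC s using OnePoint.rec with
    | infty => exact .inr rfl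
    | coe x =>
      obtain ⟨a, b⟩ := rayC_coe e'
      refine .inl ⟨x, fun hx => ?_, rfl⟩
      have p := sub_pos.2 a
      have := hC x hx
      rw [b, Complex.norm_real, Real.norm_of_nonneg (div_nonneg s.2.1 p.le), div_le_iff₀ p] at this
      linarith
  · have h3 : ∀ᶠ s : I in 𝓝 t, (s : ℝ) ≠ 1 := ContinuousAt.eventually_ne (by fun_prop) h
    refine ContinuousAt.congr (f := fun s : I =>
      (((((s : ℝ) / (1 - s) : ℝ) : ℂ) : ℂ) : OnePoint ℂ)) ?_ ?_
    · exact continuous_coe.continuousAt.comp (Complex.continuous_ofReal.continuousAt.comp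
        (ContinuousAt.div (by fun_prop) (by fun_prop) (sub_ne_zero.2 (Ne.symm h))))
    · filter_upwards [h3] with s hs
      exact (if_neg hs).symm

/-- the ray of a character -/
theorem ray_of (φ : Γ' →* Γ) (ψ : Γ →* Circle) (hψ : Function.Surjective ψ)
    (hk : φ.range = ψ.ker) (one mul cont) :
    Ray φ (⟨ℂ, fun g v => (ψ g : ℂ) * v, one, mul, cont⟩ : LS Γ) rayC where
  ct := continuous_rayC
  e1 := rayC_one
  e0 g := by rw [rayC_zero]; exact congrArg OnePoint.some (mul_zero _)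
  fx g t := by
    have : ψ (φ g) = 1 := by rw [← MonoidHom.mem_ker, ← hk]; exact ⟨g, rfl⟩
    induction rayC t using OnePoint.rec with
    | infty => rfl
    | coe z => exact congrArg OnePoint.some (show (ψ (φ g) : ℂ) * z = z by rw [this]; simp)
  sj w := by
    induction w using OnePoint.rec with
    | infty => exact ⟨1, 1, by rw [rayC_one]; rfl⟩
    | coe z =>
      obtain ⟨t, ht⟩ := rayC_real (norm_nonneg z)
      obtain ⟨g, hg⟩ := hψ (Circle.exp (Complex.arg z))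
      refine ⟨g, t, ?_⟩
      rw [ht]
      refine congrArg OnePoint.some ?_
      change (ψ g : ℂ) * _ = z
      rw [hg, Circle.coe_exp, mul_comm, Complex.norm_mul_exp_arg_mul_I]
  ij g t t' h := by
    induction e : rayC t using OnePoint.rec with
    | infty =>
      rw [e] at h
      exact ⟨(rayC_infty e).trans (rayC_infty h.symm).symm, .inr (.inl (rayC_infty e))⟩
    | coe z =>
      rw [e] at h
      obtain ⟨a, b⟩ := rayC_coe e
      obtain ⟨a', b'⟩ := rayC_coe h.symm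
      have b2 : (ψ g : ℂ) * z = _ := b'
      have p := sub_pos.2 a
      have p' := sub_pos.2 a'
      have n := congrArg norm b2
      rw [norm_mul, Circle.norm_coe, one_mul, b, Complex.norm_real, Complex.norm_real,
        Real.norm_of_nonneg (div_nonneg t.2.1 p.le), Real.norm_of_nonneg (div_nonneg t'.2.1 p'.le),
        div_eq_div_iff p.ne' p'.ne'] at n
      have tt : t = t' := Subtype.ext (by linarith)
      refine ⟨tt, ?_⟩
      by_cases h0 : t = 0
      · exact .inl h0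
      · refine .inr (.inr ?_)
        rw [hk, MonoidHom.mem_ker]
        have z0 : z ≠ 0 := by
          rw [b, Complex.ofReal_ne_zero]
          exact div_ne_zero (fun e => h0 (Subtype.ext e)) p.ne'
        rw [← tt, ← b] at b2
        exact Circle.ext (mul_right_cancel₀ z0 (by rw [b2]; simp))

end Crest.Agent.N218.K

end
end

-- ▼ part N218/K/Gy3
section

/-!
# Row 218, block D0 (helper36): `K⁻¹` of a lens space, from the Gysin data
-/

set_option autoImplicit false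
set_option linter.unusedVariables false

open Crest.Agent.R204 Crest.Agent.R204.Ex837 Polynomial

noncomputable section

namespace Crest.Agent.N218.K

theorem aeval_top {K : Type} [CommRing K] {l t : K} (h : (1 - l) * t = 0) (f : ℤ[X]) :
    aeval l f * t = (f.eval 1 : ℤ) * t := by
  obtain ⟨c, hc⟩ := X_sub_C_dvd_sub_C_eval (a := (1 : ℤ)) (p := f)
  have := congrArg (aeval l) hc
  simp only [map_sub, map_mul, aeval_X, map_one, eq_intCast] at this
  rw [map_intCast] at this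
  linear_combination t * this - aeval l c * h

theorem top_of {r q : ℕ} (hq : 0 < q) {p : ℤ[X]} (h : (1 - X) ^ (r + 1) ∣ p * (1 - X ^ q)) :
    (1 - X) ^ r ∣ p := by
  have hp : Prime (1 - X : ℤ[X]) := by
    have := (prime_X_sub_C (1 : ℤ)).neg
    rwa [neg_sub, map_one] at this
  rw [← mul_neg_geom_sum, ← mul_assoc, mul_right_comm, pow_succ,
    mul_dvd_mul_iff_right hp.ne_zero, mul_comm] at h
  refine hp.pow_dvd_of_dvd_mul_left r (fun ⟨c, hc⟩ => ?_) h
  have := congrArg (eval 1) hc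
  simp [eval_finsetSum] at this
  omega

/-- the properties of `K⁻¹` of a lens space -/
structure Lk {A : Type} [CommRing A] [Algebra ℂ A] (r : ℕ) (l x : KC A) : Prop where
  ps : ps A x = 3 ^ r * x
  sm : ∀ f : ℤ[X], aeval l f * x = (f.eval 1 : ℤ) * x
  tf : ∀ m : ℤ, m ≠ 0 → m * x = 0 → x = 0

/-- **KILL** -/
theorem Lk.kill {A : Type} [CommRing A] [Algebra ℂ A] {r : ℕ} {l x : KC A} (h : Lk r l x)
    (f g : ℤ[X]) (e : aeval l f * K.ps A x = aeval l g * x) (ne : 3 ^ r * f.eval 1 ≠ g.eval 1) :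
    x = 0 := by
  refine h.tf _ (sub_ne_zero.2 ne) ?_
  rw [h.ps, mul_left_comm, h.sm, h.sm] at e
  push_cast
  linear_combination e

theorem Gy.lk {B L E P Z : Type} [TopologicalSpace B] [TopologicalSpace L] [TopologicalSpace E]
    [TopologicalSpace P] [TopologicalSpace Z] [CompactSpace B] [CompactSpace P]
    (G : Gy B L E P Z) (hK : K1Triv C(B, ℂ)) {l : KX B} {r q : ℕ} (hq : 0 < q)
    (sj : ∀ y, ∃ p : ℤ[X], aeval l p = y) (ker : ∀ p : ℤ[X], aeval l p = 0 → (1 - X) ^ (r + 1) ∣ p)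
    (nil : (1 - l) ^ (r + 1) = 0) (pl : ps _ l = l ^ 3) {lam : KX P}
    (t1 : ∀ w, pull G.z1 w = 0 → ∃ a, w = pull G.pP a * lam)
    (t2 : ∀ a, pull G.pP a * lam = 0 → a = 0) (z0 : pull G.z0 lam = 1 - l ^ q)
    (pm : ps _ lam = pull G.pP (1 + l ^ q + (l ^ q) ^ 2) * lam) {x : KX E}
    (hx : pull G.s x = 0) : Lk (r + 1) (pull G.pE (pull G.π l)) x := by
  obtain ⟨w, hw⟩ := Gy.Rl.ex G hx
  obtain ⟨a, rfl⟩ := t1 w hw.z1
  have h0 := hw.z0
  rw [map_mul, pull_pull_id G.z0 G.pP G.p0, z0] at h0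
  obtain ⟨p, rfl⟩ := sj a
  obtain ⟨c, rfl⟩ := top_of hq (ker (p * (1 - X ^ q)) (by simpa using h0))
  have hT : (1 - l) * (1 - l) ^ r = 0 := by rw [← pow_succ', nil]
  have e : aeval l ((1 - X) ^ r * c) = (c.eval 1 : ℤ) * (1 - l) ^ r := by
    rw [← aeval_top hT]; simp [mul_comm]
  rw [e] at hw
  generalize c.eval 1 = n at hw
  refine ⟨?_, fun f => ?_, fun m hm h => ?_⟩
  · have k := hw.ps.sub (hw.int (3 ^ (r + 1)))
    have e1 : ps _ ((n : KX B) * (1 - l) ^ r) * (1 + l ^ q + (l ^ q) ^ 2) =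
        ((3 ^ (r + 1) : ℤ) : KX B) * ((n : KX B) * (1 - l) ^ r) := by
      have := aeval_top hT ((1 + X + X ^ 2) ^ r * (1 + X ^ q + (X ^ q) ^ 2))
      simp only [map_mul, map_pow, map_add, map_one, aeval_X, eval_mul, eval_pow, eval_add,
        eval_one, eval_X, one_pow] at this
      rw [map_mul, map_intCast, map_pow, map_sub, map_one, pl,
        show 1 - l ^ 3 = (1 + l + l ^ 2) * (1 - l) by ring, mul_pow]
      push_cast at this ⊢
      linear_combination (n : KX B) * this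
    rw [map_mul, ps_pull, pm, ← mul_assoc, ← map_mul, e1, map_mul, map_intCast, mul_assoc,
      sub_self] at k
    have := sub_eq_zero.1 (k.left hK)
    push_cast at this
    exact this
  · have k := (hw.sm (aeval l f)).sub (hw.int (f.eval 1))
    rw [← mul_assoc (pull G.pP _), ← map_mul, mul_left_comm, aeval_top hT, mul_left_comm, map_mul,
      map_intCast, mul_assoc, sub_self] at k
    have e2 : pull G.pE (pull G.π (aeval l f)) = aeval (pull G.pE (pull G.π l)) f :=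
      (aeval_algHom_apply ((pull G.pE).comp (pull G.π)).toIntAlgHom l f).symm
    rw [← e2]
    exact sub_eq_zero.1 (k.left hK)
  · have k := hw.int m
    rw [h] at k
    have k2 := k.right
    rw [← map_intCast (pull G.pP), ← mul_assoc, ← map_mul] at k2
    have k3 := ker (C (m * n) * (1 - X) ^ r) (by simpa [mul_assoc] using t2 _ k2)
    rw [pow_succ, mul_comm (C _), mul_dvd_mul_iff_left (pow_ne_zero _ (by
      intro h; simpa using congrArg (eval 0) h))] at k3
    obtain ⟨d, hd⟩ := k3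
    have := congrArg (eval 1) hd
    simp [hm] at this
    subst this
    simp only [Int.cast_zero, zero_mul, map_zero] at hw
    exact hw.left hK

end Crest.Agent.N218.K

end
end

-- ▼ part N218/K/Ln1

/-!
# Row 218, block D0 (helper36): `K (ℂP)` over `ℤ` and `K⁻¹` of lens spaces
-/

set_option autoImplicit false
set_option linter.unusedVariables false

open Crest.Agent.R204 Crest.Agent.R204.Ex837 Polynomial
open K357 (K0)

noncomputable section

namespace Crest.Agent.N218.K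

theorem kx_pt {W : Type} [TopologicalSpace W] [Unique W] :
    Function.Bijective (Int.castRingHom (KX W)) := by
  let ε : C(W, ℂ) →ₐ[ℂ] ℂ := ContinuousMap.evalAlgHom ℂ ℂ default
  have hε : Function.Bijective ε :=
    ⟨fun a b h => ContinuousMap.ext fun w => by rw [Unique.eq_default w]; exact h,
      fun c => ⟨.const _ c, rfl⟩⟩
  have k := Th.ka_bij ε hε
  refine ⟨(injective_iff_map_eq_zero _).2 fun n h => H472.K0_field_intCast_inj (F := ℂ) ?_,
    fun x => ?_⟩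
  · rw [← map_intCast (KA ε), ← eq_intCast (Int.castRingHom (KX W)), h, map_zero]
  · obtain ⟨n, hn⟩ := H472.K0_field_surj (F := ℂ) (KA ε x)
    exact ⟨n, k.1 (by rw [eq_intCast, map_intCast, ← hn])⟩

variable {Γ Γ' : Type} [Group Γ] [TopologicalSpace Γ] [CompactSpace Γ] [Group Γ']
  [TopologicalSpace Γ'] [CompactSpace Γ']

instance : Unique (GS.triv Γ Unit).Q :=
  ⟨⟨GS.pr _ ()⟩, fun a => by obtain ⟨a, rfl⟩ := GS.pr_surj _ a; rfl⟩

open Cp in
/-- **`K (ℂP^{r-1}) = ℤ[L] / (1 - L)^r`** -/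
theorem cp_int (T : THOM1) {χ : Γ →* Circle} (hχ : Continuous χ) (r : ℕ)
    (H : Function.Surjective χ) : (∀ x, ∃ p : ℤ[X], aeval (Lc (Sp χ hχ r) χ) p = x) ∧
      ∀ p : ℤ[X], aeval (Lc (Sp χ hχ r) χ) p = 0 ↔ (1 - X) ^ r ∣ p := by
  let Y := GS.triv Γ Unit
  obtain ⟨a, b⟩ := cp hχ r T (Y := Y) fun y z => (H z).imp fun g e => ⟨rfl, e⟩
  let f : C((YS Y χ hχ r).Q, (Sp χ hχ r).Q) := GS.qmap _ _ ContinuousMap.snd fun g _ => ⟨g, rfl⟩
  have hf : Function.Bijective f := by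
    refine ⟨fun a b h => ?_, fun a => ?_⟩
    · obtain ⟨a, rfl⟩ := GS.pr_surj _ a
      obtain ⟨b, rfl⟩ := GS.pr_surj _ b
      obtain ⟨g, e⟩ := (GS.pr_eq _).1 h
      exact (GS.pr_eq _).2 ⟨g, Prod.ext rfl e⟩
    · obtain ⟨a, rfl⟩ := GS.pr_surj _ a
      exact ⟨GS.pr _ ((), a), rfl⟩
  let e : ℤ ≃+* KX Y.Q := RingEquiv.ofBijective _ kx_pt
  have k : ∀ p : ℤ[X], pull f (aeval (Lc (Sp χ hχ r) χ) p) =
      eval₂ (pull (piB Y χ hχ r)) (Lc (YS Y χ hχ r) χ) (p.map e) := fun p => by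
    rw [eval₂_map, aeval_def, hom_eval₂,
      pull_Lc ⟨spS0 χ hχ r⟩ (f := ContinuousMap.snd) (fun g y => ⟨g, rfl, rfl⟩) f fun _ => rfl]
    congr 1
    exact RingHom.ext_int _ _
  refine ⟨fun x => ?_, fun p => ?_⟩
  · obtain ⟨p, hp⟩ := a (pull f x)
    obtain ⟨p, rfl⟩ := map_surjective (e : ℤ →+* KX Y.Q) e.surjective p
    exact ⟨p, (pull_bij f hf).1 ((k p).trans hp)⟩
  · rw [← map_eq_zero_iff (pull f) (pull_bij f hf).1, k, b,
      ← map_dvd_iff (mapEquiv e) (a := (1 - X) ^ r)]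
    simp

/-- the `q`-th power map of the circle -/
def pwC (q : ℕ) : Circle →* Circle := MonoidHom.id Circle ^ q

theorem pwC_cont (q : ℕ) : Continuous (pwC q) := continuous_pow q

theorem pwC_surj {q : ℕ} (hq : 0 < q) : Function.Surjective (pwC q) := fun z => by
  obtain ⟨t, rfl⟩ := Circle.exp_surjective z
  refine ⟨Circle.exp (t / q), ?_⟩
  change Circle.exp (t / q) ^ q = _
  rw [← Circle.exp_nsmul, nsmul_eq_mul, mul_div_cancel₀ _ (Nat.cast_pos.2 hq).ne']

theorem range_eq_ker {Γ : Type} [Group Γ] [Fintype Γ] {χ : Γ →* Circle}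
    (h : Function.Injective χ) : χ.range = (pwC (Fintype.card Γ)).ker := by
  classical
  have hq : 0 < Fintype.card Γ := Fintype.card_pos
  refine le_antisymm ?_ fun z hz => ?_
  · rintro _ ⟨g, rfl⟩
    change χ g ^ _ = 1
    rw [← map_pow, pow_card_eq_one, map_one]
  · let s : Finset ℂ := Finset.univ.image fun g => (χ g : ℂ)
    have hs : s ⊆ (nthRoots (Fintype.card Γ) (1 : ℂ)).toFinset := fun w hw => by
      obtain ⟨g, -, rfl⟩ := Finset.mem_image.1 hw
      rw [Multiset.mem_toFinset, mem_nthRoots hq, ← Circle.coe_pow, ← map_pow, pow_card_eq_one,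
        map_one, Circle.coe_one]
    have e := Finset.eq_of_subset_of_card_le hs (by
      have : s.card = Fintype.card Γ :=
        Finset.card_image_of_injective _ (Circle.coe_injective.comp h)
      rw [this]
      exact (Multiset.toFinset_card_le _).trans (card_nthRoots _ _))
    have : (z : ℂ) ∈ s := by
      rw [e, Multiset.mem_toFinset, mem_nthRoots hq, ← Circle.coe_pow]
      exact congrArg _ hz
    obtain ⟨g, -, hg⟩ := Finset.mem_image.1 this
    exact ⟨g, Circle.ext hg⟩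

/-- **`K⁻¹` of a lens space** -/
theorem ln1 (T : THOM1) {χ : Γ →* Circle} (hχ : Continuous χ) {q : ℕ} (hq : 0 < q)
    (hk : χ.range = (pwC q).ker) (r : ℕ) {x : KS (Sp χ hχ (r + 1)) (LS.triv Γ ℝ)}
    (hx : (Sb _ _).Rd x) :
    Lk (r + 1) (pull (Sb (Sp χ hχ (r + 1)) (LS.triv Γ ℝ)).p (Lc (Sp χ hχ (r + 1)) χ)) x := by
  let Y := Sp (MonoidHom.id Circle) continuous_id (r + 1)
  have S : Nonempty (Sec Y (MonoidHom.id Circle)) := ⟨Cp.spS0 _ _ _⟩
  let π : C((Y.res χ hχ).Q, Y.Q) := GS.qmap _ _ (.id _) fun g _ => ⟨χ g, rfl⟩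
  let z0 : C(Y.Q, (Sb Y (ch (pwC q) (pwC_cont q))).E) :=
    GS.qmap _ _ ⟨fun y => (y, rayC 0), continuous_id.prodMk continuous_const⟩
      fun g _ => ⟨g, Prod.ext rfl ((ray_of χ (pwC q) (pwC_surj hq) hk _ _ _).e0 g)⟩
  let G := gyS Y hχ (M := ch (pwC q) (pwC_cont q)) (ray_of χ (pwC q) (pwC_surj hq) hk _ _ _) π
    (fun _ => rfl) z0 fun _ => rfl
  obtain ⟨a, b⟩ := cp_int T (χ := MonoidHom.id Circle) continuous_id (r + 1) Function.surjective_id
  have th := T _ Y (pwC q) (pwC_cont q) (sec_pow S q)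
  have e : Lc Y (pwC q) = Lc Y (MonoidHom.id Circle) ^ q := Lc_pow S q
  have := G.lk (k1Z_sp T continuous_id (r + 1) Function.surjective_id).k1Triv hq a
    (fun p => (b p).1) (by simpa using (b _).2 dvd_rfl) ps_Lc (lam := lam1 Y (pwC q) (pwC_cont q))
    (fun w hw => (th.2 w hw).exists)
    (fun a h => (th.2 0 (map_zero _)).unique h.symm (by simp [Ex.sm]))
    (by rw [← e]; exact zero_lam1 _ (sec_pow S q) z0 fun y => congrArg (pt Y _ y) rayC_zero)
    (by rw [← e]; exact ps_lam1 _) (x := x) hx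
  have e2 : pull π (Lc Y (MonoidHom.id Circle)) = Lc (Sp χ hχ (r + 1)) χ :=
    pull_Lc (Y' := Sp χ hχ (r + 1)) S (f := .id _) (fun g y => ⟨χ g, rfl, rfl⟩) π fun _ => rfl
  rw [← e2]
  exact this

end Crest.Agent.N218.K

end
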