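import Crest.Agent.N218.K.St
import Crest.Agent.N218.K.Cy

/-!
# Row 218 (helper88): the primary class under proper pull-backs and under restriction of the group
-/

set_option autoImplicit false
set_option linter.unusedVariables false
set_option linter.unusedSectionVars false

open unitInterval Topology Filter Set OnePoint

noncomputable section

namespace Crest.Agent.N218.K

namespace Dc

variable {Γ Γ' : Type} [Group Γ] [TopologicalSpace Γ] [Group Γ'] [TopologicalSpace Γ']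

section cm
variable {X X' : LS Γ} {V U : Rep Γ} {P Q : PB X V} {S : Set X.Z} {S' : Set X'.Z}
  {j : X'.Z → X.Z}

theorem ok_cm (h : P.Ok S) (p : IsProperMap j) (e : ∀ g x, j (X'.act g x) = X.act g (j x))
    (s : j ⁻¹' S ⊆ S') : (P.comap j).Ok S' :=
  ⟨h.op.preimage p.continuous, fun g x i => show j _ ∈ P.O from e g x ▸ h.inv g _ i,
    h.ct.comp p.continuous.continuousOn fun _ i => i,
    fun g x i => (congrArg P.f (e g x)).trans (h.eq g _ i), p.isCompact_preimage h.cp,
    fun x i => s (h.fr i)⟩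

theorem le_cm (h : P.Le Q) (j : X'.Z → X.Z) : (P.comap j).Le (Q.comap j) :=
  ⟨fun _ i => h.sub i, fun _ i => h.eq _ i, fun _ i => h.z i⟩

theorem hb_cm (h : PB.Hb S P Q) (p : IsProperMap j) (e : ∀ g x, j (X'.act g x) = X.act g (j x))
    (s : j ⁻¹' S ⊆ S') : PB.Hb S' (P.comap j) (Q.comap j) := by
  obtain ⟨a, b, H, c, d, f⟩ := h
  exact ⟨ok_cm a p e s, ok_cm b p e s, H.comap (X' := X'.cy) (Prod.map j id),
    ok_cm (X' := X'.cy) c (p.prodMap isProperMap_id) (fun g x => Prod.ext (e g x.1) rfl)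
      fun x i => s i, le_cm d j, le_cm f j⟩

theorem fr_cm (e : ∀ g x, j (X'.act g x) = X.act g (j x)) : j ⁻¹' X.fr ⊆ X'.fr :=
  fun x i g k => i g ((e g x).symm.trans (congrArg j k))

theorem lift_cm {k : X.Z → U.W} (l : P.Lift U k) (c : Continuous j)
    (e : ∀ g x, j (X'.act g x) = X.act g (j x)) : (P.comap j).Lift U fun x => k (j x) :=
  ⟨l.ct.comp c.continuousOn fun _ i => i, fun g x i => (congrArg k (e g x)).trans (l.eq g _ i),
    fun _ i => l.nz _ i⟩
end cm

section res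
variable {X : LS Γ} {V U : Rep Γ} {P Q : PB X V} {S S' : Set X.Z} (φ : Γ' →* Γ)
  (hφ : Continuous φ)




end res

variable [CompactSpace Γ] [CompactSpace Γ']

section fp
variable {Y : GS Γ} {M M' : LS Γ} {W : Rep Γ} {J : M'.Z → M.Z}

theorem pm_map (p : IsProperMap J) (e : ∀ g x, J (M'.act g x) = M.act g (J x)) :
    Pm Y M' M fun z => (J z.2 : OnePoint M.Z) :=
  ⟨continuous_coe.comp (p.continuous.comp continuous_snd),
    fun K' h => ⟨J ⁻¹' K', p.isCompact_preimage h, fun _ w w' a b c =>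
      a (show J w ∈ K' from (coe_injective b).symm ▸ c)⟩,
    fun γ y w => congrArg _ (e γ w)⟩

theorem rg_mp {G : H1 (Sb Y M') (Sb Y M)} (h : Rg G fun z => (J z.2 : OnePoint M.Z)) :
    Mp id (OnePoint.map J) G.f := fun y w => by
  induction w using OnePoint.rec with
  | infty => exact G.f_inf y
  | coe w => exact h y w

theorem rp_cm {P : FP Y M W} {F : H1 (Sb Y M) (Sb Y W.ls)} (r : P.Rp F) (p : IsProperMap J)
    (e : ∀ g x, J (M'.act g x) = M.act g (J x)) {G : H1 (Sb Y M') (Sb Y M)}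
    (h : Rg G fun z => (J z.2 : OnePoint M.Z)) :
    (⟨{z | (z.1, J z.2) ∈ P.O}, fun z => P.f (z.1, J z.2)⟩ : FP Y M' W).Rp (G.cm F) := by
  obtain ⟨c, a, b⟩ := r
  have q : IsProperMap (Prod.map (id : Y.Z → Y.Z) J) := isProperMap_id.prodMap p
  have s : tsupport (fun z : Y.Z × M'.Z => c (z.1, J z.2)) ⊆ Prod.map id J ⁻¹' tsupport c :=
    closure_minimal (fun z i => subset_closure i) (isClosed_closure.preimage q.continuous)
  exact ⟨fun z => c (z.1, J z.2), ⟨a.ct.comp q.continuous, fun _ => a.nn _,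
    (q.isCompact_preimage a.cp).of_isClosed_subset isClosed_closure s, fun z i => a.sub (s i),
    fun z i k => a.pos _ i k, fun g z => (congrArg (fun x => c (_, x)) (e g z.2)).trans
      (a.inv g (z.1, J z.2))⟩, fun y w => (congrArg F.f (h y w)).trans (b y (J w))⟩
end fp

variable (χ : Γ →* Circle) (hχ : Continuous χ) (r : ℕ)

theorem tc_ok {X : LS Γ} {V : Rep Γ} {P : PB X V} {S : Set X.Z} (h : P.Ok S)
    {k : X.Z → Fin r → ℂ} (l : P.Lift (UU χ hχ r) k) : (Tc χ hχ r P k).Ok :=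
  PB.Th_ok h l continuous_subtype_val (fun _ _ => rfl) fun u z => by
    have := u.2
    simp [Un1, show u.1 = 0 from z] at this

/-- the classifying map of a pull-back -/
theorem cl_cm {X X' : LS Γ} {V : Rep Γ} {j : X'.Z → X.Z} (p : IsProperMap j)
    (e : ∀ g x, j (X'.act g x) = X.act g (j x)) :
    ∃ G : H1 (Sb (Sp χ hχ r) X'.xr) (Sb (Sp χ hχ r) X.xr),
      Mp id (OnePoint.map (Prod.map j id)) G.f ∧
      ∀ (P : PB X V) F, Cl χ hχ r P F → Cl χ hχ r (P.comap j) (G.cm F) := by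
  have p' : IsProperMap (Prod.map j (id : ℝ → ℝ)) := p.prodMap isProperMap_id
  have e' : ∀ g (x : X'.xr.Z), Prod.map j id (X'.xr.act g x) = X.xr.act g (Prod.map j id x) :=
    fun g x => Prod.ext (e g x.1) rfl
  obtain ⟨G, hG⟩ := (pm_map (Y := Sp χ hχ r) (M := X.xr) (M' := X'.xr) p' e').exists_rg
  refine ⟨G, rg_mp hG, fun P F ⟨P', k, a, b, c⟩ => ⟨P'.comap j, fun x => k (j x),
    hb_cm a p e (fr_cm e), lift_cm b p.continuous e, ?_⟩⟩
  exact rp_cm (M := X.xr) (M' := X'.xr) c p' e' hG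


end Dc

open Dc

theorem dcm : DCM := by
  intro Γ _ _ _ _ χ r X X' V j p e
  obtain ⟨G, a, b⟩ := cl_cm (V := V) χ (cc χ) r p e
  exact ⟨G.f, a, fun P l y ⟨F, c, d⟩ => ⟨_, b P F c, (pull_cm _ _ _).trans (congrArg _ d)⟩⟩


end Crest.Agent.N218.K

end
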