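import Crest.Agent.N218.K.Cp2
import Crest.Agent.N218.K.Dcm
import Crest.Agent.N218.K.Cx0
import Crest.Agent.N218.K.Cx1
import Crest.Agent.N218.K.Kill

-- ▼ part N218/K/Denl0
section

/-!
# Row 218 (helper86): the Gysin formula along `S(rχ) ⊆ S((r+1)χ)`
-/

set_option autoImplicit false
set_option linter.unusedVariables false

open unitInterval Topology Filter Set OnePoint ComplexConjugate

noncomputable section

namespace Crest.Agent.N218.K.En

open Cp

section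
variable {A A1 C C1 B U S P : Type} [CommRing A] [CommRing A1] [CommRing C] [CommRing C1]
  [CommRing B] [CommRing U] [CommRing S] [CommRing P]

/-- a pair of maps that agree modulo `ρ` -/
def dbOf (ρ : A →+* C) (f g : S →+* A) (h : ∀ u, ρ (f u) = ρ (g u)) : S →+* Db ρ :=
  (f.prod g).codRestrict _ h

theorem gys0 {ρ : A →+* C} {ρ1 : A1 →+* C1} {φ : A →+* A1} (E : Exc ρ ρ1 φ) (F F0 : S →+* A)
    (τ τ0 : U →+* A) (G1 G2 : P →+* A1) (c : S →+* P) (q : B →+* P) (p : U →+* P) (G : B →+* A1)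
    (a1 : ∀ u, ρ (F u) = ρ (F0 u)) (a2 : ∀ u, ρ (τ u) = ρ (τ0 u))
    (h0 : ∀ u, ρ1 (G1 u) = ρ1 (G2 u)) (h1 : ∀ u, φ (F u) = G1 (c u))
    (h2 : ∀ u, φ (F0 u) = G2 (c u)) (h3 : ∀ u, G u = G1 (q u)) (h4 : ∀ u, G u = G2 (q u))
    (h5 : ∀ u, φ (τ u) = G1 (p u)) (h6 : ∀ u, φ (τ0 u) = G2 (p u)) {m : KC S} {l : KC B}
    {t : KC U} (hm : KR c m = KR q l * KR p t) (m0 : KR F0 m = 0) (t0 : KR τ0 t = 0)
    {y : KC A} (hy : KR φ y = KR G l) : KR F m = y * KR τ t := by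
  have e : KR (dbOf ρ F F0 a1) m = KR (Db.dg ρ) y * KR (dbOf ρ τ τ0 a2) t := by
    refine sub_eq_zero.1 (E.kinj ?_ ?_)
    · rw [map_sub, map_mul, Db.mp_dg, hy,
        kr_sq (Db.mp _ E.mp) (dbOf ρ F F0 a1) (dbOf ρ1 G1 G2 h0) c fun u => Subtype.ext
          (Prod.ext (h1 u) (h2 u)),
        kr_sq (Db.mp _ E.mp) (dbOf ρ τ τ0 a2) (dbOf ρ1 G1 G2 h0) p fun u => Subtype.ext
          (Prod.ext (h5 u) (h6 u)),
        kr_sq (Db.dg ρ1) G (dbOf ρ1 G1 G2 h0) q fun u => Subtype.ext (Prod.ext (h3 u) (h4 u)),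
        ← map_mul, hm, sub_self]
    · rw [map_sub, map_mul, kr_kr (Db.s ρ) (dbOf ρ F F0 a1) F0 fun _ => rfl,
        kr_kr (Db.s ρ) (dbOf ρ τ τ0 a2) τ0 fun _ => rfl, m0, t0, mul_zero, sub_self]
  have := congrArg (KR (Db.f ρ)) e
  rwa [map_mul, Db.f_dg, kr_kr (Db.f ρ) (dbOf ρ F F0 a1) F fun _ => rfl,
    kr_kr (Db.f ρ) (dbOf ρ τ τ0 a2) τ fun _ => rfl] at this
end

section
variable {X X1 K B U S P : Type} [TopologicalSpace X] [TopologicalSpace X1] [TopologicalSpace K]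
  [TopologicalSpace B] [TopologicalSpace U] [TopologicalSpace S] [TopologicalSpace P]

/-- products of relative classes can be computed after excision -/
theorem gys (i : C(K, X1)) (φ : C(X1, X)) (E : Exc (cr (φ.comp i)) (cr i) (cr φ))
    (F F0 : C(X, S)) (τ τ0 : C(X, U)) (G1 G2 : C(X1, P)) (c : C(P, S)) (q : C(P, B)) (p : C(P, U))
    (G : C(X1, B)) (h0 : ∀ a, G1 (i a) = G2 (i a)) (h1 : ∀ z, c (G1 z) = F (φ z))
    (h2 : ∀ z, c (G2 z) = F0 (φ z)) (h3 : ∀ z, q (G1 z) = G z) (h4 : ∀ z, q (G2 z) = G z)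
    (h5 : ∀ z, p (G1 z) = τ (φ z)) (h6 : ∀ z, p (G2 z) = τ0 (φ z)) {m : KX S} {l : KX B}
    {t : KX U} (hm : pull c m = pull q l * pull p t) (m0 : pull F0 m = 0) (t0 : pull τ0 t = 0)
    {y : KX X} (hy : pull φ y = pull G l) : pull F m = y * pull τ t :=
  gys0 E (cr F) (cr F0) (cr τ) (cr τ0) (cr G1) (cr G2) (cr c) (cr q) (cr p) (cr G)
    (fun u => ContinuousMap.ext fun a => congrArg u
      ((h1 _).symm.trans ((congrArg c (h0 a)).trans (h2 _))))
    (fun u => ContinuousMap.ext fun a => congrArg u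
      ((h5 _).symm.trans ((congrArg p (h0 a)).trans (h6 _))))
    (fun u => ContinuousMap.ext fun a => congrArg u (h0 a))
    (fun u => ContinuousMap.ext fun a => congrArg u (h1 a).symm)
    (fun u => ContinuousMap.ext fun a => congrArg u (h2 a).symm)
    (fun u => ContinuousMap.ext fun a => congrArg u (h3 a).symm)
    (fun u => ContinuousMap.ext fun a => congrArg u (h4 a).symm)
    (fun u => ContinuousMap.ext fun a => congrArg u (h5 a).symm)
    (fun u => ContinuousMap.ext fun a => congrArg u (h6 a).symm) hm m0 t0 hy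
end

variable {Γ : Type} [Group Γ] [TopologicalSpace Γ] [CompactSpace Γ] (χ : Γ →* Circle)
  (hχ : Continuous χ) (r : ℕ) (M T : LS Γ)

/-- the disc bundle -/
abbrev DD : GS Γ := (Sp χ hχ r).prod (Dk χ hχ)

/-- the centre of the disc -/
def o : UD := ⟨0, by simp⟩


/-- the join map on sphere bundles -/
def jM : C((Sb (DD χ hχ r) M).E, (Sb (Sp χ hχ (r + 1)) M).E) :=
  GS.qmap _ _ ⟨fun z : (US r × UD) × OnePoint M.Z => (jn r z.1, z.2), by fun_prop⟩
    fun g z => ⟨g, Prod.ext (jn_act χ hχ r g z.1.1 z.1.2).symm rfl⟩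

/-- the zero section of the disc bundle -/
def i0 : C((Sb (Sp χ hχ r) M).E, (Sb (DD χ hχ r) M).E) :=
  GS.qmap _ _ ⟨fun z : US r × OnePoint M.Z => ((z.1, o), z.2), by fun_prop⟩
    fun g z => ⟨g, Prod.ext (Prod.ext rfl (Subtype.ext (mul_zero _))) rfl⟩

theorem i0_inj : Function.Injective (pull (i0 χ hχ r M)) := by
  let π : C((Sb (DD χ hχ r) M).E, (Sb (Sp χ hχ r) M).E) :=
    GS.qmap _ _ ⟨fun z : (US r × UD) × OnePoint M.Z => (z.1.1, z.2), by fun_prop⟩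
      fun g z => ⟨g, rfl⟩
  let s : I × UD → UD := fun z => ⟨(z.1 : ℝ) * z.2.1, mem_closedBall_zero_iff.2 (by
    rw [norm_mul, Complex.norm_real, Real.norm_of_nonneg z.1.2.1]
    exact mul_le_one₀ z.1.2.2 (norm_nonneg _) z.2.le)⟩
  have cs : Continuous s := Continuous.subtype_mk (by fun_prop) _
  obtain ⟨H, e⟩ := sb_lift (Y := DD χ hχ r) (M := M) (T := I)
    (fun z => pt (DD χ hχ r) M (z.2.1.1, s (z.1, z.2.1.2)) z.2.2)
    ((cont_pt (Y := DD χ hχ r) (M := M)).comp ((continuous_snd.fst.fst.prodMk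
      (cs.comp (continuous_fst.prodMk continuous_snd.fst.snd))).prodMk continuous_snd.snd))
    fun t g y w => Eq.trans (congrArg (fun c => pt (DD χ hχ r) M (_, c) _)
      (Subtype.ext (mul_left_comm _ _ _))) (pt_act (Y := DD χ hχ r) g (y.1, s (t, y.2)) w)
  have k : pull ((i0 χ hχ r M).comp π) = pull (.id _) := pull_htpy ⟨H, fun x => by
      obtain ⟨y, w, rfl⟩ := pt_surj x
      exact (e 0 y w).trans (congrArg (fun c => pt (DD χ hχ r) M (_, c) _)
        (Subtype.ext (by simp [s, o]))), fun x => by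
      obtain ⟨y, w, rfl⟩ := pt_surj x
      exact (e 1 y w).trans (congrArg (fun c => pt (DD χ hχ r) M (_, c) _)
        (Subtype.ext (by simp [s])))⟩
  exact Function.LeftInverse.injective (g := pull π) fun x => by rw [← pull_comp, k, pull_id]

/-- the boundary, before the quotient -/
abbrev KB : Type := {z : (US r × UD) × OnePoint M.Z // cw z.1.2 = 0}

instance : CompactSpace (KB r M) := isCompact_iff_compactSpace.1
  (isClosed_eq (cw_cont.comp (by fun_prop)) continuous_const).isCompact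

/-- the boundary -/
def iB : C(KB r M, (Sb (DD χ hχ r) M).E) :=
  ⟨fun z => pt (DD χ hχ r) M z.1.1 z.1.2, cont_pt.comp continuous_subtype_val⟩

theorem mem_iB {y : US r × UD} {w : OnePoint M.Z} :
    pt (DD χ hχ r) M y w ∈ range (iB χ hχ r M) ↔ cw y.2 = 0 := by
  refine ⟨fun ⟨z, e⟩ => ?_, fun h => ⟨⟨(y, w), h⟩, rfl⟩⟩
  obtain ⟨g, a, -⟩ := pt_iff.1 e
  rw [← a]; exact (cw_circ (χ g) _).trans z.2

variable {r} in
theorem jn_onto (hr : 0 < r) : Function.Surjective (jn r) := fun u => by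
  refine (jn_surj r u).elim (fun h => ?_) id
  let w : UD := ⟨u.1 0, mem_closedBall_zero_iff.2 (u.2.norm_le 0)⟩
  have a : cw w = 0 := by
    have k := u.2
    have c := cw_rel w
    rw [Un1, Fin.sum_univ_succ] at k
    simp only [h _, mul_zero, Finset.sum_const_zero, add_zero] at k
    have : (cw w : ℂ) * cw w = 0 := by linear_combination c - k
    exact_mod_cast mul_self_eq_zero.1 this
  obtain ⟨r, rfl⟩ : ∃ n, r = n + 1 := ⟨r - 1, by omega⟩
  refine ⟨(e0 r, w), Subtype.ext (funext fun i => Fin.cases rfl (fun i => ?_) i)⟩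
  rw [jn_succ, a, h i]; simp

variable {r} in
theorem exc (hr : 0 < r) :
    Exc (cr ((jM χ hχ r M).comp (iB χ hχ r M))) (cr (iB χ hχ r M)) (cr (jM χ hχ r M)) := by
  refine exc_of _ _ _ (fun x => .inl ?_) (fun z => ⟨fun ⟨a, e⟩ => ?_, fun ⟨a, e⟩ => ⟨a, e ▸ rfl⟩⟩)
    fun z z' e => ?_
  · obtain ⟨y, w, rfl⟩ := pt_surj x
    obtain ⟨y, rfl⟩ := jn_onto hr y
    exact ⟨pt (DD χ hχ r) M y w, rfl⟩
  · obtain ⟨y, w, rfl⟩ := pt_surj z
    obtain ⟨g, b, -⟩ := (pt_iff (Y := Sp χ hχ (r + 1))).1 e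
    have c : (χ g : ℂ) * a.1.1.2.1 = y.2.1 := congrArg (fun z : US (r + 1) => z.1 0) b
    exact (mem_iB ..).2 (c ▸ (cw_circ (χ g) _).trans a.2)
  · obtain ⟨y, w, rfl⟩ := pt_surj z
    obtain ⟨y', w', rfl⟩ := pt_surj z'
    refine or_iff_not_imp_right.2 fun a => ?_
    obtain ⟨g, b, c⟩ := (pt_iff (Y := Sp χ hχ (r + 1))).1 e
    obtain ⟨e1, e2⟩ := jn_inj r ((jn_act χ hχ r g y.1 y.2).trans b)
      ((cw_circ (χ g) _).trans_ne fun b => a ((mem_iB ..).2 b))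
    exact pt_iff.2 ⟨g, Prod.ext e1 e2, c⟩

/-- the section of the line bundle given by the new coordinate -/
def sg : C((Sp χ hχ (r + 1)).Q, (Sb (Sp χ hχ (r + 1)) (ch χ hχ)).E) :=
  GS.qmap _ _ ⟨fun u : US (r + 1) =>
    (u, thD ⟨u.1 0, mem_closedBall_zero_iff.2 (u.2.norm_le 0)⟩), continuous_id.prodMk
      (thD.continuous.comp (Continuous.subtype_mk
        ((continuous_apply 0).comp continuous_subtype_val) _))⟩
    fun g u => ⟨g, Prod.ext rfl (thD_act χ hχ g _).symm⟩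

theorem sg_lam : pull (sg χ hχ r) (lam1 _ χ hχ) = 1 - LL χ hχ (r + 1) := by
  rw [lam1_eq hχ (spS0 χ hχ (r + 1)), map_sub, map_one, Sec.H, pull_kc _ (Sec.ln_H hχ _).idem]
  congr 1
  let S := spS0 χ hχ (r + 1)
  let c : C((Sp χ hχ (r + 1)).Q, ℂ) := (Sp χ hχ (r + 1)).lift
    ⟨fun u : US (r + 1) => cw (u.1 0), Complex.continuous_ofReal.comp (cw_cont.comp
      ((continuous_apply 0).comp continuous_subtype_val))⟩ fun g u =>
        congrArg ((↑) : ℝ → ℂ) (cw_circ (χ g) _)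
  refine kc_ln (Matrix.of fun a j => Sum.elim (fun i => c * S.out S i j)
    (fun _ => S.out S (0 : Fin (r + 1)) j) a) fun x => ?_
  obtain ⟨u, rfl⟩ := GS.pr_surj _ x
  let w : UD := ⟨u.1 0, mem_closedBall_zero_iff.2 (u.2.norm_le 0)⟩
  refine ⟨S.wv u (cw w) w, u.1, Sec.un_wv _ _ (by rw [Complex.conj_ofReal, cw_rel]), u.2,
    Sec.op_H2 hχ S S u (Complex.conj_ofReal (cw w)) (al_thD w) (be_thD w) (cw_rel w),
    fun _ _ => rfl, ?_⟩
  rintro (i | i) j
  · exact (mul_assoc _ _ _).symm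
  · rfl

variable {M T r} in
/-- **the Gysin formula** -/
theorem gysin (hr : 0 < r) (f : C(US r × OnePoint M.Z, OnePoint T.Z))
    (hf : ∀ g u w, f ((Sp χ hχ r).act g u, M.sph.act g w) = T.sph.act g (f (u, w)))
    (F : C((Sb (Sp χ hχ r) M).E, (Sb (Sp χ hχ (r + 1)) T).E))
    (hF : ∀ u w, F (pt _ M u w) = pt (Sp χ hχ (r + 1)) T (jn r (u, o)) (f (u, w)))
    (F' : C((Sb (Sp χ hχ (r + 1)) M).E, (Sb (Sp χ hχ (r + 1)) (T.prod (ch χ hχ))).E))
    (hF' : ∀ u c w, F' (pt (Sp χ hχ (r + 1)) M (jn r (u, c)) w) =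
      pt (Sp χ hχ (r + 1)) _ (jn r (u, c)) (wdg (f (u, w), thD c)))
    {l : KS (Sp χ hχ (r + 1)) T} (hl : (Sb _ _).Rd l) {y : KS (Sp χ hχ (r + 1)) M}
    (hy : pull ((jM χ hχ r M).comp (i0 χ hχ r M)) y = pull F l) :
    pull F' (xm l (lam1 _ χ hχ)) = (Sb _ _).sm (1 - LL χ hχ (r + 1)) y := by
  let D := smd (Sp χ hχ (r + 1)) T (ch χ hχ)
  let G : C((Sb (DD χ hχ r) M).E, (Sb (Sp χ hχ (r + 1)) T).E) :=
    GS.qmap _ _ ⟨fun z : (US r × UD) × OnePoint M.Z => (jn r z.1, f (z.1.1, z.2)), by fun_prop⟩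
      fun g z => ⟨g, Prod.ext (jn_act χ hχ r g z.1.1 z.1.2).symm (hf g _ _).symm⟩
  let G1 : C((Sb (DD χ hχ r) M).E, D.P.E) :=
    GS.qmap _ (((Sp χ hχ (r + 1)).prod (ch χ hχ).sph).prod T.sph)
      ⟨fun z : (US r × UD) × OnePoint M.Z => ((jn r z.1, thD z.1.2), f (z.1.1, z.2)), by fun_prop⟩
      fun g z => ⟨g, Prod.ext (Prod.ext (jn_act χ hχ r g z.1.1 z.1.2).symm
        (thD_act χ hχ g z.1.2).symm) (hf g _ _).symm⟩
  let G2 : C((Sb (DD χ hχ r) M).E, D.P.E) :=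
    GS.qmap _ (((Sp χ hχ (r + 1)).prod (ch χ hχ).sph).prod T.sph)
      ⟨fun z : (US r × UD) × OnePoint M.Z => ((jn r z.1, ∞), f (z.1.1, z.2)), by fun_prop⟩
      fun g z => ⟨g, Prod.ext (Prod.ext (jn_act χ hχ r g z.1.1 z.1.2).symm rfl) (hf g _ _).symm⟩
  have key := gys (iB χ hχ r M) (jM χ hχ r M) (exc χ hχ M hr) F'
    ((Sb _ _).s.comp (Sb _ M).p) ((sg χ hχ r).comp (Sb _ M).p) ((Sb _ _).s.comp (Sb _ M).p)
    G1 G2 D.c D.q D.P.p G
    (fun a => congrArg (fun v => pt ((Sp χ hχ (r + 1)).prod (ch χ hχ).sph) T (jn r a.1.1, v)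
      (f (a.1.1.1, a.1.2))) (thD_bd a.2))
    (fun z => by obtain ⟨y, w, rfl⟩ := pt_surj z; exact (hF' y.1 y.2 w).symm)
    (fun z => by
      obtain ⟨y, w, rfl⟩ := pt_surj z
      exact congrArg (pt (Sp χ hχ (r + 1)) _ (jn r y)) (wdg_r _))
    (fun z => by obtain ⟨y, w, rfl⟩ := pt_surj z; rfl)
    (fun z => by obtain ⟨y, w, rfl⟩ := pt_surj z; rfl)
    (fun z => by obtain ⟨y, w, rfl⟩ := pt_surj z; rfl)
    (fun z => by obtain ⟨y, w, rfl⟩ := pt_surj z; rfl)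
    (D.c_mul hl (rd_lam1 hχ)) (by rw [pull_comp, D.rd_mul, map_zero])
    (by rw [pull_comp, rd_lam1 hχ, map_zero]) (y := y) (i0_inj χ hχ r M (by
      rw [← pull_comp, hy, pull_pull _ G F fun z => by
        obtain ⟨y, w, rfl⟩ := pt_surj z; exact (hF y w).symm]))
  rw [pull_comp, sg_lam, mul_comm] at key
  exact key

end Crest.Agent.N218.K.En

end
end

-- ▼ part N218/K/Denl1
section

/-!
# Row 218 (helper86): the classifying map after enlarging `U`
-/

set_option autoImplicit false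
set_option linter.unusedVariables false

open unitInterval Topology Filter Set OnePoint ComplexConjugate

noncomputable section

namespace Crest.Agent.N218.K.En

open Cp

variable {Γ : Type} [Group Γ] [TopologicalSpace Γ] [CompactSpace Γ]

/-- a pointed map whose finite values never point against the problem represents it -/
theorem ht_of_pm {Y : GS Γ} {M : LS Γ} {W : Rep Γ} {P : FP Y M W} (h : P.Ok)
    {g : Y.Z × M.Z → OnePoint W.W} (m : Pm Y M W.ls g) (sub : ∀ z, g z ≠ ∞ → z ∈ P.O)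
    (z1 : ∀ z ∈ P.O, P.f z = 0 → g z ≠ ∞)
    (z2 : ∀ z (v : W.W) (s : ℝ), 0 ≤ s → s ≤ 1 → g z = v → (1 - s) • P.f z + s • v = 0 → P.f z = 0)
    {F : H1 (Sb Y M) (Sb Y W.ls)} (r : Rg F g) : P.hm.Ht F := by
  let Q : FP Y M W := ⟨{z | g z ≠ ∞}, fun z => OnePoint.rec 0 id (g z)⟩
  have e : ∀ z ∈ Q.O, g z = Q.f z := fun z a => by
    obtain ⟨v, b⟩ := ne_infty_iff_exists.1 a
    simp only [Q, ← b]; rfl
  have op : IsOpen Q.O := isClosed_infty.isOpen_compl.preimage m.ct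
  have ct : ContinuousOn Q.f Q.O :=
    isOpenEmbedding_coe.isInducing.continuousOn_iff.2 (m.ct.continuousOn.congr fun z a => (e z a).symm)
  have ac : ∀ γ, ∀ z ∈ Q.O, g (Y.act γ z.1, M.act γ z.2) = (W.ρ γ (Q.f z) : OnePoint W.W) :=
    fun γ z a => (m.eq γ z.1 z.2).trans (congrArg (W.ls.sph.act γ) (e z a))
  have inv : ∀ γ, ∀ z ∈ Q.O, (Y.act γ z.1, M.act γ z.2) ∈ Q.O := fun γ z a =>
    (ac γ z a).trans_ne (coe_ne_infty _)
  have cs : Continuous fun z : I × (Y.Z × M.Z) => (z.1 : ℝ) := by fun_prop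
  have c2 : ContinuousOn (fun z : I × (Y.Z × M.Z) => (1 - (z.1 : ℝ)) • P.f z.2 + (z.1 : ℝ) • Q.f z.2)
      (Prod.snd ⁻¹' Q.O) :=
    ((continuous_const.sub cs).continuousOn.smul
      (h.ct.comp continuousOn_snd fun z a => sub _ a)).add
      (cs.continuousOn.smul (ct.comp continuousOn_snd fun z a => a))
  obtain ⟨a, b, c⟩ := FP.ht_of (⟨Q.O, P.f⟩ : FP Y M W) Q (Prod.snd ⁻¹' Q.O) _
    (op.preimage continuous_snd) (fun γ t x => inv γ x) c2 (fun γ t x a => by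
      simp only [map_add, _root_.map_smul]
      rw [h.eq γ x (sub _ a), coe_injective ((e _ (inv γ x a)).symm.trans (ac γ x a))])
    (cp_of_sub (isCompact_univ.prod h.cp) (fun z a => z1 _ a.2.1 a.2.2) c2 fun z a k =>
      ⟨trivial, sub _ a, z2 _ _ _ z.1.2.1 z.1.2.2 (e _ a) k⟩)
    (fun _ => Iff.rfl) (fun x _ => by simp) (fun _ => Iff.rfl) fun x _ => by simp
  exact ((h.exc a sub (fun _ _ => rfl) z1).tr c).tr (b.proper m e (fun x => not_not.1) r)

variable (χ : Γ →* Circle) (hχ : Continuous χ) (r : ℕ) {X : LS Γ} (V : Rep Γ)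

/-- splitting off the new coordinate -/
def spl : ((TT χ hχ r V).prod (ch χ hχ)).Iso (TT χ hχ (r + 1) V) where
  e :=
    { toFun := fun z : (V.W × (Fin r → ℂ)) × ℂ =>
        ((z.1.1, Fin.cons (-z.2) z.1.2) : V.W × (Fin (r + 1) → ℂ))
      invFun := fun z : V.W × (Fin (r + 1) → ℂ) => ((z.1, fun i => z.2 i.succ), -z.2 0)
      left_inv := fun z : (V.W × (Fin r → ℂ)) × ℂ => Prod.ext rfl (neg_neg z.2)
      right_inv := fun z => Prod.ext rfl (funext fun i => Fin.cases (neg_neg _) (fun _ => rfl) i)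
      continuous_toFun := continuous_fst.fst.prodMk (continuous_pi fun i =>
        Fin.cases continuous_snd.neg (fun i => (continuous_apply i).comp continuous_fst.snd) i)
      continuous_invFun := by fun_prop }
  eq g z := Prod.ext rfl (funext fun i => Fin.cases (mul_neg _ _).symm (fun _ => rfl) i)

variable {V r} in
theorem cl_enl (hr : 0 < r) {P : PB X V} {F} (h : Cl χ hχ r P F) :
    ∃ (f : C(US r × OnePoint X.xr.Z, OnePoint (TT χ hχ r V).Z))
      (F3 : C((Sb (Sp χ hχ (r + 1)) X.xr).E,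
        (Sb (Sp χ hχ (r + 1)) ((TT χ hχ r V).prod (ch χ hχ))).E)) (F' : H1 _ _),
      (∀ g u w, f ((Sp χ hχ r).act g u, X.xr.sph.act g w) = (TT χ hχ r V).sph.act g (f (u, w))) ∧
      (∀ u w, F.f (pt _ _ u w) = pt _ _ u (f (u, w))) ∧
      (∀ u c w, F3 (pt (Sp χ hχ (r + 1)) _ (jn r (u, c)) w) =
        pt (Sp χ hχ (r + 1)) _ (jn r (u, c)) (wdg (f (u, w), thD c))) ∧
      Cl χ hχ (r + 1) P F' ∧ pull F'.f = pull (((spl χ hχ r V).h1 _).f.comp F3) := by
  obtain ⟨P', k, b, l, c, u, v⟩ := h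
  change X.Z → Fin r → ℂ at k
  have pm := u.pm (Dc.tc_ok χ hχ r b.2.1 l)
  let f : C(US r × OnePoint X.xr.Z, OnePoint (TT χ hχ r V).Z) :=
    ⟨opx ((Tc χ hχ r P' k).col c), continuous_opx pm.ct pm.pr⟩
  have hf : ∀ g u w, f ((Sp χ hχ r).act g u, X.xr.sph.act g w) =
      (TT χ hχ r V).sph.act g (f (u, w)) := fun g u w => by
    induction w using OnePoint.rec with
    | infty => rfl
    | coe w => exact pm.eq g u w
  obtain ⟨G, hG⟩ := exists_desc ((jn r).prodMap (.id (OnePoint X.xr.Z)))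
    ((jn_onto hr).prodMap Function.surjective_id)
    (⟨fun z => wdg (f (z.1.1, z.2), thD z.1.2), continuous_wdg.comp (by fun_prop)⟩ :
      C((US r × UD) × OnePoint X.xr.Z, OnePoint ((TT χ hχ r V).prod (ch χ hχ)).Z)) (by
      rintro ⟨⟨u, a⟩, w⟩ ⟨⟨u', a'⟩, w'⟩ e
      obtain ⟨e1, e2⟩ := Prod.ext_iff.1 e
      obtain rfl : w = w' := e2
      obtain rfl : a = a' := Subtype.ext (congrArg (fun z : US (r + 1) => z.1 0) e1)
      by_cases h0 : cw a = 0
      · exact ((congrArg (fun t => wdg (_, t)) (thD_bd h0)).trans (wdg_r _)).trans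
          ((congrArg (fun t => wdg (_, t)) (thD_bd h0)).trans (wdg_r _)).symm
      · rw [(jn_inj r e1 h0).1])
  have hG : ∀ u a w, G (jn r (u, a), w) = wdg (f (u, w), thD a) := fun u a w => hG ((u, a), w)
  let E : EqM (Sp χ hχ (r + 1)) X.xr (Sp χ hχ (r + 1)) ((TT χ hχ r V).prod (ch χ hχ)) id (.id _) :=
    { f := G
      hg := fun _ _ => rfl
      hf := fun γ y w => by
        obtain ⟨⟨u, a⟩, rfl⟩ := jn_onto hr y
        rw [← jn_act]
        refine (hG _ _ _).trans (Eq.trans ?_ (congrArg _ (hG u a w).symm))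
        rw [hf, thD_act]
        exact (wdg_act2 (TT χ hχ r V) (ch χ hχ) γ _ _).symm
      hi := fun y => by
        obtain ⟨⟨u, a⟩, rfl⟩ := jn_onto hr y
        exact hG u a ∞ }
  let B := spl χ hχ r V
  have fe : ∀ (u : US r) (w : X.xr.Z), f (u, w) = sc (E := (V.prod (UU χ hχ r)).W)
      (c (u, w), OnePoint.some ((Tc χ hχ r P' k).f (u, w))) := fun _ _ => rfl
  have fin : ∀ u a (w : X.xr.Z), OnePoint.map B.e (G (jn r (u, a), w)) ≠ ∞ → c (u, w) ≠ 0 ∧
      cw a ≠ 0 ∧ OnePoint.map B.e (G (jn r (u, a), w)) = OnePoint.some ((((c (u, w))⁻¹ • P'.f w.1,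
        Fin.cons (-((cw a : ℂ)⁻¹ * a)) ((c (u, w))⁻¹ • (k w.1 - Real.exp w.2 • u.1))) :
          V.W × (Fin (r + 1) → ℂ))) := fun u a w n => by
    rw [hG] at n ⊢
    have e := fe u w
    have h1 : c (u, w) ≠ 0 := fun h => n (by rw [e, h, sc_zero]; rfl)
    have h2 : cw a ≠ 0 := fun h => n (by rw [thD_bd h, wdg_r]; rfl)
    exact ⟨h1, h2, by rw [e, sc_coe h1, thD_in h2]; rfl⟩
  have m : Pm (Sp χ hχ (r + 1)) X.xr (TT χ hχ (r + 1) V)
      fun z => OnePoint.map B.e (G (z.1, z.2)) := by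
    refine ⟨B.e.onePointCongr.continuous.comp (G.continuous.comp
      (continuous_fst.prodMk (continuous_coe.comp continuous_snd))), fun K' _ =>
      ⟨Prod.snd '' tsupport c, u.cp.image continuous_snd, fun y w w' n e => ?_⟩, fun γ y w => ?_⟩
    · obtain ⟨⟨u, a⟩, rfl⟩ := jn_onto hr y
      exact absurd ⟨(u, w), subset_tsupport _ (fin u a w (e.trans_ne (coe_ne_infty _))).1, rfl⟩ n
    · exact (congrArg (OnePoint.map B.e) (E.hf γ y (OnePoint.some w))).trans ((B.eqm (Sp χ hχ (r + 1))).hf γ y _)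
  obtain ⟨F2, r2⟩ := m.exists_rg
  have l' : P'.Lift (UU χ hχ (r + 1)) fun x => Fin.cons 0 (k x) :=
    ⟨continuousOn_pi.2 fun i => Fin.cases continuousOn_const (continuousOn_pi.1 l.ct) i,
      fun g x a => funext fun i => Fin.cases (mul_zero _).symm (congrFun (l.eq g x a)) i,
      fun x a e => l.nz x a (funext fun i => congrFun e i.succ)⟩
  have ok := Dc.tc_ok χ hχ (r + 1) b.2.1 l'
  have tl : ∀ (u : US r) (a : UD) (w : X.xr.Z), (a : ℂ) = 0 → ∀ i : Fin r,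
      ((Tc χ hχ (r + 1) P' fun x => Fin.cons 0 (k x)).f (jn r (u, a), w)).2 i.succ =
        (k w.1 - Real.exp w.2 • u.1) i := fun u a w h i => by
    change k w.1 i - Real.exp w.2 • ((cw a : ℂ) * u.1 i) = _
    simp [h, cw]
  have ht := ht_of_pm ok m (fun z n => ?_) (fun z a e => ?_) (fun z v s s0 s1 e n => ?_) r2
  · refine ⟨f, E.hm.f, _, hf, Rg.opx v, fun u a w => congrArg (pt (Sp χ hχ (r + 1)) _ (jn r (u, a))) (hG u a w),
      ⟨P', _, b, l', ok.rp_hm⟩, ht.pull_eq.trans (congrArg pull (ContinuousMap.ext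
        (sb_ind (fun y => (F2.f_inf y).trans ?_) fun y w => r2 y w)))⟩
    exact congrArg (fun t => pt _ _ y (OnePoint.map B.e t)) (E.hi y).symm
  · obtain ⟨y, w⟩ := z
    obtain ⟨⟨u', a⟩, rfl⟩ := jn_onto hr y
    exact u.mem (fin u' a w n).1
  · obtain ⟨y, w⟩ := z
    obtain ⟨⟨u', d⟩, rfl⟩ := jn_onto hr y
    have d0 : (d : ℂ) = 0 := by
      have : (0 : ℂ) - Real.exp w.2 • (d : ℂ) = 0 := congrFun (congrArg Prod.snd e) 0
      simpa using this
    have p := u.pos (u', w) a (Prod.ext (congrArg Prod.fst e :) (funext fun i =>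
      (tl u' d w d0 i).symm.trans (congrFun (congrArg Prod.snd e) i.succ)))
    change OnePoint.map B.e (G (jn r (u', d), w)) ≠ ∞
    rw [hG, fe, sc_coe p.ne', thD_in (by simp [d0, cw])]
    exact coe_ne_infty _
  · obtain ⟨y, w⟩ := z
    obtain ⟨⟨u', d⟩, rfl⟩ := jn_onto hr y
    obtain ⟨h1, h2, h3⟩ := fin u' d w (e.trans_ne (coe_ne_infty _))
    obtain rfl := coe_injective (e.symm.trans h3)
    have c0 : 0 < (c (u', w))⁻¹ := inv_pos.2 ((u.nn _).lt_of_ne' h1)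
    have c1 : 0 < (cw d)⁻¹ := inv_pos.2 ((cw_nn _).lt_of_ne' h2)
    have c2 := Real.exp_pos w.2
    have pos : ∀ a b : ℝ, 0 < a → 0 < b → (1 - s) * a + s * b ≠ 0 := fun a b i j => by
      rcases s0.eq_or_lt with t | t
      · rw [← t]; simpa using i.ne'
      · exact (add_pos_of_nonneg_of_pos (mul_nonneg (sub_nonneg.2 s1) i.le) (mul_pos t j)).ne'
    have d0 : (d : ℂ) = 0 := by
      have : (1 - s) • ((0 : ℂ) - Real.exp w.2 • (d : ℂ)) + s • -((cw d : ℂ)⁻¹ * d) = 0 :=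
        congrFun (congrArg Prod.snd n) 0
      refine (smul_eq_zero.1 (show ((1 - s) * Real.exp w.2 + s * (cw d)⁻¹) • (d : ℂ) = 0 from ?_)
        ).resolve_left (pos _ _ c2 c1)
      simp only [Complex.real_smul] at this ⊢
      push_cast at this ⊢
      linear_combination -this
    have k1 : ∀ {E : Type} [AddCommGroup E] [Module ℝ E] (x : E),
        (1 - s) • x + s • (c (u', w))⁻¹ • x = 0 → x = 0 := fun x h =>
      (smul_eq_zero.1 (by rw [add_smul, mul_one, mul_smul, h])).resolve_left (pos 1 _ one_pos c0)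
    refine Prod.ext (k1 _ (congrArg Prod.fst n)) (funext fun i => Fin.cases ?_ (fun i => ?_) i)
    · change (0 : ℂ) - Real.exp w.2 • (d : ℂ) = 0
      simp [d0]
    · refine (tl u' d w d0 i).trans (k1 _ ?_)
      rw [← tl u' d w d0 i]
      refine Eq.trans ?_ (congrFun (congrArg Prod.snd n) i.succ)
      rw [tl u' d w d0 i]
      conv_lhs => rw [← tl u' d w d0 i]
      rw [tl u' d w d0 i]
      exact congrArg (fun t => (1 - s) • t + _) (tl u' d w d0 i).symm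

end Crest.Agent.N218.K.En

end
end

-- ▼ part N218/K/Denl

/-!
# Row 218 (helper86): enlarging `U`
-/

set_option autoImplicit false
set_option linter.unusedVariables false
set_option linter.unusedSectionVars false

open unitInterval Topology Filter Set OnePoint ComplexConjugate Polynomial

noncomputable section

namespace Crest.Agent.N218.K.En

open Cp

section
variable {Γ : Type} [Group Γ] [TopologicalSpace Γ] [CompactSpace Γ] (χ : Γ →* Circle)
  (hχ : Continuous χ) (r : ℕ)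

/-- the inclusion of spheres -/
def ii : C((Sp χ hχ r).Z, (Sp χ hχ (r + 1)).Z) := ⟨fun u : US r => jn r (u, o), by fun_prop⟩

theorem ii_act (g : Γ) (u : US r) :
    ii χ hχ r ((Sp χ hχ r).act g u) = (Sp χ hχ (r + 1)).act g (ii χ hχ r u) :=
  (congrArg (fun c => jn r (_, c)) (Subtype.ext (mul_zero _).symm)).trans (jn_act χ hχ r g u o)

/-- the inclusion of lens spaces -/
def iQ : C((Sp χ hχ r).Q, (Sp χ hχ (r + 1)).Q) :=
  GS.qmap _ _ (ii χ hχ r) fun g z => ⟨g, (ii_act χ hχ r g z).symm⟩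

theorem iQ_LL : pull (iQ χ hχ r) (LL χ hχ (r + 1)) = LL χ hχ r :=
  (spS0 χ hχ (r + 1)).pull_L (spS0 χ hχ r) _ (ii χ hχ r) (fun _ => rfl) fun g y i => by
    rw [ii_act]; rfl

theorem iQ_ev (a : ℤ[X]) : pull (iQ χ hχ r) (ev χ hχ (r + 1) a) = ev χ hχ r a := by
  rw [ev, ev, ← iQ_LL χ hχ r]
  exact (aeval_algHom_apply (pull (iQ χ hχ r)).toIntAlgHom _ a).symm

variable (M : LS Γ)

theorem mp_i : Mp (ii χ hχ r) id ((jM χ hχ r M).comp (i0 χ hχ r M)) := fun _ _ => rfl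

/-- the inclusion of sphere bundles -/
def iH : Hm (Sb (Sp χ hχ r) M) (Sb (Sp χ hχ (r + 1)) M) (iQ χ hχ r) :=
  (mp_i χ hχ r M).hm rfl _ fun _ => rfl
end

section
variable {Γ : Type} [Group Γ] [Fintype Γ] [TopologicalSpace Γ] [DiscreteTopology Γ]
  {χ : Γ →* Circle} {r : ℕ}

theorem gd (hi : Function.Injective χ) (r : ℕ) : Gd (Sp χ (cc χ) r) := fun ψ _ => by
  obtain ⟨k, rfl⟩ := Kl.chr_pow hi ψ
  exact sec_pow ⟨spS0 χ (cc χ) r⟩ k

theorem unit_up (hK : KLN) (hi : Function.Injective χ) (hr : 0 < r) {b : ℤ[X]}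
    (h : IsUnit (ev χ (cc χ) r b)) : IsUnit (ev χ (cc χ) (r + 1) b) := by
  obtain ⟨w, e⟩ := h.exists_right_inv
  obtain ⟨b', rfl⟩ := (hK χ r hi hr).1 w
  obtain ⟨s, t, e'⟩ := Ideal.mem_span_pair.1 (((hK χ r hi hr).2.1 (b * b' - 1)).1
    (by rw [map_sub, map_mul, e, map_one, sub_self]))
  have z := (hK χ (r + 1) hi r.succ_pos).2.1
  have n : IsNilpotent (ev χ (cc χ) (r + 1) (1 - X)) :=
    ⟨r + 1, by rw [← map_pow]; exact (z _).2 (Ideal.subset_span (.inl rfl))⟩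
  have k : ev χ (cc χ) (r + 1) b * ev χ (cc χ) (r + 1) b' =
      1 + ev χ (cc χ) (r + 1) s * ev χ (cc χ) (r + 1) (1 - X) ^ r := by
    rw [← map_mul, sub_eq_iff_eq_add.1 e'.symm, map_add, map_add, map_mul, map_mul, map_pow,
      (z _).2 (Ideal.subset_span (.inr rfl)), map_one, mul_zero, add_zero]
    exact add_comm _ _
  refine isUnit_of_mul_isUnit_left (y := ev χ (cc χ) (r + 1) b') (k ▸ IsNilpotent.isUnit_one_add ?_)
  exact (Commute.all _ _).isNilpotent_mul_left (n.pow_of_pos hr.ne')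
end

end En

open En Cp

/-- **DENL** -/
theorem denl (T : THOM1) (hK : KLN) : DENL := by
  intro Γ _ _ _ _ χ r X V hi hr hX hV lS lT lS' lT' tS tT tS' tT'
  obtain ⟨l1, u1⟩ := (cx_tt χ (cc χ) r hV).ut T (gd hi (r + 1))
  obtain ⟨v, v', hv, e1, -⟩ := (u1.th_l (T _ _ χ (cc χ) ⟨spS0 χ (cc χ) (r + 1)⟩)).unit
    (th_iso (spl χ (cc χ) r V) (F := ((spl χ (cc χ) r V).h1 _).f) (fun _ _ => rfl) tT')
  obtain ⟨v1, v1', hv1, e2, -⟩ := tT.unit (u1.base (ii χ (cc χ) r) (ii_act χ (cc χ) r)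
    (F := (iH χ (cc χ) r _).f) (mp_i χ (cc χ) r _))
  obtain ⟨v2, v2', hv2, e3, -⟩ := ((ut_of_th T (gd hi (r + 1)) hX tS').base (ii χ (cc χ) r)
    (ii_act χ (cc χ) r) (F := (iH χ (cc χ) r _).f) (mp_i χ (cc χ) r _)).unit tS
  obtain ⟨b, hb⟩ := (hK χ r hi hr).1 (v1 * v2)
  obtain ⟨c, hc⟩ := (hK χ (r + 1) hi r.succ_pos).1 v
  refine ⟨b * c, ?_, fun P a ⟨F, hF, hy⟩ => ?_⟩
  · rw [map_mul, hc]
    refine (unit_up hK hi hr ?_).mul (.of_mul_eq_one _ hv)
    rw [hb]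
    exact (IsUnit.of_mul_eq_one _ hv1).mul (.of_mul_eq_one _ hv2)
  obtain ⟨f, F3, F', hf, hF1, hF3, cl, e⟩ := cl_enl χ (cc χ) hr hF
  refine ⟨F', cl, ?_⟩
  have g := gysin χ (cc χ) hr f hf ((iH χ (cc χ) r _).f.comp F.f)
    (fun u w => congrArg (iH χ (cc χ) r _).f (hF1 u w)) F3 hF3 u1.1
    (y := (Sb _ _).sm (ev χ (cc χ) (r + 1) (a * b)) lS') (by
      refine ((iH χ (cc χ) r _).pull_sm _ _).trans ?_
      rw [pull_comp F.f, e2, F.pull_sm, pull_id, hy, e3, iQ_ev, map_mul, hb, Ex.sm_sm, Ex.sm_sm]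
      congr 1; ring)
  have k : ∀ x, pull F3 ((Sb _ _).sm v x) = (Sb _ _).sm v (pull F3 x) := fun x => by
    unfold Ex.sm
    rw [map_mul, pull_pull F3 _ (Sb _ _).p fun z => ?_]
    obtain ⟨y, w, rfl⟩ := pt_surj z
    obtain ⟨⟨u, d⟩, rfl⟩ := jn_onto hr y
    rw [hF3]; rfl
  rw [e, pull_comp, e1, k, g, Ex.sm_sm, Ex.sm_sm, map_mul, map_mul, map_mul, map_mul, hc, map_sub,
    map_one, show ev χ (cc χ) (r + 1) Polynomial.X = LL χ (cc χ) (r + 1) from aeval_X _]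
  congr 1; ring

end Crest.Agent.N218.K

end
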