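import Crest.Agent.N218.K.Pb
import Crest.Agent.N218.K.Ln
import Crest.Agent.N218.K.Sus
import Crest.Agent.N218.Al.Orb

/-!
# Row 218, block D1 (helper34): the invariants `d` and `e` and their axioms (FROZEN statements)
-/

set_option autoImplicit false
set_option linter.unusedVariables false

open unitInterval Topology Filter Set OnePoint Polynomial Module ComplexConjugate

noncomputable section

namespace Crest.Agent.N218.K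

/-- `ℚ / ℤ_(2)` -/
abbrev QQ : Type := ℚ ⧸ Al.O2.toAddSubgroup
/-- polynomials in `L` as series in `t = 1 - L` -/
def iS : ℤ[X] →ₐ[ℤ] Al.S := aeval Al.L

section defs
variable {Γ Γ' : Type} [Group Γ] [TopologicalSpace Γ] [Group Γ'] [TopologicalSpace Γ']
  [CompactSpace Γ] [CompactSpace Γ']

/-- spaces homeomorphic to a sum of characters -/
def Cx (W : LS Γ) : Prop :=
  ∃ (n : ℕ) (χ : Fin n → Γ →* Circle) (h : ∀ i, Continuous (χ i)), Nonempty (W.Iso (Rep.wt χ h).ls)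

/-- `G` is induced by `a` and `b` -/
def Mp {Y' : GS Γ'} {M' : LS Γ'} {Y : GS Γ} {M : LS Γ} (a : Y'.Z → Y.Z)
    (b : OnePoint M'.Z → OnePoint M.Z) (G : C((Sb Y' M').E, (Sb Y M).E)) : Prop :=
  ∀ y w, G (pt Y' M' y w) = pt Y M (a y) (b w)

/-- normalised pairs of Thom classes -/
structure Ori (Y : GS Γ) (S T : LS Γ) (a b : KX Y.Q) where
  lS : KS Y S
  lT : KS Y T
  rS : KX Y.Q
  rT : KX Y.Q
  tS : (Sb Y S).Th lS
  tT : (Sb Y T).Th lT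
  pS : ps _ lS = (Sb Y S).sm rS lS
  pT : ps _ lT = (Sb Y T).sm rT lT
  nm : rS * a = b * rT

variable (χ : Γ →* Circle) (hχ : Continuous χ) (r : ℕ)

/-- the line bundle on the lens space -/
def LL : KX (Sp χ hχ r).Q :=
  kc (Matrix.of fun i j : Fin r => (Sp χ hχ r).lift
    ⟨fun u : US r => u.1 i * conj (u.1 j), ((continuous_apply i).comp continuous_subtype_val).mul
      (Complex.continuous_conj.comp ((continuous_apply j).comp continuous_subtype_val))⟩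
    fun g (u : US r) => by
      change ((χ g : ℂ) * u.1 i) * conj ((χ g : ℂ) * u.1 j) = u.1 i * conj (u.1 j)
      rw [map_mul]; linear_combination (u.1 i * conj (u.1 j)) * circ_conj (χ g))
/-- the presentation -/
def ev : ℤ[X] →ₐ[ℤ] KX (Sp χ hχ r).Q := aeval (LL χ hχ r)
/-- `ρ³ (r L)` -/
def rU : KX (Sp χ hχ r).Q := ev χ hχ r ((1 + X + X ^ 2) ^ r)

variable {X : LS Γ} {V : Rep Γ}

/-- the dual problem over the lens space -/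
def Tc (P : PB X V) (k : X.Z → Fin r → ℂ) : FP (Sp χ hχ r) X.xr (V.prod (UU χ hχ r)) :=
  P.Th (UU χ hχ r) k (Sp χ hχ r) fun u : US r => u.1

/-- the target -/
abbrev TT (V : Rep Γ) : LS Γ := (V.prod (UU χ hχ r)).ls

/-- `F` classifies `P` -/
def Cl (P : PB X V) (F : H1 (Sb (Sp χ hχ r) X.xr) (Sb (Sp χ hχ r) (TT χ hχ r V))) : Prop :=
  ∃ P' k, P.Bd P' ∧ P'.Lift (UU χ hχ r) k ∧ (Tc χ hχ r P' k).Rp F

/-- the primary invariant -/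
def Dg (P : PB X V) (l : KS (Sp χ hχ r) (TT χ hχ r V)) (y : KS (Sp χ hχ r) X.xr) : Prop :=
  ∃ F, Cl χ hχ r P F ∧ pull F.f l = y

/-- the secondary invariant -/
def Eg (P : PB X V) (l : KS (Sp χ hχ r) (TT χ hχ r V)) (ρ : KX (Sp χ hχ r).Q)
    (x : KS (Sp χ hχ r) X.xr.xr) : Prop :=
  ∃ F, Cl χ hχ r P F ∧ Ecl F (sd _ _) l ρ x

/-- orientations for `e` (relative dimension `12`) -/
abbrev OE (X : LS Γ) (V : Rep Γ) := Ori (Sp χ hχ 7) X.xr.xr (TT χ hχ 7 V) (rU χ hχ 7) (3 ^ 7)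
/-- orientations for `d` (relative dimension `5`) -/
abbrev OD (X : LS Γ) (V : Rep Γ) := Ori (Sp χ hχ 7) X.xr (TT χ hχ 7 V) (rU χ hχ 7) (3 ^ 3)

/-- the value of `e` -/
def EV (o : OE χ hχ X V) (P : PB X V) (φ : QQ) : Prop :=
  ∃ (e : KX (Sp χ hχ 7).Q) (N : ℕ) (a : ℤ[X]), Eg χ hχ 7 P o.lT o.rT ((Sb _ _).sm e o.lS) ∧
    ev χ hχ 7 a * o.rS = 3 ^ N * e ∧ φ = ((Al.ph (iS a) / 3 ^ N : ℚ) : QQ)

/-- the value of `d` -/
def DV (o : OD χ hχ X V) (P : PB X V) (φ : QQ) : Prop :=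
  ∃ a : ℤ[X], Dg χ hχ 7 P o.lT ((Sb _ _).sm (ev χ hχ 7 a) o.lS) ∧
    φ = ((Al.ph (Al.r ^ 7 * iS a) : ℚ) : QQ)

end defs

section ai
variable {Γ : Type} [Group Γ] [TopologicalSpace Γ]

/-- cyclic `2`-groups of large order -/
structure Gq [Fintype Γ] (χ : Γ →* Circle) : Prop where
  inj : Function.Injective χ
  card : ∃ k, 17 ≤ k ∧ Fintype.card Γ = 2 ^ k

/-- `X ≅ ℝ^m × V` -/
def Adm (m : ℕ) (X V : Rep Γ) : Prop := Nonempty (X.Iso ((Rep.triv Γ (Fin m → ℝ)).prod V))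

/-- stabilisation -/
def PB.st {X V : Rep Γ} (P : PB X.ls V) (W : Rep Γ) : PB (X.prod W).ls (V.prod W) :=
  P.prod (PB.id W)

/-- continuity of characters -/
theorem cc {Γ : Type} [TopologicalSpace Γ] [DiscreteTopology Γ] {T : Type} [TopologicalSpace T] (χ : Γ → T) : Continuous χ :=
  continuous_of_discreteTopology

/-- maps covering the projection of lens spaces -/
abbrev RS {Γ' : Type} [Group Γ'] [Fintype Γ'] [TopologicalSpace Γ'] [DiscreteTopology Γ']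
    [Fintype Γ] [DiscreteTopology Γ] (χ : Γ →* Circle) (φ : Γ' →* Γ) (r : ℕ) (M : LS Γ)
    (M' : LS Γ') : Type :=
  C((Sb (Sp (χ.comp φ) (cc _) r) M').E, (Sb (Sp χ (cc χ) r) M).E)
/-- the map is the identity on representatives -/
def RS.Ok {Γ' : Type} [Group Γ'] [Fintype Γ'] [TopologicalSpace Γ'] [DiscreteTopology Γ']
    [Fintype Γ] [DiscreteTopology Γ] {χ : Γ →* Circle} {φ : Γ' →* Γ} {r : ℕ} {M : LS Γ}
    {M' : LS Γ'} (G : RS χ φ r M M') (b : OnePoint M'.Z → OnePoint M.Z) : Prop :=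
  Mp (Y' := Sp (χ.comp φ) (cc _) r) (Y := Sp χ (cc χ) r) (fun y => y) b G

end ai

set_option hygiene false in
/-- quantify over finite groups with a character -/
local macro "∀G " χ:ident ", " t:term : term =>
  `(∀ {Γ : Type} [Group Γ] [Fintype Γ] [TopologicalSpace Γ] [DiscreteTopology Γ]
    ($χ : Γ →* Circle), $t)
set_option hygiene false in
/-- quantify over a second finite group -/
local macro "∀H " φ:ident ", " t:term : term =>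
  `(∀ {Γ' : Type} [Group Γ'] [Fintype Γ'] [TopologicalSpace Γ'] [DiscreteTopology Γ']
    ($φ : Γ' →* Γ), $t)

/-- **abstract invariants** of free problems of relative dimension `m` -/
structure AI (m : ℕ) where
  ν : ∀G χ, ∀ X V : Rep Γ, PB X.ls V → QQ
  bd : ∀G χ, ∀ X V : Rep Γ, Gq χ → Adm m X V → ∀ P Q, P.Bd Q → ν χ X V P = ν χ X V Q
  emp : ∀G χ, ∀ X V : Rep Γ, Gq χ → Adm m X V → ∀ P, P.Fr → P.Z = ∅ → ν χ X V P = 0
  sum : ∀G χ, ∀ X V : Rep Γ, Gq χ → Adm m X V → ∀ (P : PB X.ls V) (U U' : Set X.W), P.Fr →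
    (P.on U).Fr → (P.on U').Fr → Disjoint U U' → P.Z ⊆ U ∪ U' →
    ν χ X V P = ν χ X V (P.on U) + ν χ X V (P.on U')
  iso : ∀G χ, ∀ X V X' V' : Rep Γ, Gq χ → Adm m X V → Adm m X' V' →
    ∀ (A : X'.ls.Iso X.ls) (B : V.Iso V'), ∃ s : ℤˣ, ∀ P, P.Fr → ν χ X' V' (P.iso A B) = s • ν χ X V P
  stb : ∀G χ, ∀ X V W : Rep Γ, Gq χ → Adm m X V →
    ∃ s : ℤˣ, ∀ P, P.Fr → ν χ (X.prod W) (V.prod W) (P.st W) = s • ν χ X V P
  res : ∀G χ, ∀H φ, ∀ X V : Rep Γ, Gq χ → Gq (χ.comp φ) → Adm m X V →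
    ∃ s : ℤˣ, ∀ P, P.Fr → ν (χ.comp φ) (X.res φ (cc φ)) (V.res φ (cc φ)) (P.res φ (cc φ)) =
      s • ν χ X V P
  den : ∀G χ, ∀ X V : Rep Γ, ∀ P, 32 • ν χ X V P = 0

/-- **D1 output, e-level** -/
def INVE : Prop := ∃ J : AI 12, ∀G χ, ∀ X V : Rep Γ, Gq χ → Adm 12 X V → Cx V.ls →
  ∀ o : OE χ (cc χ) X.ls V, ∃ s : ℤˣ, ∀ P φ, EV χ (cc χ) o P φ → J.ν χ X V P = s • φ
/-- **D1 output, d-level** -/
def INVD : Prop := ∃ J : AI 5, ∀G χ, ∀ X V : Rep Γ, Gq χ → Adm 5 X V → Cx V.ls →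
  ∀ o : OD χ (cc χ) X.ls V, ∃ s : ℤˣ, ∀ P φ, DV χ (cc χ) o P φ → J.ν χ X V P = s • φ

/-! ## leaves: general position -/

/-- existence of cycles, inside `P.O` -/
def CLE : Prop := ∀G χ, ∀ (r : ℕ) (X V : Rep Γ), finrank ℝ X.W < finrank ℝ V.W + 2 * r →
  ∀ P : PB X.ls V, P.Fr → ∃ (P' : PB X.ls V) (k : X.W → Fin r → ℂ) (H : PB X.ls.cy V),
    P'.Fr ∧ P'.O = P.O ∧ H.O = Prod.fst ⁻¹' P.O ∧ H.Ok (Prod.fst ⁻¹' X.ls.fr) ∧ (H.sl 0).Le P ∧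
      (H.sl 1).Le P' ∧ P'.Lift (UU χ (cc χ) r) k
/-- uniqueness of the classifying map -/
def CLU : Prop := ∀G χ, ∀ (r : ℕ) (X V : Rep Γ), finrank ℝ X.W + 1 < finrank ℝ V.W + 2 * r →
  ∀ (P : PB X.ls V) F F', Cl χ (cc χ) r P F → Cl χ (cc χ) r P F' → F.Ht F'

/-! ## leaves: the primary class -/

/-- additivity -/
def DSUM : Prop := ∀G χ, ∀ (r : ℕ) (X V : Rep Γ), finrank ℝ X.W < finrank ℝ V.W + 2 * r →
  ∀ (P : PB X.ls V) (U U' : Set X.W), P.Fr → (P.on U).Fr → (P.on U').Fr → Disjoint U U' →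
  P.Z ⊆ U ∪ U' → ∀ l, (Sb _ _).Rd l → ∃ y y', Dg χ (cc χ) r (P.on U) l y ∧
    Dg χ (cc χ) r (P.on U') l y' ∧ Dg χ (cc χ) r P l (y + y')
/-- pull-back along proper equivariant maps (Euler, source isomorphisms) -/
def DCM : Prop := ∀G χ, ∀ (r : ℕ) (X X' : LS Γ) (V : Rep Γ) (j : X'.Z → X.Z), IsProperMap j →
  (∀ g x, j (X'.act g x) = X.act g (j x)) → ∃ G, Mp id (OnePoint.map (Prod.map j id)) G ∧
    ∀ (P : PB X V) l y, Dg χ (cc χ) r P l y → Dg χ (cc χ) r (P.comap j) l (pull G y)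
/-- transfer -/
def DTRF : Prop := ∀G χ, ∀H φ, ∀ (r m : ℕ) (X V : Rep Γ), Function.Injective χ →
  Function.Injective φ → Fintype.card Γ = Fintype.card Γ' * m →
  finrank ℝ X.W + 1 < finrank ℝ V.W + 2 * r → ∀ (P : PB X.ls V) (U : Set X.W), P.Fr →
  ((P.res φ (cc φ)).on U).Fr → (∀ g, ∀ x ∈ U, X.ρ g x ∈ U → g ∈ φ.range) →
  (∀ x ∈ P.Z, ∃ g, X.ρ g x ∈ U) → ∀ (G : RS χ φ r X.ls.xr (X.ls.res φ (cc φ)).xr)
    (G' : RS χ φ r (TT χ (cc χ) r V) (TT (χ.comp φ) (cc _) r (V.res φ (cc φ)))),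
    G.Ok (fun w => w) → G'.Ok (fun w => w) → ∀ l y, (Sb _ _).Rd l →
    Dg (χ.comp φ) (cc _) r ((P.res φ (cc φ)).on U) (pull G' l) (pull G y) →
    Dg χ (cc χ) r P l ((Sb _ _).sm
      (∑ j ∈ Finset.range m, LL χ (cc χ) r ^ (Fintype.card Γ' * j)) y)
/-- enlarging `U` -/
def DENL : Prop := ∀G χ, ∀ (r : ℕ) (X V : Rep Γ), Function.Injective χ → 0 < r →
  Cx X.ls.xr → Cx V.ls → ∀ lS lT lS' lT', (Sb _ _).Th lS → (Sb _ _).Th lT → (Sb _ _).Th lS' →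
  (Sb _ _).Th lT' → ∃ u : ℤ[X], IsUnit (ev χ (cc χ) (r + 1) u) ∧ ∀ (P : PB X.ls V) (a : ℤ[X]),
    Dg χ (cc χ) r P lT ((Sb _ _).sm (ev χ (cc χ) r a) lS) →
    Dg χ (cc χ) (r + 1) P lT' ((Sb _ _).sm (ev χ (cc χ) (r + 1) ((1 - Polynomial.X) * a * u)) lS')

/-! ## leaves: K-theory of lens spaces, Thom classes -/

/-- the presentation of `K (lens)` -/
def KLN : Prop := ∀G χ, ∀ r : ℕ, Function.Injective χ → 0 < r →
  Function.Surjective (ev χ (cc χ) r) ∧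
  (∀ a, ev χ (cc χ) r a = 0 ↔ a ∈ Ideal.span {(1 - X) ^ r, X ^ Fintype.card Γ - 1}) ∧
  ∀ a, ps _ (ev χ (cc χ) r a) = ev χ (cc χ) r (expand ℤ 3 a)
/-- complexifications are sums of characters -/
def CX2 : Prop := ∀G χ, Function.Injective χ → ∀ V : Rep Γ, Cx (V.prod V).ls
/-- orientations exist; the eigenvalues divide a power of `3` -/
def OEX : Prop := ∀G χ, ∀ X V : Rep Γ, Gq χ → Cx V.ls →
  (Adm 12 X V → Nonempty (OE χ (cc χ) X.ls V) ∧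
    ∀ o : OE χ (cc χ) X.ls V, ∃ N c, o.rS * c = 3 ^ N) ∧
  (Adm 5 X V → Nonempty (OD χ (cc χ) X.ls V) ∧
    ∀ o : OD χ (cc χ) X.ls V, ∃ N c, o.rS * c = 3 ^ N)
/-- `ψ`-invariant units act by signs -/
def UNIT : Prop := ∀ k : ℕ, 17 ≤ k → ∀ w w' : ℤ[X],
  w * w' - 1 ∈ Ideal.span {(1 - X : ℤ[X]) ^ 7, X ^ 2 ^ k - 1} →
  expand ℤ 3 w - w ∈ Ideal.span {(1 - X : ℤ[X]) ^ 7, X ^ 2 ^ k - 1} →
  ∃ s : ℤˣ, ∀ h ∈ Al.OS, Al.ph (iS w * h) - (s : ℤ) * Al.ph h ∈ Al.O2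

/-! ## leaves: the secondary class -/

/-- the pull-back of the Thom class vanishes -/
def KILL : Prop := ∀G χ, ∀ X V : Rep Γ, Gq χ → Adm 12 X V → Cx V.ls →
  ∀ (o : OE χ (cc χ) X.ls V) (y : KS (Sp χ (cc χ) 7) X.ls.xr), (Sb _ _).Rd y →
    ps _ y = (Sb _ _).sm o.rT y → y = 0
/-- existence -/
def EEX : Prop := ∀ {B : Type} [TopologicalSpace B] {A T S : Ex B} (F : H1 A T) (D : SD A S)
  (l : KX T.E) (ρ : KX B), T.Rd l → pull F.f l = 0 → ps _ l = T.sm ρ l → ∃ x, Ecl F D l ρ x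
/-- homotopy invariance -/
def EHT : Prop := ∀ {B : Type} [TopologicalSpace B] {A T S : Ex B} (F F' : H1 A T) (D : SD A S)
  (l : KX T.E) (ρ : KX B) (x : KX S.E), F.Ht F' → Ecl F D l ρ x → Ecl F' D l ρ x
/-- indeterminacy -/
def EUN : Prop := ∀ {Γ : Type} [Group Γ] [Fintype Γ] [TopologicalSpace Γ] [DiscreteTopology Γ]
  (χ : Γ →* Circle) (r : ℕ) (M T : LS Γ), Function.Injective χ → Cx T →
  ∀ (F : H1 (Sb (Sp χ (cc χ) r) M) (Sb (Sp χ (cc χ) r) T)) l ρ x x',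
    (Sb _ _).Th l → pull F.f l = 0 → Ecl F (sd _ _) l ρ x → Ecl F (sd _ _) l ρ x' →
    ∃ y, (Sb _ _).Rd y ∧ x - x' = ps _ y - (Sb _ _).sm ρ y
/-- additivity -/
def ESUM : Prop := ∀G χ, ∀ (r : ℕ) (X V : Rep Γ), finrank ℝ X.W < finrank ℝ V.W + 2 * r →
  ∀ (P : PB X.ls V) (U U' : Set X.W), P.Fr → (P.on U).Fr → (P.on U').Fr → Disjoint U U' →
  P.Z ⊆ U ∪ U' → ∀ l ρ, (Sb _ _).Rd l → ps _ l = (Sb _ _).sm ρ l →
  (∀ F : H1 (Sb _ X.ls.xr) (Sb _ _), pull F.f l = 0) → ∃ x x', Eg χ (cc χ) r (P.on U) l ρ x ∧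
    Eg χ (cc χ) r (P.on U') l ρ x' ∧ Eg χ (cc χ) r P l ρ (x + x')
/-- no zeros -/
def EMP : Prop := ∀G χ, ∀ (r : ℕ) (X : LS Γ) (V : Rep Γ) (P : PB X V), P.Fr → P.Z = ∅ →
  ∀ l ρ, (Sb _ _).Rd l → ps _ l = (Sb _ _).sm ρ l → Dg χ (cc χ) r P l 0 ∧ Eg χ (cc χ) r P l ρ 0
/-- change of coordinates -/
def VISO : Prop := ∀G χ, ∀ (X X' : LS Γ) (V V' : Rep Γ) (A : X'.Iso X) (B : V.Iso V'),
  (∀ o : OE χ (cc χ) X V, ∃ o' : OE χ (cc χ) X' V', ∀ P φ, EV χ _ o P φ → EV χ _ o' (P.iso A B) φ) ∧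
  (∀ o : OD χ (cc χ) X V, ∃ o' : OD χ (cc χ) X' V', ∀ P φ, DV χ _ o P φ → DV χ _ o' (P.iso A B) φ)
/-- stabilisation -/
def VSTB : Prop := ∀G χ, ∀ X V W : Rep Γ, Gq χ → Cx V.ls → Cx W.ls →
  (Adm 12 X V → ∀ o : OE χ (cc χ) X.ls V, ∃ o' : OE χ (cc χ) (X.prod W).ls (V.prod W),
    ∀ P φ, EV χ _ o P φ → EV χ _ o' (P.st W) φ) ∧
  (Adm 5 X V → ∀ o : OD χ (cc χ) X.ls V, ∃ o' : OD χ (cc χ) (X.prod W).ls (V.prod W),
    ∀ P φ, DV χ _ o P φ → DV χ _ o' (P.st W) φ)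
/-- restriction -/
def VRES : Prop := ∀G χ, ∀H φ, ∀ X V : Rep Γ, Function.Injective χ → Function.Injective φ →
  Cx V.ls →
  (Adm 12 X V → ∀ o : OE χ (cc χ) X.ls V,
    ∃ o' : OE (χ.comp φ) (cc _) (X.res φ (cc φ)).ls (V.res φ (cc φ)),
    ∀ P a, EV χ _ o P a → EV (χ.comp φ) _ o' (P.res φ (cc φ)) a) ∧
  (Adm 5 X V → ∀ o : OD χ (cc χ) X.ls V,
    ∃ o' : OD (χ.comp φ) (cc _) (X.res φ (cc φ)).ls (V.res φ (cc φ)),
    ∀ P a, DV χ _ o P a → DV (χ.comp φ) _ o' (P.res φ (cc φ)) a)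

end Crest.Agent.N218.K

end
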