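import Crest.Agent.R204.Ex4_837
import Crest.Agent.R204.HInv_313
import Crest.Agent.N218.K.Defs

-- ▼ part N218/K/Pw
section

/-!
# N218/K/Pw: algebra homomorphisms into function algebras, defined point by point (helper94)

* `Pw.hom χ hc` : from a family of characters `χ y : A →ₐ[ℂ] ℂ`, continuous in `y`, the algebra
  homomorphism `A →ₐ[ℂ] C(Y, ℂ)`;
* `Pw.htp` : homotopy invariance of `K0` for homomorphisms into a closed subalgebra of `C(Y, ℂ)`;
* `Pw.htp2` : the same for subalgebras of `C(Y, ℂ) × C(Y', ℂ)`;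
* `up`, `dn`, `sc` : reparametrisations of the unit interval.
-/

set_option autoImplicit false

open scoped unitInterval
open Crest.Agent.R204 Crest.Agent.R204.K357

noncomputable section

namespace Crest.Agent.N218.Pw

variable {A : Type*} [CommRing A] [Algebra ℂ A] {Y Y' : Type*} [TopologicalSpace Y]
  [TopologicalSpace Y']

/-- an algebra homomorphism into `C(Y, ℂ)` from a continuous family of characters -/
def hom (χ : Y → A →ₐ[ℂ] ℂ) (hc : ∀ a, Continuous fun y => χ y a) : A →ₐ[ℂ] C(Y, ℂ) where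
  toFun a := ⟨fun y => χ y a, hc a⟩
  map_one' := by ext y; simp
  map_mul' a b := by ext y; simp
  map_zero' := by ext y; simp
  map_add' a b := by ext y; simp
  commutes' c := by ext y; simp

@[simp] theorem hom_apply (χ : Y → A →ₐ[ℂ] ℂ) (hc : ∀ a, Continuous fun y => χ y a) (a : A)
    (y : Y) : hom χ hc a y = χ y a := rfl

theorem cont_slice (χ : I → Y → A →ₐ[ℂ] ℂ) (hc : ∀ a, Continuous fun z : I × Y => χ z.1 z.2 a)
    (t : I) (a : A) : Continuous fun y => χ t y a :=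
  (hc a).comp (Continuous.prodMk continuous_const continuous_id)

theorem cont_fam [CompactSpace Y] (χ : I → Y → A →ₐ[ℂ] ℂ)
    (hc : ∀ a, Continuous fun z : I × Y => χ z.1 z.2 a) (a : A) :
    Continuous fun t => hom (χ t) (cont_slice χ hc t) a :=
  ContinuousMap.continuous_of_continuous_uncurry _ (hc a)

/-- homotopy invariance, target `C(Y, ℂ)` -/
theorem htp0 [CompactSpace Y] (χ : I → Y → A →ₐ[ℂ] ℂ)
    (hc : ∀ a, Continuous fun z : I × Y => χ z.1 z.2 a) (φ₀ φ₁ : A →+* C(Y, ℂ))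
    (h0 : ∀ a y, φ₀ a y = χ 0 y a) (h1 : ∀ a y, φ₁ a y = χ 1 y a) (x : K0 A) :
    K0.map φ₀ x = K0.map φ₁ x := by
  have key := HInv313.map_apply_eq_of_homotopy (A := A) (B := C(Y, ℂ))
    (fun t => (hom (χ t) (cont_slice χ hc t) : A →+* C(Y, ℂ))) (cont_fam χ hc) x
  have e0 : φ₀ = (hom (χ 0) (cont_slice χ hc 0) : A →+* C(Y, ℂ)) := by
    ext a y; exact h0 a y
  have e1 : φ₁ = (hom (χ 1) (cont_slice χ hc 1) : A →+* C(Y, ℂ)) := by
    ext a y; exact h1 a y
  rw [e0, e1]; exact key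

/-- homotopy invariance, target a closed subalgebra of `C(Y, ℂ)` -/
theorem htp [CompactSpace Y] (S : Subalgebra ℂ C(Y, ℂ)) [CompleteSpace S]
    (χ : I → Y → A →ₐ[ℂ] ℂ) (hc : ∀ a, Continuous fun z : I × Y => χ z.1 z.2 a)
    (hm : ∀ t a, hom (χ t) (cont_slice χ hc t) a ∈ S) (φ₀ φ₁ : A →+* S)
    (h0 : ∀ a y, (φ₀ a : C(Y, ℂ)) y = χ 0 y a) (h1 : ∀ a y, (φ₁ a : C(Y, ℂ)) y = χ 1 y a)
    (x : K0 A) : K0.map φ₀ x = K0.map φ₁ x := by
  have key := HInv313.map_apply_eq_of_homotopy (A := A) (B := S)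
    (fun t => ((hom (χ t) (cont_slice χ hc t)).codRestrict S (hm t) : A →+* S))
    (fun a => (cont_fam χ hc a).subtype_mk _) x
  have e0 : φ₀ = ((hom (χ 0) (cont_slice χ hc 0)).codRestrict S (hm 0) : A →+* S) := by
    ext a y; exact h0 a y
  have e1 : φ₁ = ((hom (χ 1) (cont_slice χ hc 1)).codRestrict S (hm 1) : A →+* S) := by
    ext a y; exact h1 a y
  rw [e0, e1]; exact key

/-- homotopy invariance, target a closed subalgebra of `C(Y, ℂ) × C(Y', ℂ)` -/
theorem htp2 [CompactSpace Y] [CompactSpace Y'] (S : Subalgebra ℂ (C(Y, ℂ) × C(Y', ℂ)))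
    [CompleteSpace S] (χ : I → Y → A →ₐ[ℂ] ℂ) (hc : ∀ a, Continuous fun z : I × Y => χ z.1 z.2 a)
    (χ' : I → Y' → A →ₐ[ℂ] ℂ) (hc' : ∀ a, Continuous fun z : I × Y' => χ' z.1 z.2 a)
    (hm : ∀ t a, (hom (χ t) (cont_slice χ hc t) a, hom (χ' t) (cont_slice χ' hc' t) a) ∈ S)
    (φ₀ φ₁ : A →+* S)
    (h0 : ∀ a y, (φ₀ a : C(Y, ℂ) × C(Y', ℂ)).1 y = χ 0 y a)
    (h0' : ∀ a y, (φ₀ a : C(Y, ℂ) × C(Y', ℂ)).2 y = χ' 0 y a)
    (h1 : ∀ a y, (φ₁ a : C(Y, ℂ) × C(Y', ℂ)).1 y = χ 1 y a)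
    (h1' : ∀ a y, (φ₁ a : C(Y, ℂ) × C(Y', ℂ)).2 y = χ' 1 y a)
    (x : K0 A) : K0.map φ₀ x = K0.map φ₁ x := by
  have key := HInv313.map_apply_eq_of_homotopy (A := A) (B := S)
    (fun t => (((hom (χ t) (cont_slice χ hc t)).prod
      (hom (χ' t) (cont_slice χ' hc' t))).codRestrict S (hm t) : A →+* S))
    (fun a => ((cont_fam χ hc a).prodMk (cont_fam χ' hc' a)).subtype_mk _) x
  have e0 : φ₀ = (((hom (χ 0) (cont_slice χ hc 0)).prod
      (hom (χ' 0) (cont_slice χ' hc' 0))).codRestrict S (hm 0) : A →+* S) := by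
    refine RingHom.ext fun a => Subtype.ext (Prod.ext ?_ ?_)
    · ext y; exact h0 a y
    · ext y; exact h0' a y
  have e1 : φ₁ = (((hom (χ 1) (cont_slice χ hc 1)).prod
      (hom (χ' 1) (cont_slice χ' hc' 1))).codRestrict S (hm 1) : A →+* S) := by
    refine RingHom.ext fun a => Subtype.ext (Prod.ext ?_ ?_)
    · ext y; exact h1 a y
    · ext y; exact h1' a y
  rw [e0, e1]; exact key

/-! ### reparametrisations of the interval -/

/-- `min ((1 + τ) t) 1` -/
def sc (τ t : I) : I := Set.projIcc 0 1 zero_le_one ((1 + (τ : ℝ)) * t)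

/-- `min ((1 + τ) (1 - t)) 1` -/
def sd (τ t : I) : I := sc τ (σ t)

theorem cont_sc : Continuous fun z : I × I => sc z.1 z.2 := by
  unfold sc
  exact continuous_projIcc.comp (by fun_prop)

theorem cont_sd : Continuous fun z : I × I => sd z.1 z.2 :=
  cont_sc.comp (continuous_fst.prodMk (unitInterval.continuous_symm.comp continuous_snd))

@[fun_prop] theorem _root_.Continuous.n218sc {Z : Type*} [TopologicalSpace Z] {a b : Z → I}
    (ha : Continuous a) (hb : Continuous b) : Continuous fun z => sc (a z) (b z) :=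
  cont_sc.comp (ha.prodMk hb)

@[fun_prop] theorem _root_.Continuous.n218sd {Z : Type*} [TopologicalSpace Z] {a b : Z → I}
    (ha : Continuous a) (hb : Continuous b) : Continuous fun z => sd (a z) (b z) :=
  cont_sd.comp (ha.prodMk hb)

@[simp] theorem sc_zero_left (t : I) : sc 0 t = t := by
  unfold sc
  simp [Set.projIcc_val]

@[simp] theorem sc_zero (τ : I) : sc τ 0 = 0 := by
  unfold sc
  simp [Set.projIcc_left]

@[simp] theorem sc_one (τ : I) : sc τ 1 = 1 := by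
  unfold sc
  refine Set.projIcc_of_right_le _ ?_
  have := τ.2.1
  simp only [Set.Icc.coe_one, mul_one]
  linarith

theorem sc_half {t : I} (h : 1 / 2 ≤ (t : ℝ)) : sc 1 t = 1 := by
  unfold sc
  refine Set.projIcc_of_right_le _ ?_
  simp only [Set.Icc.coe_one]
  linarith

@[simp] theorem sd_zero_left (t : I) : sd 0 t = σ t := by simp [sd]

@[simp] theorem sd_zero (τ : I) : sd τ 0 = 1 := by simp [sd]

@[simp] theorem sd_one (τ : I) : sd τ 1 = 0 := by simp [sd]

theorem sd_half {t : I} (h : (t : ℝ) ≤ 1 / 2) : sd 1 t = 1 := by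
  refine sc_half ?_
  rw [unitInterval.coe_symm_eq]
  linarith

/-- gluing two continuous functions along the middle of the interval -/
theorem cont_glue {Z : Type*} [TopologicalSpace Z] {t : Z → I} (ht : Continuous t)
    {u v : Z → ℂ} (hu : Continuous u) (hv : Continuous v)
    (h : ∀ z, (t z : ℝ) = 1 / 2 → u z = v z) :
    Continuous fun z => if (t z : ℝ) ≤ 1 / 2 then u z else v z :=
  Continuous.if_le hu hv (by fun_prop) continuous_const h

end Crest.Agent.N218.Pw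
end
end

-- ▼ part N218/K/Pup

/-!
# N218/K/Pup: the Puppe sequence of a map of ex-spaces (helper94)

`K(S') → K(S) → K(Cn F) → K(B) → K(A)` is exact on reduced classes
(`ex`, `un1`, `un2`, `res_inc`, `pull_res`, `inc_sus`).
-/

set_option autoImplicit false

open Crest.Agent.R204 Crest.Agent.R204.K357 unitInterval Topology Set
open Crest.Agent.N218.Pw

noncomputable section

namespace Crest.Agent.N218.K.Pup

/-- algebra maps between commutative algebras -/
abbrev AH (R R' : Type) [CommRing R] [CommRing R'] [Algebra ℂ R] [Algebra ℂ R'] : Type :=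
  R →ₐ[ℂ] R'

/-- pull-back squares of commutative rings -/
abbrev SQ (P R R' Q : Type) [CommRing P] [CommRing R] [CommRing R'] [CommRing Q] : Type :=
  Ex837.Sq P R R' Q

section alg
variable {R R' R'' : Type} [CommRing R] [CommRing R'] [CommRing R''] [Algebra ℂ R] [Algebra ℂ R']
  [Algebra ℂ R'']

/-- functoriality -/
abbrev ka (φ : AH R R') : KC R →+* KC R' := KA φ

theorem ka_comp (φ : AH R R') (ψ : AH R' R'') (χ : AH R R'') (h : ∀ a, ψ (φ a) = χ a)
    (x : KC R) : ka ψ (ka φ x) = ka χ x := by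
  have : (χ : R →+* R'') = (ψ : R' →+* R'').comp (φ : R →+* R') := RingHom.ext fun a => (h a).symm
  change K0.map (ψ : R' →+* R'') (K0.map (φ : R →+* R') x) = K0.map (χ : R →+* R'') x
  rw [this, K0.map_comp]

theorem ka_sq {R₃ : Type} [CommRing R₃] [Algebra ℂ R₃] (φ : AH R R') (ψ : AH R' R'')
    (φ' : AH R R₃) (ψ' : AH R₃ R'') (h : ∀ a, ψ (φ a) = ψ' (φ' a)) (x : KC R) :
    ka ψ (ka φ x) = ka ψ' (ka φ' x) :=
  (ka_comp φ ψ (ψ'.comp φ') h x).trans (ka_comp φ' ψ' (ψ'.comp φ') (fun _ => rfl) x).symm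

theorem ka_id (φ : AH R R) (h : ∀ a, φ a = a) (x : KC R) : ka φ x = x := by
  have : (φ : R →+* R) = RingHom.id R := RingHom.ext h
  change K0.map (φ : R →+* R) x = x
  rw [this, K0.map_id]

theorem ka_ps (φ : AH R R') (x : KC R) : ps R' (ka φ x) = ka φ (ps R x) := psi_map φ x

/-- evaluation -/
def ev {Y : Type} [TopologicalSpace Y] (y : Y) : AH C(Y, ℂ) ℂ :=
  ContinuousMap.evalAlgHom ℂ ℂ y

@[simp] theorem ev_apply {Y : Type} [TopologicalSpace Y] (y : Y) (a : C(Y, ℂ)) : ev y a = a y := rfl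

/-- pull-back of functions -/
def cp {Y Y' : Type} [TopologicalSpace Y] [TopologicalSpace Y'] (f : C(Y, Y')) :
    AH C(Y', ℂ) C(Y, ℂ) := ContinuousMap.compRightAlgHom ℂ ℂ f

@[simp] theorem cp_apply {Y Y' : Type} [TopologicalSpace Y] [TopologicalSpace Y'] (f : C(Y, Y'))
    (a : C(Y', ℂ)) (y : Y) : cp f a y = a (f y) := rfl

theorem pull_def {Y Y' : Type} [TopologicalSpace Y] [TopologicalSpace Y'] (f : C(Y, Y'))
    (x : KX Y') : pull f x = ka (cp f) x := rfl

theorem pull_pull {Y Y' Y'' : Type} [TopologicalSpace Y] [TopologicalSpace Y']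
    [TopologicalSpace Y''] (f : C(Y, Y')) (g : C(Y', Y'')) (h : C(Y, Y'')) (e : ∀ y, g (f y) = h y)
    (x : KX Y'') : pull f (pull g x) = pull h x :=
  ka_comp (cp g) (cp f) (cp h) (fun a => ContinuousMap.ext fun y => congrArg a (e y)) x

theorem pull_id {Y : Type} [TopologicalSpace Y] (f : C(Y, Y)) (e : ∀ y, f y = y) (x : KX Y) :
    pull f x = x := ka_id (cp f) (fun a => ContinuousMap.ext fun y => congrArg a (e y)) x

theorem pull_ps {Y Y' : Type} [TopologicalSpace Y] [TopologicalSpace Y'] (f : C(Y, Y'))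
    (x : KX Y') : ps _ (pull f x) = pull f (ps _ x) := ka_ps (cp f) x


end alg

variable {X : Type} [TopologicalSpace X] {A B S S' : Ex X}

/-- the identity map -/
def idH (A : Ex X) : H1 A A := ⟨.id _, fun _ => rfl, fun _ => rfl⟩

theorem hp1 (F : H1 A B) (e : A.E) : B.p (F.f e) = A.p e := F.hp e
theorem hs1 (F : H1 A B) (x : X) : F.f (A.s x) = B.s x := F.hs x

theorem cn0 {F : H1 A B} (u : Cn F) (e : A.E) : u.1.1 (e, 0) = u.1.2 (F.f e) := u.2.1 e
theorem cn1 {F : H1 A B} (u : Cn F) (e : A.E) : u.1.1 (e, 1) = u.1.2 (B.s (A.p e)) := u.2.2.1 e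
theorem cns {F : H1 A B} (u : Cn F) (x : X) (t : I) : u.1.1 (A.s x, t) = u.1.2 (B.s x) :=
  u.2.2.2 x t

theorem cn_ext {F : H1 A B} {u v : Cn F} (h1 : ∀ z, u.1.1 z = v.1.1 z)
    (h2 : ∀ z, u.1.2 z = v.1.2 z) : u = v :=
  Subtype.ext (Prod.ext (ContinuousMap.ext h1) (ContinuousMap.ext h2))

instance cn_complete (F : H1 A B) : CompleteSpace (Cn F) := by
  suffices h : IsClosed (Cn F : Set (C(A.E × I, ℂ) × C(B.E, ℂ))) from h.completeSpace_coe
  have : (Cn F : Set (C(A.E × I, ℂ) × C(B.E, ℂ))) =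
      (⋂ e, {u | u.1 (e, 0) = u.2 (F.f e)}) ∩ ((⋂ e, {u | u.1 (e, 1) = u.2 (B.s (A.p e))}) ∩
        ⋂ x, ⋂ t, {u | u.1 (A.s x, t) = u.2 (B.s x)}) := by
    ext u
    simp only [mem_inter_iff, mem_iInter, mem_ofPred_eq]
    rfl
  rw [this]
  refine (isClosed_iInter fun e => isClosed_eq ?_ ?_).inter
    ((isClosed_iInter fun e => isClosed_eq ?_ ?_).inter
      (isClosed_iInter fun x => isClosed_iInter fun t => isClosed_eq ?_ ?_)) <;> fun_prop

/-- restriction to the target -/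
def rs (F : H1 A B) : AH (Cn F) C(B.E, ℂ) := Cn.res F
/-- functions from the base -/
def bs (F : H1 A B) : AH C(X, ℂ) (Cn F) := Cn.bas F
/-- functions from the suspension -/
def ic (F : H1 A B) (D : SD A S) : AH C(S.E, ℂ) (Cn F) := Cn.inc F D
/-- the cylinder component -/
def cy (F : H1 A B) : AH (Cn F) C(A.E × I, ℂ) := (AlgHom.fst ℂ _ _).comp (Cn F).val

/-- restriction to the target, in K-theory -/
abbrev kr (F : H1 A B) : KC (Cn F) →+* KX B.E := ka (rs F)
/-- classes from the base -/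
abbrev kb (F : H1 A B) : KX X →+* KC (Cn F) := ka (bs F)
/-- classes from the suspension -/
abbrev ki (F : H1 A B) (D : SD A S) : KX S.E →+* KC (Cn F) :=
  ka (ic F D)

theorem ecl_iff (F : H1 A B) (D : SD A S) (l : KX B.E) (ρ : KX X) (x : KX S.E) :
    Ecl F D l ρ x ↔ S.Rd x ∧ ∃ μ : KC (Cn F), kr F μ = l ∧
      ps _ μ - kb F ρ * μ = ki F D x := Iff.rfl

@[simp] theorem rs_apply (F : H1 A B) (u : Cn F) : rs F u = u.1.2 := rfl
@[simp] theorem cy_apply (F : H1 A B) (u : Cn F) : cy F u = u.1.1 := rfl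
@[simp] theorem bs_1 (F : H1 A B) (a : C(X, ℂ)) (z : A.E × I) : (bs F a).1.1 z = a (A.p z.1) := rfl
@[simp] theorem bs_2 (F : H1 A B) (a : C(X, ℂ)) (z : B.E) : (bs F a).1.2 z = a (B.p z) := rfl
@[simp] theorem ic_1 (F : H1 A B) (D : SD A S) (a : C(S.E, ℂ)) (z : A.E × I) :
    (ic F D a).1.1 z = a (D.c z) := rfl
@[simp] theorem ic_2 (F : H1 A B) (D : SD A S) (a : C(S.E, ℂ)) (z : B.E) :
    (ic F D a).1.2 z = a (S.s (B.p z)) := rfl

/-- evaluation of the cylinder component -/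
def e1 (F : H1 A B) (z : A.E × I) : AH (Cn F) ℂ := (ev z).comp (cy F)
/-- evaluation of the target component -/
def e2 (F : H1 A B) (z : B.E) : AH (Cn F) ℂ := (ev z).comp (rs F)

@[simp] theorem e1_apply (F : H1 A B) (z : A.E × I) (u : Cn F) : e1 F z u = u.1.1 z := rfl
@[simp] theorem e2_apply (F : H1 A B) (z : B.E) (u : Cn F) : e2 F z u = u.1.2 z := rfl

theorem res_surj (F : H1 A B) : Function.Surjective (rs F) := fun b =>
  ⟨⟨(⟨fun z => (1 - ((z.2 : ℝ) : ℂ)) * b (F.f z.1) + ((z.2 : ℝ) : ℂ) * b (B.s (A.p z.1)),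
      by fun_prop⟩, b), fun e => by simp, fun e => by simp, fun x t => by
        simp only [ContinuousMap.coe_mk, hs1, A.ps]; ring⟩, rfl⟩

/-! ### suspensions -/

theorem sd_cont {T Z : Type} [TopologicalSpace T] [CompactSpace T] [T2Space T]
    [TopologicalSpace Z] (D : SD A S) (g : T × S.E → Z)
    (h : Continuous fun z : T × (A.E × I) => g (z.1, D.c z.2)) : Continuous g := by
  have hc : Continuous (Prod.map id D.c : T × (A.E × I) → T × S.E) :=
    continuous_id.prodMap D.c.continuous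
  have : IsQuotientMap (Prod.map id D.c : T × (A.E × I) → T × S.E) :=
    hc.isClosedMap.isQuotientMap hc (Function.surjective_id.prodMap D.surj)
  exact this.continuous_iff.2 h

theorem sd_cont0 {Z : Type} [TopologicalSpace Z] (D : SD A S) (g : S.E → Z)
    (h : Continuous fun z : A.E × I => g (D.c z)) : Continuous g :=
  (D.c.continuous.isClosedMap.isQuotientMap D.c.continuous D.surj).continuous_iff.2 h

/-- descent of a function on the cylinder -/
def dn {Z : Type} (D : SD A S) (χ : A.E × I → Z) (y : S.E) : Z := χ (Function.surjInv D.surj y)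

theorem dn_c {Z : Type} (D : SD A S) (χ : A.E × I → Z) (k : X → Z)
    (hb : ∀ z, A.Bd z → χ z = k (A.p z.1)) (z : A.E × I) : dn D χ (D.c z) = χ z := by
  have e := Function.surjInv_eq D.surj (D.c z)
  rcases D.inj _ _ e with h | ⟨h, h'⟩
  · exact congrArg χ h
  · unfold dn
    rw [hb _ h, hb _ h', ← D.hp, e, D.hp]

theorem bd_s (A : Ex X) (x : X) (t : I) : A.Bd (A.s x, t) :=
  .inr (.inr (congrArg A.s (A.ps x).symm))

theorem c_s (D : SD A S) (x : X) (t : I) : D.c (A.s x, t) = S.s x := by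
  rw [D.bd _ (bd_s A x t), A.ps]
theorem c_0 (D : SD A S) (e : A.E) : D.c (e, 0) = S.s (A.p e) := D.bd _ (.inl rfl)
theorem c_1 (D : SD A S) (e : A.E) : D.c (e, 1) = S.s (A.p e) := D.bd _ (.inr (.inl rfl))

theorem bd_ind {P : A.E × I → Prop} (h0 : ∀ e, P (e, 0)) (h1 : ∀ e, P (e, 1))
    (hs : ∀ x t, P (A.s x, t)) (z : A.E × I) (hz : A.Bd z) : P z := by
  obtain ⟨e, t⟩ := z
  rcases hz with h | h | h
  · obtain rfl : t = 0 := h; exact h0 e
  · obtain rfl : t = 1 := h; exact h1 e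
  · have h' : e = A.s (A.p e) := h
    rw [h']; exact hs _ t

/-- maps out of a suspension -/
theorem sd_desc {Z : Type} [TopologicalSpace Z] (D : SD A S) (G : A.E × I → Z)
    (hG : Continuous G) (k : X → Z) (hb : ∀ z, A.Bd z → G z = k (A.p z.1)) :
    ∃ g : C(S.E, Z), ∀ z, g (D.c z) = G z :=
  ⟨⟨dn D G, sd_cont0 D _ (by simpa only [dn_c D G k hb] using hG)⟩, dn_c D G k hb⟩

section hom
variable {R : Type} [CommRing R] [Algebra ℂ R]

/-- algebra maps into the functions on a suspension -/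
theorem sd_hom (D : SD A S) (χ : A.E × I → R →ₐ[ℂ] ℂ) (hc : ∀ a, Continuous fun z => χ z a)
    (k : X → R →ₐ[ℂ] ℂ) (hb : ∀ z, A.Bd z → χ z = k (A.p z.1)) :
    ∃ φ : AH R C(S.E, ℂ), ∀ a z, φ a (D.c z) = χ z a :=
  ⟨hom (dn D χ) fun a => sd_cont0 D _ (by simpa only [dn_c D χ k hb] using hc a),
    fun a z => by rw [hom_apply, dn_c D χ k hb]⟩

/-- homotopies of such maps -/
theorem sd_htp (D : SD A S) (χ : I → A.E × I → R →ₐ[ℂ] ℂ)
    (hc : ∀ a, Continuous fun z : I × (A.E × I) => χ z.1 z.2 a) (k : I → X → R →ₐ[ℂ] ℂ)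
    (hb : ∀ τ z, A.Bd z → χ τ z = k τ (A.p z.1)) (φ₀ φ₁ : AH R C(S.E, ℂ))
    (h0 : ∀ a z, φ₀ a (D.c z) = χ 0 z a) (h1 : ∀ a z, φ₁ a (D.c z) = χ 1 z a) (x : KC R) :
    ka φ₀ x = ka φ₁ x :=
  htp0 (A := R) (fun τ => dn D (χ τ))
    (fun a => sd_cont D _ (by simpa only [fun τ => dn_c D (χ τ) (k τ) (hb τ)] using hc a))
    (φ₀ : R →+* C(S.E, ℂ)) (φ₁ : R →+* C(S.E, ℂ))
    (fun a y => by
      obtain ⟨z, rfl⟩ := D.surj y
      rw [dn_c D _ _ (hb 0)]; exact h0 a z)
    (fun a y => by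
      obtain ⟨z, rfl⟩ := D.surj y
      rw [dn_c D _ _ (hb 1)]; exact h1 a z) x

/-- homotopies of maps into a cone algebra -/
theorem cn_htp (F : H1 A B) (χ : I → A.E × I → R →ₐ[ℂ] ℂ)
    (hc : ∀ a, Continuous fun z : I × (A.E × I) => χ z.1 z.2 a) (χ' : I → B.E → R →ₐ[ℂ] ℂ)
    (hc' : ∀ a, Continuous fun z : I × B.E => χ' z.1 z.2 a)
    (m0 : ∀ τ e a, χ τ (e, 0) a = χ' τ (F.f e) a)
    (m1 : ∀ τ e a, χ τ (e, 1) a = χ' τ (B.s (A.p e)) a)
    (ms : ∀ τ x t a, χ τ (A.s x, t) a = χ' τ (B.s x) a) (φ₀ φ₁ : AH R (Cn F))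
    (h0 : ∀ a z, (φ₀ a).1.1 z = χ 0 z a) (h0' : ∀ a z, (φ₀ a).1.2 z = χ' 0 z a)
    (h1 : ∀ a z, (φ₁ a).1.1 z = χ 1 z a) (h1' : ∀ a z, (φ₁ a).1.2 z = χ' 1 z a) (x : KC R) :
    ka φ₀ x = ka φ₁ x :=
  htp2 (A := R) (Cn F) χ hc χ' hc' (fun τ a => ⟨fun e => m0 τ e a, fun e => m1 τ e a,
    fun x t => ms τ x t a⟩) (φ₀ : R →+* Cn F) (φ₁ : R →+* Cn F) h0 h0' h1 h1' x

/-- algebra maps into a cone algebra -/
def cnHom (F : H1 A B) (φ : AH R C(A.E × I, ℂ)) (ψ : AH R C(B.E, ℂ))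
    (m0 : ∀ e a, φ a (e, 0) = ψ a (F.f e)) (m1 : ∀ e a, φ a (e, 1) = ψ a (B.s (A.p e)))
    (ms : ∀ x t a, φ a (A.s x, t) = ψ a (B.s x)) : AH R (Cn F) :=
  (φ.prod ψ).codRestrict (Cn F) fun a => ⟨fun e => m0 e a, fun e => m1 e a, fun x t => ms x t a⟩


end hom

/-- the suspension of a map exists -/
theorem exists_sus (F : H1 A B) (D : SD A S) (D' : SD B S') :
    ∃ G : H1 S S', ∀ e t, G.f (D.c (e, t)) = D'.c (F.f e, t) := by
  obtain ⟨g, hg⟩ := sd_desc D (fun z => D'.c (F.f z.1, z.2)) (by fun_prop) S'.s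
    (bd_ind (fun e => by simp only [c_0, hp1]) (fun e => by simp only [c_1, hp1])
      fun x t => by simp only [hs1, c_s, A.ps])
  refine ⟨⟨g, fun y => ?_, fun x => ?_⟩, fun e t => hg (e, t)⟩
  · obtain ⟨z, rfl⟩ := D.surj y
    rw [hg, D'.hp, hp1]; exact (D.hp z).symm
  · rw [← c_s D x 0, hg, hs1, c_s]; rfl

/-! ### compositions -/

theorem res_bas (F : H1 A B) (a : KX X) : kr F (kb F a) = pull B.p a :=
  ka_comp _ _ (cp B.p) (fun _ => rfl) a

theorem inc_p (F : H1 A B) (D : SD A S) (a : KX X) :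
    ki F D (pull S.p a) = kb F a :=
  ka_comp (cp S.p) _ _ (fun a => cn_ext (fun z => congrArg a (D.hp z))
    fun _ => congrArg a (S.ps _)) a

theorem inc_sm (F : H1 A B) (D : SD A S) (a : KX X) (x : KX S.E) :
    ki F D (S.sm a x) = kb F a * ki F D x := by
  rw [Ex.sm, map_mul, inc_p]

theorem res_inc' (F : H1 A B) (D : SD A S) (x : KX S.E) :
    kr F (ki F D x) = pull B.p (pull S.s x) :=
  (ka_comp (ic F D) (rs F) (cp (S.s.comp B.p)) (fun _ => ContinuousMap.ext fun _ => rfl) x).trans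
    (pull_pull B.p S.s (S.s.comp B.p) (fun _ => rfl) x).symm

theorem res_inc (F : H1 A B) (D : SD A S) {x : KX S.E} (hx : S.Rd x) :
    kr F (ki F D x) = 0 := by
  rw [res_inc', show pull S.s x = 0 from hx, map_zero]



theorem inc_sus' (F : H1 A B) (D : SD A S) (D' : SD B S') (G : H1 S S')
    (hG : ∀ e t, G.f (D.c (e, t)) = D'.c (F.f e, t)) (y : KX S'.E) :
    ki F D (pull G.f y) = kb F (pull S'.s y) := by
  rw [pull_def, pull_def, ka_comp _ _ ((ic F D).comp (cp G.f)) (fun _ => rfl),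
    ka_comp _ _ ((bs F).comp (cp S'.s)) (fun _ => rfl)]
  refine cn_htp F (fun τ z => ev (D'.c (F.f z.1, σ (σ τ * σ z.2))))
    (fun a => a.continuous.comp (by fun_prop)) (fun τ b => ev (D'.c (b, τ)))
    (fun a => a.continuous.comp (by fun_prop)) (fun τ e a => by simp) (fun τ e a => by
      simp [c_1, c_s, hp1]) (fun τ x t a => by simp [c_s, hs1]) _ _ (fun a z => ?_)
      (fun a z => ?_) (fun a z => ?_) (fun a z => ?_) y
  · exact congrArg a (by simpa using hG z.1 z.2)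
  · exact congrArg a (by rw [c_0]; exact hs1 G _)
  · exact congrArg a (by simp [c_1, hp1])
  · exact congrArg a (by rw [c_1])

theorem inc_sus (F : H1 A B) (D : SD A S) (D' : SD B S') (G : H1 S S')
    (hG : ∀ e t, G.f (D.c (e, t)) = D'.c (F.f e, t)) {y : KX S'.E} (hy : S'.Rd y) :
    ki F D (pull G.f y) = 0 := by
  rw [inc_sus' F D D' G hG, show pull S'.s y = 0 from hy, map_zero]

/-! ### exactness -/

/-- the cone as a pull-back -/
def sqC (F : H1 A B) : SQ (Cn F) (Cn (idH A)) C(B.E, ℂ) C(A.E, ℂ) where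
  p1 := (cnHom (idH A) (cy F) ((cp F.f).comp (rs F))
    (fun e a => cn0 a e) (fun e a => (cn1 a e).trans (congrArg a.1.2 (hs1 F _).symm))
    (fun x t a => (cns a x t).trans (congrArg a.1.2 (hs1 F _).symm))).toRingHom
  p2 := (rs F).toRingHom
  al := (rs (idH A)).toRingHom
  be := (cp F.f).toRingHom
  comm _ := rfl
  lift v b h := by
    have h' : ∀ e, v.1.2 e = b (F.f e) := fun e => DFunLike.congr_fun h e
    refine ⟨⟨(v.1.1, b), fun e => (cn0 v e).trans (h' _), fun e => ?_, fun x t => ?_⟩,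
      cn_ext (fun _ => rfl) fun e => (h' e).symm, rfl⟩
    · exact (cn1 v e).trans ((h' _).trans (congrArg b (hs1 F _)))
    · exact (cns v x t).trans ((h' _).trans (congrArg b (hs1 F _)))
  inj u v h1 h2 := cn_ext (fun z => congrArg (fun w : Cn (idH A) => w.1.1 z) h1)
    fun z => DFunLike.congr_fun h2 z

/-- the suspension as a pull-back -/
def sqS (F : H1 A B) (D : SD A S) : SQ C(S.E, ℂ) (Cn F) C(X, ℂ) C(B.E, ℂ) where
  p1 := (ic F D).toRingHom
  p2 := (cp S.s).toRingHom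
  al := (rs F).toRingHom
  be := (cp B.p).toRingHom
  comm _ := rfl
  lift u c h := by
    have h' : ∀ e, u.1.2 e = c (B.p e) := fun e => DFunLike.congr_fun h e
    obtain ⟨g, hg⟩ := sd_desc D u.1.1 u.1.1.continuous c
      (bd_ind (fun e => by rw [cn0, h', hp1]) (fun e => by rw [cn1, h', B.ps])
        fun x t => by rw [cns, h', B.ps, A.ps])
    have hs : ∀ x, g (S.s x) = c x := fun x => by rw [← c_s D x 0, hg, cns, h', B.ps]
    exact ⟨g, cn_ext hg fun e => (hs _).trans (h' e).symm, ContinuousMap.ext hs⟩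
  inj g g' h1 _ := ContinuousMap.ext fun y => by
    obtain ⟨z, rfl⟩ := D.surj y
    exact congrArg (fun w : Cn F => w.1.1 z) h1

/-- exactness at `K(B)` -/
theorem ex' (F : H1 A B) {l : KX B.E} (h : pull F.f l = pull A.p (pull B.s l)) :
    ∃ μ : KC (Cn F), kr F μ = l := by
  obtain ⟨μ, -, h2⟩ := (sqC F).K0_mid (res_surj (idH A)) (a := kb (idH A) (pull B.s l))
    (b := l) ((res_bas (idH A) _).trans h.symm)
  exact ⟨μ, h2⟩

theorem ex (F : H1 A B) {l : KX B.E} (hl : B.Rd l) (h : pull F.f l = 0) :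
    ∃ μ : KC (Cn F), kr F μ = l :=
  ex' F (by rw [h, show pull B.s l = 0 from hl, map_zero])

/-- exactness at `K(Cn F)` -/
theorem un1 (F : H1 A B) (D : SD A S) {μ : KC (Cn F)} (h : kr F μ = 0) :
    ∃ x, S.Rd x ∧ ki F D x = μ := by
  obtain ⟨x, h1, h2⟩ := (sqS F D).K0_mid (res_surj F) (a := μ) (b := 0)
    (h.trans (map_zero _).symm)
  exact ⟨x, h2, h1⟩

end Crest.Agent.N218.K.Pup
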